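import Vale.Agent.P287Q.G.Vir.Defs

/-!
# The tangent cone of the equations and the pointwise cone estimate
-/

set_option linter.unusedSectionVars false

namespace Vale.Agent.P269

open Set Function Topology Filter Module MvPolynomial Vir Base

variable {S Λ R J K ι ν κ α : Type} [Fintype S] [Fintype Λ] [Fintype R] [Fintype J] [Fintype K]
  [Fintype ι] [DecidableEq ι] [Fintype ν] [Fintype κ] {ch : Ch ι J} {F : Fam S Λ R J K}
  {e : K → ι → ℕ} {σ : K → Finset (J →₀ ℕ)} {ℓ : R → ι → ℤ} {K₀ : RD R} {K₁ : Set K} {l : Filter α}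
  {x x₀ : ch.WF ν κ Λ}

theorem Vir.exists_hadamard (p : MvPolynomial J ℂ) : ∃ q : J → MvPolynomial (J ⊕ J) ℂ,
    (∀ a b : J → ℂ, eval (a + b) p = eval a p + ∑ j, eval (Sum.elim a b) (q j) * b j) ∧
    ∀ a j, eval (Sum.elim a 0) (q j) = eval a (pderiv j p) := by
  classical
  induction p using MvPolynomial.induction_on with
  | C c => exact ⟨0, by simp, by simp⟩
  | add p p' h h' =>
    obtain ⟨q, a1, a2⟩ := h
    obtain ⟨q', b1, b2⟩ := h'
    refine ⟨q + q', fun a b => ?_, fun a j => by simp [a2, b2]⟩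
    simp only [map_add, a1, b1, Pi.add_apply, add_mul, Finset.sum_add_distrib]
    ring
  | mul_X p i h =>
    obtain ⟨q, a1, a2⟩ := h
    have r : ∀ a b : J → ℂ, eval (Sum.elim a b) (rename Sum.inl p) = eval a p := fun a b => by
      rw [eval_rename]; rfl
    refine ⟨fun j => q j * (X (.inl i) + X (.inr i)) + if j = i then rename Sum.inl p else 0,
      fun a b => ?_, fun a j => ?_⟩
    · have : ∀ j, eval (Sum.elim a b) (q j * (X (.inl i) + X (.inr i)) +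
          if j = i then rename Sum.inl p else 0) * b j =
          eval (Sum.elim a b) (q j) * b j * (a i + b i) + if j = i then eval a p * b i else 0 :=
        fun j => by
          split_ifs with hj
          · subst hj
            simp only [map_add, map_mul, eval_X, Sum.elim_inl, Sum.elim_inr, r]
            ring
          · simp only [map_add, map_mul, eval_X, Sum.elim_inl, Sum.elim_inr, add_zero]
            ring
      simp only [this, Finset.sum_add_distrib, ← Finset.sum_mul, Finset.sum_ite_eq',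
        Finset.mem_univ, if_true, map_mul, eval_X, a1, Pi.add_apply]
      ring
    · by_cases hj : j = i
      · subst hj
        simp [a2, r, mul_comm, add_comm]
      · simp [a2, hj, mul_comm]

namespace Vir

/-- a polynomial with given support and coefficients -/
noncomputable def plw (T : Finset (J →₀ ℕ)) (c : (J →₀ ℕ) → ℂ) : MvPolynomial J ℂ :=
  ∑ β ∈ T, monomial β (c β)

/-- divided differences -/
noncomputable def dd (T : Finset (J →₀ ℕ)) (c : (J →₀ ℕ) → ℂ) (a b : J → ℂ) (j : J) : ℂ :=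
  ∑ β ∈ T, c β * eval (Sum.elim a b) ((exists_hadamard (monomial β (1 : ℂ))).choose j)

variable {T : Finset (J →₀ ℕ)} {c : (J →₀ ℕ) → ℂ}

theorem plw_eq : plw T c = ∑ β ∈ T, C (c β) * monomial β 1 :=
  Finset.sum_congr rfl fun β _ => by rw [C_mul_monomial, mul_one]

theorem eval_add_plw (a b : J → ℂ) :
    eval (a + b) (plw T c) = eval a (plw T c) + ∑ j, dd T c a b j * b j := by
  simp only [plw_eq, map_sum, map_mul, eval_C, dd, Finset.sum_mul]
  rw [Finset.sum_comm, ← Finset.sum_add_distrib]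
  refine Finset.sum_congr rfl fun β _ => ?_
  rw [(exists_hadamard (monomial β (1 : ℂ))).choose_spec.1, mul_add, Finset.mul_sum]
  simp only [mul_assoc]

theorem dd_zero (a : J → ℂ) (j : J) : dd T c a 0 j = eval a (pderiv j (plw T c)) := by
  simp only [plw_eq, map_sum, pderiv_C_mul, map_mul, eval_C, dd,
    (exists_hadamard (monomial _ (1 : ℂ))).choose_spec.2]

theorem tendsto_dd {c : α → (J →₀ ℕ) → ℂ} {c₀ : (J →₀ ℕ) → ℂ} {a b : α → J → ℂ} {a₀ b₀ : J → ℂ}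
    (hc : ∀ β, Tendsto (fun t => c t β) l (𝓝 (c₀ β))) (ha : Tendsto a l (𝓝 a₀))
    (hb : Tendsto b l (𝓝 b₀)) (j : J) :
    Tendsto (fun t => dd T (c t) (a t) (b t) j) l (𝓝 (dd T c₀ a₀ b₀ j)) :=
  tendsto_finsetSum _ fun β _ => (hc β).mul (((MvPolynomial.continuous_eval _).tendsto _).comp
    (tendsto_pi_nhds.2 fun s => by
      cases s
      exacts [tendsto_pi_nhds.1 ha _, tendsto_pi_nhds.1 hb _]))

theorem tendsto_of_mulVec {n : Type} [Fintype n] [DecidableEq n] {M : α → Matrix n n ℂ}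
    {s : α → n → ℂ} {c : n → ℂ} (h1 : Tendsto M l (𝓝 1))
    (h2 : Tendsto (fun a => (M a).mulVec (s a)) l (𝓝 c)) : Tendsto s l (𝓝 c) := by
  have a1 : Tendsto (fun a => (M a)⁻¹) l (𝓝 (1 : Matrix n n ℂ)⁻¹) :=
    (continuousAt_matrix_inv (1 : Matrix n n ℂ) (by
      rw [Matrix.det_one]
      exact NormedRing.inverse_continuousAt (1 : ℂˣ))).tendsto.comp h1
  have a2 : ∀ᶠ a in l, (M a).det ≠ 0 :=
    ((continuous_id.matrix_det.tendsto _).comp h1).eventually_ne (by simp)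
  have a3 := ((continuous_fst.matrix_mulVec continuous_snd).tendsto _).comp (a1.prodMk_nhds h2)
  simp only [inv_one, Matrix.one_mulVec] at a3
  refine a3.congr' (a2.mono fun a h => ?_)
  simp only [comp_apply, Matrix.mulVec_mulVec]
  rw [Matrix.nonsing_inv_mul _ h.isUnit, Matrix.one_mulVec]

end Vir

theorem Fam.fib_eq (b : Λ → ℂ) (k : K) :
    (F.fib b).F k = plw (F.G k).support fun β => eval b (coeff β (F.G k)) := by
  change MvPolynomial.map (eval b) (F.G k) = _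
  conv_lhs => rw [(F.G k).as_sum]
  simp only [map_sum, map_monomial, plw]

theorem Fam.contDiff_eqn (k : K) : ContDiff ℂ 1 fun z => F.eqn z k := by
  simp only [Fam.eqn, Fam.eval_fib]
  exact ContDiff.sum fun β _ =>
    ((AnalyticOnNhd.eval_mvPolynomial _).contDiff.comp contDiff_fst).mul
      (contDiff_prod fun j _ => by fun_prop)

theorem Fam.continuous_eqn (k : K) : Continuous fun z => F.eqn z k :=
  (Fam.contDiff_eqn k).continuous

theorem Fam.continuous_jac (k : K) (j : J) : Continuous fun z => F.jac z k j := by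
  simp only [Fam.jac, Fam.fib_eq, ← dd_zero]
  exact continuous_iff_continuousAt.2 fun z => tendsto_dd
    (fun β => ((MvPolynomial.continuous_eval _).comp continuous_fst).tendsto z)
    (continuous_snd.tendsto z) tendsto_const_nhds j

theorem Fam.bs_congr (hF : F.Inv) {b : Λ → ℂ} {y y' : J → ℂ} (h : (b, y) ∈ F.bs)
    (e : ∀ j ∉ F.mov, y j = y' j) : (b, y') ∈ F.bs :=
  ⟨h.1, hF.baseE _ _ _ e h.2.1, fun j hj =>
    (e j (Set.disjoint_left.1 hF.zer_base hj)).symm.trans (h.2.2 j hj)⟩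

open Classical in
theorem Fam.RegAt.tan' (hF : F.Inv) {z₀ : (Λ → ℂ) × (J → ℂ)} (h : F.RegAt K₁ z₀)
    (hz : z₀ ∈ F.cone) :
    ∃ η : K₁ → J → ℂ, (∀ k, ∀ j ∉ F.mov, η k j = 0) ∧
      ∀ {α : Type} {l : Filter α} {z : α → (Λ → ℂ) × (J → ℂ)}, (∀ᶠ a in l, z a ∈ F.bs) →
        Tendsto z l (𝓝 z₀) → ∀ {r : α → ℂ} {c : K → ℂ},
        (∀ k ∈ K₁, Tendsto (fun a => r a * F.eqn (z a) k) l (𝓝 (c k))) →
        ∀ k, Tendsto (fun a => r a * F.eqn (z a) k) l
          (𝓝 (∑ j, F.jac z₀ k j * ∑ k' : K₁, c k' * η k' j)) := by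
  choose η h1 h2 using fun k : K₁ => h.ind (Pi.single k.1 1)
  have h3 : ∀ k k' : K₁, ∑ j, F.jac z₀ k j * η k' j = (1 : Matrix K₁ K₁ ℂ) k k' := fun k k' => by
    rw [h2 k' k k.2, Matrix.one_apply, Pi.single_apply]
    simp only [Subtype.ext_iff]
  have sw : ∀ (q : J → ℂ) (s : K₁ → ℂ), ∑ j, q j * ∑ k', s k' * η k' j =
      ∑ k', (∑ j, q j * η k' j) * s k' := fun q s => by
    simp only [Finset.mul_sum, Finset.sum_mul]
    rw [Finset.sum_comm]
    exact Finset.sum_congr rfl fun _ _ => Finset.sum_congr rfl fun _ _ => by ring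
  refine ⟨η, h1, fun {α l z} b1 b2 r c b3 => ?_⟩
  let f : ((Λ → ℂ) × (J → ℂ)) × (K₁ → ℂ) → K₁ → ℂ := fun p k =>
    F.eqn (p.1.1, p.1.2 + fun j => ∑ k', p.2 k' * η k' j) k
  have an : HasStrictFDerivAt f (fderiv ℂ f (z₀, 0)) (z₀, 0) :=
    (contDiff_pi.2 fun k : K₁ => (Fam.contDiff_eqn (F := F) k.1).comp
      (f := fun p : ((Λ → ℂ) × (J → ℂ)) × (K₁ → ℂ) =>
        (p.1.1, p.1.2 + fun j => ∑ k', p.2 k' * η k' j)) (by fun_prop)).contDiffAt.hasStrictFDerivAt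
      one_ne_zero
  have inv : (fderiv ℂ f (z₀, 0) ∘L .inr ℂ _ _).IsInvertible := by
    refine ⟨ContinuousLinearEquiv.refl ℂ _, ContinuousLinearMap.ext fun s => _root_.funext fun k => ?_⟩
    have d1 : HasDerivAt (fun ε : ℂ => (z₀, ε • s)) ((0 : (Λ → ℂ) × (J → ℂ)), s) 0 := by
      simpa using (hasDerivAt_const (0 : ℂ) z₀).prodMk ((hasDerivAt_id (0 : ℂ)).smul_const s)
    have d2 := hasDerivAt_pi.1 (HasFDerivAt.comp_hasDerivAt_of_eq (0 : ℂ)
      an.hasFDerivAt d1 (by simp)) k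
    have d3 := hasDerivAt_eval ((F.fib z₀.1).F k) z₀.2 fun j => ∑ k', s k' * η k' j
    have d4 := d3.unique (d2.congr_of_eventuallyEq (.of_forall fun ε => by
      simp only [f, comp_apply, Fam.eqn, Pi.smul_apply, smul_eq_mul, Finset.mul_sum, mul_assoc]
      rfl))
    refine Eq.trans ?_ d4
    change s k = ∑ j, F.jac z₀ k j * _
    rw [sw]
    simp only [h3]
    exact (congrFun (Matrix.one_mulVec s) k).symm
  have t1 := (an.tendsto_implicitFunctionOfProdDomain inv).comp b2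
  have t2 := b2.eventually (an.eventually_apply_implicitFunctionOfProdDomain inv)
  generalize an.implicitFunctionOfProdDomain inv = ψ at t1 t2
  have t3 : Tendsto (fun a j => ∑ k', ψ (z a) k' * η k' j) l (𝓝 0) := tendsto_pi_nhds.2 fun j => by
    simpa using tendsto_finsetSum Finset.univ fun k' _ =>
      (tendsto_pi_nhds.1 t1 k').mul_const (η k' j)
  have t4 : Tendsto (fun a => ((z a).1, (z a).2 + fun j => ∑ k', ψ (z a) k' * η k' j)) l (𝓝 z₀) := by
    simpa using b2.fst_nhds.prodMk_nhds (b2.snd_nhds.add t3)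
  let q : α → K → J → ℂ := fun a k => dd (F.G k).support (fun β => eval (z a).1 (coeff β (F.G k)))
    (z a).2 fun j => ∑ k', ψ (z a) k' * η k' j
  have t5 : ∀ k j, Tendsto (fun a => q a k j) l (𝓝 (F.jac z₀ k j)) := fun k j => by
    rw [Fam.jac, Fam.fib_eq, ← dd_zero]
    exact tendsto_dd (fun β => ((MvPolynomial.continuous_eval _).tendsto _).comp b2.fst_nhds)
      b2.snd_nhds t3 j
  have t6 : ∀ᶠ a in l, ∀ k, ∑ j, q a k j * ∑ k', -(r a * ψ (z a) k') * η k' j =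
      r a * F.eqn (z a) k := by
    filter_upwards [b1, t2, t4.eventually h.cut] with a c1 c2 c3 k
    have c4 := c3 (Fam.bs_congr hF c1 fun j hj => by simp [h1 _ j hj]) (fun k hk => by
      refine (congrFun c2 ⟨k, hk⟩).trans ?_
      simp only [f, Pi.zero_apply, zero_mul, Finset.sum_const_zero]
      exact (congrArg (fun y => F.eqn (z₀.1, y) k) (add_zero z₀.2)).trans
        ((F.mem_cone.1 hz).2.2 k)) k
    rw [Fam.eqn, Fam.fib_eq, eval_add_plw, ← Fam.fib_eq] at c4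
    rw [Fam.eqn, eq_neg_of_add_eq_zero_left c4]
    simp only [q, neg_mul, Finset.sum_neg_distrib, mul_neg, mul_assoc, ← Finset.mul_sum]
    rw [Finset.mul_sum]
    exact congrArg _ (Finset.sum_congr rfl fun j _ => mul_left_comm _ _ _)
  have t7 : Tendsto (fun a k' => -(r a * ψ (z a) k')) l (𝓝 fun k' : K₁ => c k') :=
    tendsto_of_mulVec (M := fun a => Matrix.of fun k k' : K₁ => ∑ j, q a k j * η k' j)
      (tendsto_pi_nhds.2 fun k => tendsto_pi_nhds.2 fun k' => by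
        rw [← h3]
        exact tendsto_finsetSum _ fun j _ => (t5 k j).mul_const _)
      (tendsto_pi_nhds.2 fun k => (b3 k k.2).congr' (t6.mono fun a b => by
        exact (b k).symm.trans (sw _ _)))
  exact fun k => (tendsto_finsetSum _ fun j _ => (t5 k j).mul (tendsto_finsetSum _ fun k' _ =>
    (tendsto_pi_nhds.1 t7 k').mul_const _)).congr' (t6.mono fun a b => b k)

theorem Fam.RegAt.tan (hF : F.Inv) {z₀ : (Λ → ℂ) × (J → ℂ)} (h : F.RegAt K₁ z₀) (hz : z₀ ∈ F.cone)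
    {z : α → (Λ → ℂ) × (J → ℂ)} (h1 : ∀ᶠ a in l, z a ∈ F.bs) (h2 : Tendsto z l (𝓝 z₀)) {r : α → ℂ}
    {c : K → ℂ} (h3 : ∀ k ∈ K₁, Tendsto (fun a => r a * F.eqn (z a) k) l (𝓝 (c k))) :
    ∃ c' ∈ Wg (F.jac z₀) F.mov, ∀ k, Tendsto (fun a => r a * F.eqn (z a) k) l (𝓝 (c' k)) :=
  let ⟨_, a, b⟩ := h.tan' hF hz
  ⟨_, ⟨_, fun j hj => by simp [a _ j hj], fun _ => rfl⟩, b h1 h2 h3⟩

theorem Fam.RegAt.jac (hF : F.Inv) {z : (Λ → ℂ) × (J → ℂ)} (h : F.RegAt K₁ z) (hz : z ∈ F.cone) :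
    Jac (F.jac z) F.mov K₁ := by
  refine ⟨h.ind, fun η a b k => ?_⟩
  obtain ⟨η', -, d⟩ := h.tan' hF hz
  have t : ∀ k, Tendsto (fun s : ℂ => s⁻¹ * F.eqn (z.1, fun j => z.2 j + s * η j) k) (𝓝[≠] 0)
      (𝓝 (∑ j, F.jac z k j * η j)) := fun k => by
    have := hasDerivAt_iff_tendsto_slope_zero.1 (hasDerivAt_eval ((F.fib z.1).F k) z.2 η)
    simp only [zero_add, zero_mul, add_zero, smul_eq_mul] at this
    rwa [show eval (fun j => z.2 j) ((F.fib z.1).F k) = 0 from (F.mem_cone.1 hz).2.2 k,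
      show ∀ g : ℂ → ℂ, (fun s : ℂ => s⁻¹ * (g s - 0)) = fun s => s⁻¹ * g s from
        fun g => by simp] at this
  have u := d (c := 0) (.of_forall fun s : ℂ => Fam.bs_congr hF (F.mem_cone.1 hz).1
    (y' := fun j => z.2 j + s * η j) fun j hj => by simp [a j hj])
    (tendsto_nhdsWithin_of_tendsto_nhds (Continuous.tendsto' (by fun_prop) _ _ (by simp)))
    (fun k hk => b k hk ▸ t k) k
  simpa using tendsto_nhds_unique (t k) u

/-- regularity for the equations `K₁` is an open condition -/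
theorem Fam.RegAt.eventually {z : (Λ → ℂ) × (J → ℂ)} (h : F.RegAt K₁ z) :
    ∀ᶠ z' in 𝓝 z, F.RegAt K₁ z' := by
  classical
  choose η h1 h2 using fun k : K₁ => h.ind (Pi.single k.1 1)
  let M : (Λ → ℂ) × (J → ℂ) → Matrix K₁ K₁ ℂ := fun z' => Matrix.of fun k k' =>
    ∑ j, F.jac z' k j * η k' j
  have a : Continuous M := continuous_matrix fun k k' =>
    continuous_finsetSum _ fun j _ => (Fam.continuous_jac k.1 j).mul continuous_const
  have b : (M z).det ≠ 0 := by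
    rw [show M z = 1 from Matrix.ext fun k k' => by
      simp [M, h2 k' k k.2, Matrix.one_apply, Pi.single_apply, Subtype.ext_iff]]
    simp
  filter_upwards [a.matrix_det.continuousAt.eventually_ne b, h.cut.eventually_nhds] with z' c d
  refine ⟨fun v => ?_, d⟩
  obtain ⟨s, hs⟩ := Matrix.mulVec_surjective_iff_isUnit.2
    ((Matrix.isUnit_iff_isUnit_det _).2 c.isUnit) fun k : K₁ => v k
  refine ⟨fun j => ∑ k', s k' * η k' j, fun j hj => by simp [h1 _ j hj], fun k hk => ?_⟩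
  rw [← congrFun hs ⟨k, hk⟩]
  simp only [M, Matrix.mulVec, dotProduct, Matrix.of_apply, Finset.mul_sum, Finset.sum_mul]
  rw [Finset.sum_comm]
  exact Finset.sum_congr rfl fun _ _ => Finset.sum_congr rfl fun _ _ => by ring

theorem Fam.RegAt.jac_nhds (hF : F.Inv) {z : (Λ → ℂ) × (J → ℂ)} (h : F.RegAt K₁ z) :
    ∀ᶠ z' in 𝓝 z, z' ∈ F.cone → Jac (F.jac z') F.mov K₁ :=
  h.eventually.mono fun _ a b => a.jac hF b

theorem Fam.Reg.tan (hF : F.Inv) (h : F.Reg K₀) {z₀ : (Λ → ℂ) × (J → ℂ)} (hz : z₀ ∈ F.cone)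
    {z : α → (Λ → ℂ) × (J → ℂ)} (h1 : ∀ᶠ a in l, z a ∈ F.bs) (h2 : Tendsto z l (𝓝 z₀)) {r : α → ℂ}
    {c : K → ℂ} (h3 : ∀ k, Tendsto (fun a => r a * F.eqn (z a) k) l (𝓝 (c k))) :
    ∃ c' ∈ Wg (F.jac z₀) F.mov, ∀ k, Tendsto (fun a => r a * F.eqn (z a) k) l (𝓝 (c' k)) :=
  let ⟨_, a⟩ := h.loc z₀ hz
  a.tan hF hz h1 h2 fun k _ => h3 k

theorem Fam.Reg.jac (hF : F.Inv) (h : F.Reg K₀) {z : (Λ → ℂ) × (J → ℂ)} (hz : z ∈ F.cone) :
    ∃ K₁, Jac (F.jac z) F.mov K₁ := (h.loc z hz).imp fun _ a => a.jac hF hz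

namespace Ch

theorem Fits.regAt (h : ch.Fits F e) (hF : F.Inv) {z : ch.Pt} (hz : ∀ i, z.1 i ≠ 0)
    {y : J → ℂ} (hy : ∀ j, yv x.2 z j = y j • tvZ z.1 j) (hc : (x.1, y) ∈ F.cone)
    (hR : F.RegAt K₁ (x.1, y)) : (pd F e x z).Reg pwT F.mov K₁ (F.jac (x.1, y)) :=
  ⟨fun j _ => tvZ_ne hz j, fun k => (exists_Zt hz).imp fun ζ a => by simp [pd, a], h.rel hy,
    hR.jac hF hc⟩

theorem Fits.reg (h : ch.Fits F e) (hF : F.Inv) (hR : F.Reg K₀) {z : ch.Pt} (hz : ∀ i, z.1 i ≠ 0)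
    {y : J → ℂ} (hy : ∀ j, yv x.2 z j = y j • tvZ z.1 j) (hc : (x.1, y) ∈ F.cone) :
    ∃ K₁, (pd F e x z).Reg pwT F.mov K₁ (F.jac (x.1, y)) :=
  (hR.loc _ hc).imp fun _ => h.regAt hF hz hy hc

theorem continuous_tvZ (j : J) (m : ch.Th j) : Continuous fun c : V ch.M => tvZ c j m :=
  continuous_val₂.comp (continuous_const.prodMk continuous_id)

theorem continuous_yv {ν' : Type} [Fintype ν'] (j : J) (m : ch.Th j) :
    Continuous fun p : ch.W ν' × ch.Pt => yv p.1 p.2 j m :=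
  Continuous.clm_apply (f := fun p : ch.W ν' × ch.Pt => p.2.2 (some j))
    (g := fun p => W.XL j p.1 m) (by fun_prop)
    (((W.XL (ch := ch) (ν := ν') j).continuous.comp continuous_fst).clm_apply continuous_const)

section

variable {x : α → ch.WF ν κ Λ} {z : α → ch.Pt} {z₀ : ch.Pt}

theorem tendsto_tvZ (h2 : Tendsto z l (𝓝 z₀)) (j : J) (m : ch.Th j) :
    Tendsto (fun a => tvZ (z a).1 j m) l (𝓝 (tvZ z₀.1 j m)) :=
  ((continuous_tvZ j m).tendsto _).comp h2.fst_nhds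

theorem tendsto_yv (h1 : Tendsto x l (𝓝 x₀)) (h2 : Tendsto z l (𝓝 z₀)) (j : J) (m : ch.Th j) :
    Tendsto (fun a => yv (x a).2 (z a) j m) l (𝓝 (yv x₀.2 z₀ j m)) :=
  ((continuous_yv j m).tendsto (x₀.2, z₀)).comp (h1.snd_nhds.prodMk_nhds h2)

theorem tendsto_prod_pow (h2 : Tendsto z l (𝓝 z₀)) (ζ : ch.Zt) (n : ι → ℕ) :
    Tendsto (fun a => ∏ i, ζ i ((z a).1 i) ^ n i) l (𝓝 (∏ i, ζ i (z₀.1 i) ^ n i)) :=
  tendsto_finsetProd _ fun i _ =>
    (((ζ i).continuous.tendsto _).comp (tendsto_pi_nhds.1 h2.fst_nhds i)).pow _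

/-- the coefficients of `hp` -/
noncomputable def hc (F : Fam S Λ R J K) (e : K → ι → ℕ) (b : Λ → ℂ) (k : K) (ζ : ch.Zt)
    (c : V ch.M) (β : J →₀ ℕ) : ℂ :=
  eval b (coeff β (F.G k)) * ∏ i, ζ i (c i) ^ (e k i - ∑ j, β j * ch.b j i)

theorem hp_eq (b : Λ → ℂ) (k : K) (ζ : ch.Zt) (c : V ch.M) :
    hp F e b k ζ c = plw (F.G k).support (hc F e b k ζ c) := rfl

theorem tendsto_hc (h1 : Tendsto x l (𝓝 x₀)) (h2 : Tendsto z l (𝓝 z₀)) (k : K) (ζ : ch.Zt)
    (β : J →₀ ℕ) :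
    Tendsto (fun a => hc F e (x a).1 k ζ (z a).1 β) l (𝓝 (hc F e x₀.1 k ζ z₀.1 β)) :=
  (((MvPolynomial.continuous_eval _).tendsto _).comp h1.fst_nhds).mul (tendsto_prod_pow h2 ζ _)

end

theorem tends_pd {x : α → ch.WF ν κ Λ} {z : α → ch.Pt} {z₀ : ch.Pt} (h1 : Tendsto x l (𝓝 x₀))
    (h2 : Tendsto z l (𝓝 z₀)) :
    PD.Tends (fun a => pd F e (x a) (z a)) l (pd F e x₀ z₀) univ :=
  ⟨fun j _ m => tendsto_tvZ h2 j m, fun k ζ j _ => by
    simp only [pd, hp_eq, ← dd_zero]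
    exact tendsto_dd (tendsto_hc h1 h2 k ζ) (tendsto_pi_nhds.2 fun j => tendsto_yv h1 h2 j _)
      tendsto_const_nhds j, fun k ζ => tendsto_prod_pow h2 ζ _⟩

theorem Fits.cone_pt [l.NeBot] (h : ch.Fits F e) (hF : F.Inv) (hR : F.Reg K₀)
    {x : α → ch.WF ν κ Λ} {z : α → ch.Pt} {z₀ : ch.Pt}
    (h1 : Tendsto x l (𝓝 x₀)) (h2 : Tendsto z l (𝓝 z₀)) (hz : ∀ i, z₀.1 i ≠ 0) {y₀ : J → ℂ}
    (hy : ∀ j, yv x₀.2 z₀ j = y₀ j • tvZ z₀.1 j) (hc : (x₀.1, y₀) ∈ F.cone)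
    (hb : ∀ᶠ a in l, ∃ y, ((x a).1, y) ∈ F.bs ∧
      ∀ j ∉ F.mov, yv (x a).2 (z a) j = y j • tvZ (z a).1 j)
    {r : α → ℂ} {w : Fib ch.Th K ch.Zt}
    (hw : Tendsto (fun a => r a • evZ (z a) (sctF F e (x a))) l (𝓝 w)) :
    w ∈ (pd F e x₀ z₀).Im pwT F.mov := by
  choose m hm using tvZ_ne (ch := ch) hz
  let y : α → J → ℂ := fun a j => yv (x a).2 (z a) j (m j) / tvZ (z a).1 j (m j)
  let Y : α → ∀ j, ch.Th j →ₗ[ℂ] ℂ := fun a j => yv (x a).2 (z a) j - y a j • tvZ (z a).1 j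
  have t1 : ∀ j, Tendsto (fun a => y a j) l (𝓝 (y₀ j)) := fun j => by
    have := (tendsto_yv h1 h2 j (m j)).div (tendsto_tvZ h2 j (m j)) (hm j)
    rwa [hy j, LinearMap.smul_apply, smul_eq_mul, mul_div_cancel_right₀ _ (hm j)] at this
  have t2 : ∀ j t, Tendsto (fun a => Y a j t) l (𝓝 0) := fun j t => by
    have := (tendsto_yv h1 h2 j t).sub ((t1 j).mul (tendsto_tvZ h2 j t))
    rwa [hy j, LinearMap.smul_apply, smul_eq_mul, sub_self] at this
  have t3 : ∀ᶠ a in l, ((x a).1, y a) ∈ F.bs ∧ (∀ j ∉ F.mov, Y a j = 0) ∧ ∀ j, Y a j (m j) = 0 := by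
    filter_upwards [hb, eventually_all.2 fun j => (tendsto_tvZ h2 j (m j)).eventually_ne (hm j)]
      with a ⟨y', b1, b2⟩ b3
    have b4 : ∀ j ∉ F.mov, y' j = y a j := fun j hj => by
      simp only [y, b2 j hj, LinearMap.smul_apply, smul_eq_mul, mul_div_cancel_right₀ _ (b3 j)]
    exact ⟨Fam.bs_congr hF b1 b4, fun j hj => sub_eq_zero.2 (b4 j hj ▸ b2 j hj),
      fun j => sub_eq_zero.2 (div_mul_cancel₀ _ (b3 j)).symm⟩
  let d : α → PD K ch.Zt ch.Th := fun a => ⟨tvZ (z a).1, fun k ζ =>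
    dd (F.G k).support (Ch.hc F e (x a).1 k ζ (z a).1)
      (fun j => y a j * tvZ (z a).1 j (pwT ζ j)) fun j => Y a j (pwT ζ j),
    (pd F e (x a) (z a)).tot⟩
  have t4 : PD.Tends d l (pd F e x₀ z₀) F.mov :=
    ⟨fun j _ m => tendsto_tvZ h2 j m, fun k ζ j _ => by
      simp only [pd, hp_eq, ← dd_zero, hy]
      exact tendsto_dd (tendsto_hc h1 h2 k ζ)
        (tendsto_pi_nhds.2 fun j => (t1 j).mul (tendsto_tvZ h2 j _))
        (tendsto_pi_nhds.2 fun j => t2 j _) j, fun k ζ => tendsto_prod_pow h2 ζ _⟩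
  have t5 : ∀ a, evZ (z a) (sctF F e (x a)) =
      (d a).dEq pwT (Y a) + (d a).nrm fun k => F.eqn ((x a).1, y a) k := fun a => by
    rw [evZ_sctF]
    refine Prod.ext (funext₂ fun j t => ?_) (funext₂ fun k ζ => ?_)
    · change kos _ _ t = kos (tvZ (z a).1 j) (yv (x a).2 (z a) j - y a j • tvZ (z a).1 j) t + 0
      rw [kos_sub, kos_self, sub_zero, add_zero]
    · have := eval_add_plw (T := (F.G k).support) (c := Ch.hc F e (x a).1 k ζ (z a).1)
        (fun j => y a j * tvZ (z a).1 j (pwT ζ j)) fun j => Y a j (pwT ζ j)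
      rw [← hp_eq, h.eval_hp, add_comm (_ * _)] at this
      have e1 : (fun j => yv (x a).2 (z a) j (pwT ζ j)) =
          (fun j => y a j * tvZ (z a).1 j (pwT ζ j)) + fun j => Y a j (pwT ζ j) :=
        _root_.funext fun j => by
          simp only [Y, Pi.add_apply, LinearMap.sub_apply, LinearMap.smul_apply, smul_eq_mul,
            add_sub_cancel]
      rw [← e1] at this
      exact this
  obtain ⟨Y0, c0, a, -, b, rfl⟩ := t4.exists_lim (pw := pwT) (fun j _ => hm j)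
    (h.reg hF hR hz hy hc).choose_spec.tot_ne (Y := fun a => r a • Y a)
    (c := fun a => r a • fun k => F.eqn ((x a).1, y a) k)
    (t3.mono fun a b => ⟨fun j hj => by simp [b.2.1 j hj], fun j => by simp [b.2.2 j]⟩)
    (hw.congr fun a => by rw [t5, smul_add, map_smul, map_smul])
  obtain ⟨c', b1, b2⟩ := hR.tan hF hc (z := fun a => ((x a).1, y a)) (t3.mono fun _ b => b.1)
    (h1.fst_nhds.prodMk_nhds (tendsto_pi_nhds.2 t1)) (r := r) (c := c0)
    fun k => tendsto_pi_nhds.1 b k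
  obtain rfl : c0 = c' := _root_.funext fun k => tendsto_nhds_unique (tendsto_pi_nhds.1 b k) (b2 k)
  exact add_mem ⟨Y0, a, rfl⟩ ((h.rel hy).nrm_mem b1)

end Ch

end Vale.Agent.P269
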