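import Vale.Agent.P287Q.G.Vir.Rep
import Vale.Agent.P287Q.G.Vir.Cone
import Vale.Agent.P269.Base.LF
import Vale.Agent.P269.Base.Usc
import Vale.Agent.P269.Gen.Act

/-!
# Limits along the universal curve: closedness of `vanM`, `obsM` and the cone estimate
-/

set_option linter.unusedSectionVars false

namespace Vale.Agent.P269

open Set Function Topology Filter Module MvPolynomial Vir Base

variable {S Λ R J K ι ν κ α : Type} [Fintype S] [Fintype Λ] [Fintype R] [Fintype J] [Fintype K]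
  [Fintype ι] [DecidableEq ι] [Fintype ν] [Fintype κ] {ch : Ch ι J} {F : Fam S Λ R J K}
  {e : K → ι → ℕ} {σ : K → Finset (J →₀ ℕ)} {ℓ : R → ι → ℤ} {K₀ : RD R} {l : Filter α}
  {x x₀ : ch.WF ν κ Λ}

/-- Linear forms on the targets of converging surjections converge if their pull-backs do. -/
theorem Vir.tendsto_of_comp {A B : Type} [NormedAddCommGroup A] [NormedSpace ℂ A]
    [NormedAddCommGroup B] [NormedSpace ℂ B] [CompleteSpace B] {Q : α → A →L[ℂ] B}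
    {Q₀ : A →L[ℂ] B} {r : B →L[ℂ] A} (hr : Q₀ ∘L r = 1) (hQ : Tendsto Q l (𝓝 Q₀))
    {u : α → B →L[ℂ] ℂ} {v : α → A →L[ℂ] ℂ} {v₀ : A →L[ℂ] ℂ} (hv : Tendsto v l (𝓝 v₀))
    (h : ∀ᶠ a in l, u a ∘L Q a = v a) : Tendsto u l (𝓝 (v₀ ∘L r)) := by
  have h1 : Tendsto (fun a => Q a ∘L r) l (𝓝 1) :=
    hr ▸ ((continuous_id.clm_comp continuous_const).tendsto Q₀).comp hQ
  have h2 : Tendsto (fun a => Ring.inverse (Q a ∘L r)) l (𝓝 (Ring.inverse 1)) :=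
    (NormedRing.inverse_continuousAt (1 : (B →L[ℂ] B)ˣ)).tendsto.comp h1
  have h3 := ((continuous_fst.clm_comp (continuous_const (y := r) |>.clm_comp
    continuous_snd)).tendsto (v₀, Ring.inverse 1)).comp (hv.prodMk_nhds h2)
  rw [Ring.inverse_one] at h3
  refine h3.congr' ?_
  filter_upwards [h, h1.eventually (Units.isOpen.mem_nhds isUnit_one)] with a b c
  rw [comp_apply, ← b]
  exact congrArg (u a ∘L ·) (Ring.mul_inverse_cancel _ c)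

namespace Ch

section Gr

variable {ν : Type} [Fintype ν] {x : α → ch.W ν} {x₀ : ch.W ν}

theorem tendsto_Q (h : Tendsto x l (𝓝 x₀)) (n : Option J) :
    Tendsto (fun a => (x a).Q n) l (𝓝 (x₀.Q n)) :=
  ((W.QL (ch := ch) (ν := ν) n).continuous.tendsto x₀).comp h

/-- The linear forms of a point of `gr` are continuous functions of the point of the curve. -/
theorem exists_tendsto_gr (h0 : ∀ n, Surjective (x₀.Q n)) (h : Tendsto x l (𝓝 x₀))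
    {z : α → ch.Pt} (hz : ∀ᶠ a in l, z a ∈ gr (x a)) {c : V ch.M}
    (hc : Tendsto (fun a => (z a).1) l (𝓝 c)) : ∃ u, Tendsto z l (𝓝 (c, u)) ∧
      ∀ u', (c, u') ∈ gr x₀ → u' = u := by
  choose r hr using fun n => (x₀.Q n).exists_rightInverse_of_surjective
    (LinearMap.range_eq_top.2 (h0 n))
  refine ⟨fun n => evL _ c ∘L r n, hc.prodMk_nhds (tendsto_pi_nhds.2 fun n =>
    tendsto_of_comp (hr n) (tendsto_Q h n) ((analyticAt_evL c).continuousAt.tendsto.comp hc)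
      (hz.mono fun a b => ContinuousLinearMap.ext (b.2 n))), fun u' b => funext fun n =>
    ContinuousLinearMap.ext fun y => ?_⟩
  exact (congrArg (u' n) (ContinuousLinearMap.ext_iff.1 (hr n) y)).symm.trans (b.2 n _)

theorem Cuts.exists_gr (hc : ch.Cuts) (hx : ∀ᶠ a in l, x a ∈ ch.base ν)
    (h0 : x₀ ∈ ch.base ν) (h : Tendsto x l (𝓝 x₀)) {z₀ : ch.Pt} (hz : z₀ ∈ gr x₀) :
    ∃ z : α → ch.Pt, (∀ᶠ a in l, z a ∈ gr (x a)) ∧ Tendsto z l (𝓝 z₀) := by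
  classical
  obtain ⟨n, hn⟩ := hc.cut
  obtain ⟨y, y1, y2⟩ := (locFam_base hn ⟨x₀, h0⟩).exists_approx ⟨z₀, hz, rfl⟩
  let x' : α → ch.base ν := fun a => if b : x a ∈ ch.base ν then ⟨x a, b⟩ else ⟨x₀, h0⟩
  have e : ∀ᶠ a in l, (x' a).1 = x a := hx.mono fun a b => by simp only [x', dif_pos b]
  have t : Tendsto x' l (𝓝 ⟨x₀, h0⟩) :=
    tendsto_subtype_rng.2 (h.congr' (e.mono fun _ => Eq.symm))
  have : Nonempty ch.Pt := ⟨z₀⟩
  obtain ⟨z, b⟩ := skolem.1 ((e.and (t.eventually y2)).mono fun a b =>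
    show ∃ z ∈ gr (x a), z.1 = y (x' a) from b.1 ▸ b.2)
  obtain ⟨u, b1, b2⟩ := exists_tendsto_gr h0.1 h (b.mono fun _ b => b.1)
    ((y1.comp t).congr' (b.mono fun _ b => b.2.symm))
  exact ⟨z, b.mono fun _ b => b.1, by rwa [← b2 z₀.2 hz] at b1⟩

theorem tz_mem {x : ch.W ν} {z : ch.Pt} (hz : z ∈ gr x) {t : ι → ℂ} (ht : ∀ i, t i ≠ 0) :
    tz t z ∈ gr x := gr_smul hz ht

theorem isClosed_gr (n : Option J) (μ : Tens ch.M (ch.a n)) :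
    IsClosed {p : ch.W ν × ch.Pt | p.2.2 n (p.1.Q n μ) = val μ p.2.1} :=
  isClosed_eq (Continuous.clm_apply (f := fun p : ch.W ν × ch.Pt => p.2.2 n)
    (g := fun p => W.QL n p.1 μ) (by fun_prop)
    (((W.QL (ch := ch) (ν := ν) n).continuous.comp continuous_fst).clm_apply continuous_const))
    (continuous_val₂.comp (continuous_const.prodMk continuous_snd.fst))

theorem exists_lim_gr (U : Ultrafilter α) (h0 : ∀ l, Surjective (x₀.Q l)) (h : Tendsto x U (𝓝 x₀))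
    {z : α → ch.Pt} (hz : ∀ᶠ a in U, z a ∈ gr (x a)) :
    ∃ (t : α → ι → ℂ) (z₀ : ch.Pt), (∀ a i, t a i ≠ 0) ∧ z₀ ∈ gr x₀ ∧
      Tendsto (fun a => tz (t a) (z a)) U (𝓝 z₀) := by
  obtain ⟨t, ht⟩ := (hz.mono fun a b => show ∃ t : {t : ι → ℂ // ∀ i, t i ≠ 0},
      t.1 • (z a).1 ∈ univ.pi fun i => Metric.sphere (0 : Fin (ch.M i) → ℂ) 1 from
    let ⟨_, ⟨t, c, d⟩, e⟩ := exists_orb_sphere b.1
    ⟨⟨t, c⟩, fun i _ => mem_sphere_zero_iff_norm.2 (d ▸ e i)⟩).choice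
  obtain ⟨c, c1, c2⟩ := (isCompact_univ_pi fun i => isCompact_sphere _ _).ultrafilter_le_nhds
    (U.map fun a => (t a).1 • (z a).1) (le_principal_iff.2 ht)
  have hz' := hz.mono fun a b => tz_mem b (t a).2
  obtain ⟨u, b, -⟩ := exists_tendsto_gr h0 h hz' c2
  exact ⟨fun a => t a, _, fun a => (t a).2, ⟨fun i => norm_ne_zero_iff.1
    ((mem_sphere_zero_iff_norm.1 (c1 i trivial)).trans_ne one_ne_zero), fun n μ =>
      (isClosed_gr n μ).mem_of_tendsto (h.prodMk_nhds b) (hz'.mono fun a b => b.2 n μ)⟩, b⟩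

end Gr

theorem exists_bs (hx : x ∈ ch.adm ν κ F) {z : ch.Pt} (hz : z ∈ gr x.2) :
    ∃ y, (x.1, y) ∈ F.bs ∧ ∀ j ∉ F.mov, yv x.2 z j = y j • tvZ z.1 j :=
  have hc : z.1 ∈ crv x.2 := ⟨z, hz, rfl⟩
  ⟨fld x.2 z.1, ⟨hx.1.1, hx.2.2.1 _ hc, fun j hj => fld_of_zero hc (hx.2.2.2.1 j hj)⟩,
    fun j hj => LinearMap.ext (val_fld (hx.2.1 j hj _ hc) z.2 hz)⟩

theorem Fits.evZ_sctF (h : ch.Fits F e) {z : ch.Pt} {y : J → ℂ}
    (hy : ∀ j, yv x.2 z j = y j • tvZ z.1 j) :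
    evZ z (sctF F e x) = (0, fun k ζ => F.eqn (x.1, y) k * ∏ i, ζ i (z.1 i) ^ e k i) := by
  rw [Ch.evZ_sctF]
  simp only [hy]
  exact Prod.ext (funext₂ fun _ _ => kos_self _ _) (funext₂ fun k ζ => h.eval_hp _ _ _ _ _)

theorem sctF_mem_vanM (h : ch.Fits F e) (hx : x ∈ ch.solF ν κ F) : sctF F e x ∈ vanM F e x :=
  mem_vanM.2 ⟨h.sctF_mem x, fun z hz => by
    obtain ⟨y, a, b⟩ := exists_cone hx hz
    rw [h.evZ_sctF b]
    exact Prod.ext rfl (funext₂ fun k ζ => by simp [(F.mem_cone.1 a).2.2 k])⟩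

theorem tendsto_coef {x : α → ch.WF ν κ Λ} {z : α → ch.Pt} {z₀ : ch.Pt} (h1 : Tendsto x l (𝓝 x₀))
    (h2 : Tendsto z l (𝓝 z₀)) (hz : ∀ i, z₀.1 i ≠ 0) {y : α → J → ℂ} {y₀ : J → ℂ}
    (hy : ∀ᶠ a in l, ∀ j, yv (x a).2 (z a) j = y a j • tvZ (z a).1 j)
    (h0 : ∀ j, yv x₀.2 z₀ j = y₀ j • tvZ z₀.1 j) :
    Tendsto (fun a => ((x a).1, y a)) l (𝓝 (x₀.1, y₀)) := by
  refine h1.fst_nhds.prodMk_nhds (tendsto_pi_nhds.2 fun j => ?_)
  obtain ⟨m, hm⟩ := tvZ_ne (ch := ch) hz j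
  have := (tendsto_yv h1 h2 j m).div (tendsto_tvZ h2 j m) hm
  rw [h0 j, LinearMap.smul_apply, smul_eq_mul, mul_div_cancel_right₀ _ hm] at this
  refine this.congr' ?_
  filter_upwards [hy, (tendsto_tvZ h2 j m).eventually_ne hm] with a b c
  rw [Pi.div_apply, b j, LinearMap.smul_apply, smul_eq_mul, mul_div_cancel_right₀ _ c]

theorem Cuts.van_lim [l.NeBot] (hc : ch.Cuts) {x : α → ch.WF ν κ Λ}
    (hx : ∀ᶠ a in l, (x a).2 ∈ ch.base _) (h0 : x₀.2 ∈ ch.base _) (h1 : Tendsto x l (𝓝 x₀))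
    {f : α → ch.P K} {f₀ : ch.P K} (hf : ∀ᶠ a in l, f a ∈ vanM F e (x a))
    (h2 : Tendsto f l (𝓝 f₀)) : f₀ ∈ vanM F e x₀ := by
  have p : ∀ᶠ a in l, f a ∈ ch.polF F e := hf.mono fun _ b => b.1
  have p0 : f₀ ∈ ch.polF F e := isClosed_polS.mem_of_tendsto h2 p
  refine mem_vanM.2 ⟨p0, fun z₀ hz => ?_⟩
  obtain ⟨z, a, b⟩ := hc.exists_gr hx h0 h1.snd_nhds hz
  exact tendsto_nhds_unique_of_eventuallyEq (tendsto_evZ p p0 h2 b) tendsto_const_nhds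
    ((hf.and a).mono fun _ c => (mem_vanM.1 c.1).2 _ c.2)

theorem Cuts.obs_lim [l.NeBot] (hc : ch.Cuts) (hF : F.Inv) (hR : F.Reg K₀) (h : ch.Fits F e)
    {x : α → ch.WF ν κ Λ} (hx : ∀ᶠ a in l, x a ∈ ch.solF ν κ F) (h0 : x₀ ∈ ch.solF ν κ F)
    (h1 : Tendsto x l (𝓝 x₀)) {f : α → ch.P K} {f₀ : ch.P K}
    (hf : ∀ᶠ a in l, f a ∈ obsM F e (x a)) (h2 : Tendsto f l (𝓝 f₀)) : f₀ ∈ obsM F e x₀ := by
  have p : ∀ᶠ a in l, f a ∈ ch.polF F e := hf.mono fun _ b => b.1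
  have p0 : f₀ ∈ ch.polF F e := isClosed_polS.mem_of_tendsto h2 p
  refine mem_obsM.2 ⟨p0, fun z₀ hz => ?_⟩
  obtain ⟨z, a, b⟩ := hc.exists_gr (hx.mono fun _ b => b.2.1) h0.2.1 h1.snd_nhds hz
  obtain ⟨y₀, c1, c2⟩ := exists_cone h0 hz
  obtain ⟨y, d⟩ := ((hx.and a).mono fun _ c => exists_cone c.1 c.2).choice
  have t := tends_pd (F := F) (e := e) h1 b
  have u := tendsto_coef h1 b hz.1 (d.mono fun _ c => c.2) c2
  obtain ⟨K₁, r⟩ := hR.loc _ c1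
  exact PD.Tends.mem_Im ⟨fun j _ => t.tv j trivial, fun k ζ j _ => t.D k ζ j trivial, t.tot⟩
    (h.regAt hF hz.1 c2 c1 r) (((a.and d).and (u.eventually r.eventually)).mono fun _ c =>
      h.regAt hF c.1.1.1 c.1.2.2 c.1.2.1 c.2)
    (fun k j _ => ((Fam.continuous_jac k j).tendsto _).comp u)
    ((hf.and a).mono fun _ c => (mem_obsM.1 c.1).2 _ c.2) (tendsto_evZ p p0 h2 b)

theorem Cuts.cone_lim [l.NeBot] (hc : ch.Cuts) (hF : F.Inv) (hR : F.Reg K₀) (h : ch.Fits F e)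
    {x : α → ch.WF ν κ Λ} (hx : ∀ᶠ a in l, x a ∈ ch.adm ν κ F) (h0 : x₀ ∈ ch.solF ν κ F)
    (h1 : Tendsto x l (𝓝 x₀)) {c : α → ℂ} {f : α → ch.P K} {w : ch.P K}
    (hf : ∀ᶠ a in l, f a ∈ vanM F e (x a))
    (h2 : Tendsto (fun a => c a • sctF F e (x a) + f a) l (𝓝 w)) : w ∈ obsM F e x₀ := by
  have p : ∀ᶠ a in l, c a • sctF F e (x a) + f a ∈ ch.polF F e :=
    hf.mono fun _ b => add_mem (Submodule.smul_mem _ _ (h.sctF_mem _)) b.1
  have p0 : w ∈ ch.polF F e := isClosed_polS.mem_of_tendsto h2 p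
  refine mem_obsM.2 ⟨p0, fun z₀ hz => ?_⟩
  obtain ⟨z, a, b⟩ := hc.exists_gr (hx.mono fun _ b => b.1.2.1) h0.2.1 h1.snd_nhds hz
  obtain ⟨y₀, c1, c2⟩ := exists_cone h0 hz
  refine h.cone_pt hF hR h1 b hz.1 c2 c1 ((hx.and a).mono fun _ c => exists_bs c.1 c.2) (r := c)
    ((tendsto_evZ p p0 h2 b).congr' ((hf.and a).mono fun _ d => ?_))
  simp only [map_add, map_smul, (mem_vanM.1 d.1).2 _ d.2, add_zero]

theorem yv_tz {ν' : Type} [Fintype ν'] {x : ch.W ν'} {z : ch.Pt} {j : J} {c : ℂ}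
    (h : yv x z j = c • tvZ z.1 j) {t : ι → ℂ} (ht : ∀ i, t i ≠ 0) :
    yv x (tz t z) j = ((∏ i, t i ^ ch.wd j i) * c) • tvZ (tz t z).1 j :=
  LinearMap.ext fun m => by
    change chr _ t * yv x z j m = _ * val m (t • z.1)
    rw [h, Base.val_smul, Cv.chr_wd ht]
    exact mul_mul_mul_comm _ _ _ _

theorem Fits.mem_U (h : ch.Fits F e) (hF : F.Inv) {b : Λ → ℂ} {y : J → ℂ} {t : ι → ℂ}
    (ht : ∀ i, t i ≠ 0) (hy : (b, fun j => (∏ i, t i ^ ch.wd j i) * y j) ∈ F.U) : (b, y) ∈ F.U := by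
  obtain ⟨ℓ, hℓ⟩ := h.wt
  have := hF.invU (1, fun r => ∏ i, (t i)⁻¹ ^ ℓ r i) (Prod.isUnit_iff.2 ⟨isUnit_one,
    isUnit_pi_iff.2 fun r => prod_zpow_ne (fun i => inv_ne_zero (ht i)) _⟩) _ hy
  convert this using 1
  refine Prod.ext (F.actL_one _).symm (funext fun j => ?_)
  simp only [Wt.actT, Pi.one_apply, one_zpow, Finset.prod_const_one, one_mul, wd, hℓ,
    zpow_sum_ne (ht _), ← Finset.prod_zpow, ← zpow_mul, inv_zpow, Finset.prod_inv_distrib,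
    mul_comm (ℓ _ _)]
  rw [Finset.prod_comm, inv_mul_cancel_left₀]
  exact Finset.prod_ne_zero_iff.2 fun i _ => Finset.prod_ne_zero_iff.2 fun r _ =>
    zpow_ne_zero _ (ht i)

/-- At a zero of the section the fields are sections which satisfy the equations. -/
theorem Fits.exists_zero (h : ch.Fits F e) (hF : F.Inv) (hx : x ∈ ch.adm ν κ F) {z : ch.Pt}
    (hz : z ∈ gr x.2) (h0 : evZ z (sctF F e x) = 0) : ∃ y, ((x.1, y) ∈ F.bs ∧
      ∀ k, F.eqn (x.1, y) k = 0) ∧ ∀ j, yv x.2 z j = y j • tvZ z.1 j := by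
  choose m hm using tvZ_ne (ch := ch) hz.1
  have a := fun j => eq_of_kos (hm j) fun n =>
    congrFun (congrFun (congrArg Prod.fst (Ch.evZ_sctF.symm.trans h0)) j) (n, m j)
  obtain ⟨y, b, c⟩ := exists_bs hx hz
  obtain ⟨ζ, d⟩ := exists_Zt (ch := ch) hz.1
  refine ⟨_, ⟨Fam.bs_congr hF b fun j hj => ?_, fun k => ?_⟩, a⟩
  · rw [c j hj, LinearMap.smul_apply, smul_eq_mul, mul_div_cancel_right₀ _ (hm j)]
  · simpa [d] using congrFun (congrFun (congrArg Prod.snd ((h.evZ_sctF a).symm.trans h0)) k) ζ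

theorem eventually_solF (hF : F.Inv) (h : ch.Fits F e) (h0 : x₀ ∈ ch.solF ν κ F) :
    ∀ᶠ x in 𝓝 x₀, x ∈ ch.adm ν κ F → sctF F e x ∈ vanM F e x → x ∈ ch.solF ν κ F := by
  refine mem_iff_ultrafilter.2 fun U hU => by_contra fun hn => ?_
  obtain ⟨z, hz⟩ := ((Ultrafilter.eventually_not.2 hn).mono fun x b =>
    show ∃ z : ch.Pt × (J → ℂ), z.1 ∈ gr x.2 ∧ (x.1, z.2) ∉ F.U ∧
      ∀ j, yv x.2 z.1 j = z.2 j • tvZ z.1.1 j from by_contra fun c => b fun a v =>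
    ⟨a.1, a.1.2.1, fun z hz =>
      let ⟨y, ⟨c1, c2⟩, c3⟩ := h.exists_zero hF a hz ((mem_vanM.1 v).2 z hz)
      ⟨y, (F.mem_cone.2 ⟨c1, by_contra fun d => c ⟨(z, y), hz, d, c3⟩, c2⟩).2,
        fun j => LinearMap.congr_fun (c3 j)⟩⟩).choice
  have h1 : Tendsto id U (𝓝 x₀) := hU
  obtain ⟨t, z₀, a, b, c⟩ := exists_lim_gr U h0.2.1.1 h1.snd_nhds (hz.mono fun _ b => b.1)
  obtain ⟨y₀, d, d'⟩ := exists_cone h0 b
  obtain ⟨x, p, q⟩ := (hz.and ((tendsto_coef h1 c b.1 (hz.mono fun x b j => yv_tz (b.2.2 j) (a x))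
    d').eventually (hF.openU.mem_nhds (F.mem_cone.1 d).2.1))).exists
  exact p.2.1 (h.mem_U hF (a x) q)

end Ch

end Vale.Agent.P269
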