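import Vale.Agent.P287Q.G.Vir.Defs
import Vale.Agent.P269.Gen.Act

/-!
# The polynomial functions form a finite dimensional representation; the section is equivariant
-/

set_option linter.unusedSectionVars false

namespace Vale.Agent.P269

open Set Function Topology Filter Module MvPolynomial Vir Base

variable {S Λ R J K ι ν κ α : Type} [Fintype S] [Fintype Λ] [Fintype R] [Fintype J] [Fintype K]
  [Fintype ι] [DecidableEq ι] [Fintype ν] [Fintype κ] {ch : Ch ι J} {F : Fam S Λ R J K}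
  {e : K → ι → ℕ} {σ : K → Finset (J →₀ ℕ)} {ℓ : R → ι → ℤ} {K₀ : RD R} {l : Filter α}
  {x x₀ : ch.WF ν κ Λ}

namespace Vir.RepP

theorem dual_sum {n : ℕ} (ζ : (Fin n → ℂ) →L[ℂ] ℂ) (v : Fin n → ℂ) :
    ζ v = ∑ j, ζ (Pi.single j 1) * v j := by
  conv_lhs => rw [pi_eq_sum_univ' v]
  simp [mul_comm]

theorem dual_swap {n : ℕ} (ζ η : (Fin n → ℂ) →L[ℂ] ℂ) :
    ζ (fun j => η (Pi.single j 1)) = η fun j => ζ (Pi.single j 1) := by
  rw [dual_sum ζ, dual_sum η]
  exact Finset.sum_congr rfl fun j _ => mul_comm _ _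

theorem exists_dual {n : ℕ} (v : Fin n → ℂ) :
    ∃ η : (Fin n → ℂ) →L[ℂ] ℂ, v = fun j => η (Pi.single j 1) :=
  ⟨∑ j, v j • ContinuousLinearMap.proj j, funext fun j => by simp [Pi.single_apply]⟩

theorem exists_fg_prod {A β : Type} [CommRing A] [Algebra ℂ A] (T : Finset β)
    (N : β → Submodule ℂ A) (h : ∀ b, (N b).FG) :
    ∃ P : Submodule ℂ A, P.FG ∧ ∀ f : β → A, (∀ b, f b ∈ N b) → ∏ b ∈ T, f b ∈ P := by
  classical
  induction T using Finset.induction_on with
  | empty => exact ⟨ℂ ∙ 1, Submodule.fg_span_singleton _, fun _ _ =>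
      Submodule.mem_span_singleton_self _⟩
  | insert a T ha ih =>
    obtain ⟨P, h1, h2⟩ := ih
    exact ⟨N a * P, (h a).mul h1, fun f hf => by
      rw [Finset.prod_insert ha]
      exact Submodule.mul_mem_mul (hf a) (h2 f hf)⟩

theorem lin_sum {V β : Type} [AddCommGroup V] [Module ℂ V] [Fintype β] (b : Basis β ℂ V)
    (p : V →ₗ[ℂ] ℂ) (m : V) : p m = ∑ r, b.coord r m * p (b r) := by
  conv_lhs => rw [← b.sum_repr m, map_sum]
  simp only [map_smul, smul_eq_mul, Basis.coord_apply]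

/-- joint continuity of evaluations on a finite dimensional space -/
theorem tendsto_fd {V W Z : Type} [AddCommGroup V] [Module ℂ V] [TopologicalSpace V]
    [IsTopologicalAddGroup V] [ContinuousSMul ℂ V] [T2Space V] [AddCommGroup W] [Module ℂ W]
    [TopologicalSpace W] [IsTopologicalAddGroup W] [ContinuousSMul ℂ W] [TopologicalSpace Z]
    {P : Submodule ℂ V} [FiniteDimensional ℂ P] {ev : Z → V →ₗ[ℂ] W}
    (h : ∀ f ∈ P, Continuous fun z => ev z f) {f : α → V} {f₀ : V} {z : α → Z} {z₀ : Z}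
    (hf : ∀ᶠ a in l, f a ∈ P) (hf₀ : f₀ ∈ P) (h1 : Tendsto f l (𝓝 f₀)) (h2 : Tendsto z l (𝓝 z₀)) :
    Tendsto (fun a => ev (z a) (f a)) l (𝓝 (ev z₀ f₀)) := by
  classical
  let b := Module.finBasis ℂ P
  let g : α → P := fun a => if h : f a ∈ P then ⟨f a, h⟩ else 0
  have e1 : ∀ᶠ a in l, (g a : V) = f a := hf.mono fun a ha => by simp only [g, dif_pos ha]
  have hg : Tendsto g l (𝓝 ⟨f₀, hf₀⟩) :=
    tendsto_subtype_rng.2 (h1.congr' (e1.mono fun a ha => ha.symm))
  have e2 : ∀ (y : Z) (p : P), ev y p = ∑ r, b.coord r p • ev y (b r) := fun y p => by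
    conv_lhs => rw [← b.sum_repr p, Submodule.coe_sum, map_sum]
    simp only [Submodule.coe_smul, map_smul, Basis.coord_apply]
  rw [show ev z₀ f₀ = ev z₀ (⟨f₀, hf₀⟩ : P) from rfl, e2]
  refine (tendsto_finsetSum _ fun r _ => (((b.coord r).continuous_of_finiteDimensional.tendsto
    _).comp hg).smul (((h _ (b r).2).tendsto _).comp h2)).congr' (e1.mono fun a ha => ?_)
  exact (e2 (z a) (g a)).symm.trans (congrArg (ev (z a)) ha)

end Vir.RepP

namespace Ch

open RepP

/-- the coordinates of the tests -/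
noncomputable def dz (ζ : ch.Zt) : V ch.M := fun i j => ζ i (Pi.single j 1)

theorem PiZ_eq (a : ι → ℕ) : ch.PiZ a = (Pol ch.M a).map (LinearMap.funLeft ℂ ℂ dz) := by
  rw [Pol_eq_span, Submodule.map_span, ← range_comp, PiZ]
  congr 1
  ext f
  constructor
  · rintro ⟨v, rfl⟩
    choose η hη using fun s => exists_dual (v s)
    exact ⟨η, funext fun ζ => Finset.prod_congr rfl fun s _ => by
      rw [hη s]
      exact dual_swap _ _⟩
  · rintro ⟨η, rfl⟩
    exact ⟨fun s j => η s (Pi.single j 1), funext fun ζ => Finset.prod_congr rfl fun s _ =>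
      dual_swap _ _⟩

theorem PiZ.mul {a b : ι → ℕ} {f g : ch.Zt → ℂ} (hf : f ∈ ch.PiZ a) (hg : g ∈ ch.PiZ b) :
    f * g ∈ ch.PiZ (a + b) := by
  rw [PiZ_eq] at *
  obtain ⟨f, h, rfl⟩ := hf
  obtain ⟨g, h', rfl⟩ := hg
  exact ⟨f * g, Pol.mul h h', rfl⟩

theorem PiZ.prod {β : Type} (T : Finset β) {f : β → ch.Zt → ℂ} {d : β → ι → ℕ}
    (h : ∀ b ∈ T, f b ∈ ch.PiZ (d b)) : ∏ b ∈ T, f b ∈ ch.PiZ (∑ b ∈ T, d b) := by
  classical
  induction T using Finset.induction_on with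
  | empty =>
    rw [PiZ_eq]
    exact ⟨1, Pol.one, rfl⟩
  | insert a T ha ih =>
    rw [Finset.prod_insert ha, Finset.sum_insert ha]
    exact PiZ.mul (h a (Finset.mem_insert_self _ _))
      (ih fun b hb => h b (Finset.mem_insert_of_mem hb))

theorem PiZ.pw (a : ι → ℕ) (Y : Tens ch.M a →ₗ[ℂ] ℂ) :
    (fun ζ : ch.Zt => Y (pw ζ a)) ∈ ch.PiZ a := by
  classical
  have e1 : ∀ ζ : ch.Zt, Ch.pw ζ a = ∑ r : ∀ s : Σ i, Fin (a i), Fin (ch.M s.1),
      (∏ s, ζ s.1 (Pi.single (r s) 1)) •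
        (ContinuousMultilinearMap.mkPiAlgebra ℂ _ ℂ).compContinuousLinearMap
          fun s => ContinuousLinearMap.proj (r s) := fun ζ => by
    ext v
    change ∏ s, ζ s.1 (v s) = _
    rw [Finset.prod_congr rfl fun s _ => dual_sum (ζ s.1) (v s), Fintype.prod_sum]
    simp [Finset.prod_mul_distrib]
  have e2 : (fun ζ : ch.Zt => Y (Ch.pw ζ a)) = ∑ r : ∀ s : Σ i, Fin (a i), Fin (ch.M s.1),
      Y ((ContinuousMultilinearMap.mkPiAlgebra ℂ _ ℂ).compContinuousLinearMap
        fun s => ContinuousLinearMap.proj (r s)) •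
        fun ζ : ch.Zt => ∏ s, ζ s.1 (Pi.single (r s) 1) := by
    funext ζ
    rw [e1]
    simp [mul_comm]
  rw [e2]
  exact Submodule.sum_mem _ fun r _ => Submodule.smul_mem _ _
    (Submodule.subset_span ⟨fun s => Pi.single (r s) 1, rfl⟩)

instance fin_PiZ (a : ι → ℕ) : FiniteDimensional ℂ (ch.PiZ a) := by
  rw [PiZ_eq, Pol]
  infer_instance

variable (ch) in
/-- the generators of the first components -/
def G1 (j : J) : Set (ch.Pt → ch.Th j × ch.Th j → ℂ) :=
  {f | ∃ (l l' : ch.Th j →L[ℂ] ℂ) (μ : ch.Th j) (y : ch.E (some j)),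
    f = fun z m => l m.1 * l' m.2 * val μ z.1 * z.2 (some j) y}

variable (ch e σ) in
/-- the generators of the second components -/
def G2 (k : K) : Set (ch.Pt → ch.Zt → ℂ) :=
  {f | ∃ α ∈ σ k, ∃ (v : ∀ s : Σ i, Fin (e k i), Fin (ch.M s.1) → ℂ)
    (y : ∀ s : Σ j, Fin (α j), ch.E (some s.1))
    (μ : Tens ch.M fun i => e k i - ∑ j, α j * ch.b j i),
    f = fun z ζ => (∏ s, ζ s.1 (v s)) * (∏ s, z.2 (some s.1) (y s)) * val μ z.1}

theorem mem_polS {f : ch.P K} : f ∈ ch.polS e σ ↔ (∀ j, f.1 j ∈ Submodule.span ℂ (ch.G1 j)) ∧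
    ∀ k, f.2 k ∈ Submodule.span ℂ (ch.G2 e σ k) :=
  ⟨fun h => ⟨fun j => h.1 j trivial, fun k => h.2 k trivial⟩,
    fun h => ⟨fun j _ => h.1 j, fun k _ => h.2 k⟩⟩

/-- the evaluation of forms as a function of the point -/
noncomputable def valP (T : Type) (a : ι → ℕ) : Tens ch.M a →ₗ[ℂ] ch.Pt → T → ℂ where
  toFun μ z _ := val μ z.1
  map_add' _ _ := rfl
  map_smul' _ _ := rfl

/-- the evaluation of sections as a function of the point -/
noncomputable def secP (T : Type) (j : J) : ch.E (some j) →ₗ[ℂ] ch.Pt → T → ℂ where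
  toFun y z _ := z.2 (some j) y
  map_add' _ _ := funext₂ fun _ _ => map_add _ _ _
  map_smul' _ _ := funext₂ fun _ _ => map_smul _ _ _

/-- linear forms as functions of the tests -/
noncomputable def linP {T V : Type} [NormedAddCommGroup V] [NormedSpace ℂ V] (q : T → V) :
    (V →L[ℂ] ℂ) →ₗ[ℂ] ch.Pt → T → ℂ where
  toFun y _ m := y (q m)
  map_add' _ _ := rfl
  map_smul' _ _ := rfl

/-- functions of the tests only -/
noncomputable def cstP (T : Type) : (T → ℂ) →ₗ[ℂ] ch.Pt → T → ℂ where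
  toFun y _ := y
  map_add' _ _ := rfl
  map_smul' _ _ := rfl

theorem fg_G1 (j : J) : (Submodule.span ℂ (ch.G1 j)).FG := by
  refine ((((Submodule.fg_range (linP Prod.fst)).mul (Submodule.fg_range (linP Prod.snd))).mul
    (Submodule.fg_range (valP _ (ch.b j)))).mul (Submodule.fg_range (secP _ j))).of_le
    (Submodule.span_le.2 ?_)
  rintro _ ⟨a, a', μ, y, rfl⟩
  exact Submodule.mul_mem_mul (Submodule.mul_mem_mul (Submodule.mul_mem_mul ⟨a, rfl⟩ ⟨a', rfl⟩)
    ⟨μ, rfl⟩) ⟨y, rfl⟩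

theorem fg_G2 (k : K) : (Submodule.span ℂ (ch.G2 e σ k)).FG := by
  choose P h1 h2 using fun a : J →₀ ℕ => exists_fg_prod (Finset.univ : Finset (Σ j, Fin (a j)))
    (fun s => LinearMap.range (secP (ch := ch) ch.Zt s.1)) fun s => Submodule.fg_range _
  have h3 : ((ch.PiZ (e k)).map (cstP (ch := ch) ch.Zt)).FG :=
    (Module.Finite.iff_fg.1 (fin_PiZ (e k))).map _
  refine (Submodule.fg_biSup (σ k) (fun a => (ch.PiZ (e k)).map (cstP ch.Zt) * P a *
    LinearMap.range (valP ch.Zt fun i => e k i - ∑ j, a j * ch.b j i)) fun a _ =>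
      (h3.mul (h1 a)).mul (Submodule.fg_range _)).of_le (Submodule.span_le.2 ?_)
  rintro _ ⟨a, ha, v, y, μ, rfl⟩
  refine Submodule.mem_iSup_of_mem a (Submodule.mem_iSup_of_mem ha ?_)
  have h4 := Submodule.mul_mem_mul (Submodule.mul_mem_mul
    (Submodule.mem_map_of_mem (f := cstP (ch := ch) ch.Zt)
      (Submodule.subset_span ⟨v, rfl⟩ : _ ∈ ch.PiZ (e k)))
    (h2 a (fun s => secP ch.Zt s.1 (y s)) fun s => ⟨y s, rfl⟩))
    (LinearMap.mem_range_self (valP ch.Zt fun i => e k i - ∑ j, a j * ch.b j i) μ)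
  refine mem_of_eq_of_mem (funext₂ fun z ζ => ?_) h4
  simp only [Pi.mul_apply, Finset.prod_apply]
  rfl

instance fin_polS : FiniteDimensional ℂ (ch.polS e σ) :=
  Module.Finite.iff_fg.2 ((Submodule.fg_pi fun j => fg_G1 j).prod (Submodule.fg_pi fun k => fg_G2 k))

instance fin_polF : FiniteDimensional ℂ (ch.polF F e) := fin_polS

theorem isClosed_polS : IsClosed (ch.polS e σ : Set (ch.P K)) :=
  Submodule.closed_of_finiteDimensional _

theorem cont_G1 {j : J} {f : ch.Pt → ch.Th j × ch.Th j → ℂ} (hf : f ∈ Submodule.span ℂ (ch.G1 j)) :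
    Continuous fun p : ch.Pt × (ch.Th j × ch.Th j) => f p.1 p.2 := by
  induction hf using Submodule.span_induction with
  | mem f h =>
    obtain ⟨a, a', μ, y, rfl⟩ := h
    have := Pol.cont (val_mem μ)
    fun_prop
  | zero => exact continuous_const
  | add _ _ _ _ a b => exact a.add b
  | smul c _ _ a => exact a.const_smul c

theorem cont_G2 {k : K} {f : ch.Pt → ch.Zt → ℂ} (hf : f ∈ Submodule.span ℂ (ch.G2 e σ k)) :
    Continuous fun p : ch.Pt × ch.Zt => f p.1 p.2 := by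
  induction hf using Submodule.span_induction with
  | mem f h =>
    obtain ⟨a, -, v, y, μ, rfl⟩ := h
    have := Pol.cont (val_mem μ)
    fun_prop
  | zero => exact continuous_const
  | add _ _ _ _ a b => exact a.add b
  | smul c _ _ a => exact a.const_smul c

theorem continuous_evZ {f : ch.P K} (hf : f ∈ ch.polS e σ) :
    Continuous fun z : ch.Pt => evZ z f :=
  (continuous_pi fun j => continuous_pi fun m =>
    (cont_G1 ((mem_polS.1 hf).1 j)).comp (Continuous.prodMk_left m)).prodMk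
    (continuous_pi fun k => continuous_pi fun ζ =>
      (cont_G2 ((mem_polS.1 hf).2 k)).comp (Continuous.prodMk_left ζ))

theorem tendsto_evZ {f : α → ch.P K} {f₀ : ch.P K} {z : α → ch.Pt} {z₀ : ch.Pt}
    (hf : ∀ᶠ a in l, f a ∈ ch.polS e σ) (hf₀ : f₀ ∈ ch.polS e σ) (h1 : Tendsto f l (𝓝 f₀))
    (h2 : Tendsto z l (𝓝 z₀)) : Tendsto (fun a => evZ (z a) (f a)) l (𝓝 (evZ z₀ f₀)) :=
  tendsto_fd (fun _ => continuous_evZ) hf hf₀ h1 h2

theorem gen_mem {k : K} {a : J →₀ ℕ} (ha : a ∈ σ k) {φ : ch.Zt → ℂ} (hφ : φ ∈ ch.PiZ (e k))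
    (y : ∀ s : Σ j, Fin (a j), ch.E (some s.1))
    (μ : Tens ch.M fun i => e k i - ∑ j, a j * ch.b j i) :
    (fun (z : ch.Pt) ζ => φ ζ * (∏ s, z.2 (some s.1) (y s)) * val μ z.1) ∈
      Submodule.span ℂ (ch.G2 e σ k) := by
  induction hφ using Submodule.span_induction with
  | mem f h =>
    obtain ⟨v, rfl⟩ := h
    exact Submodule.subset_span ⟨a, ha, v, y, μ, rfl⟩
  | zero => exact mem_of_eq_of_mem (funext₂ fun z ζ => by simp) (zero_mem _)
  | add _ _ _ _ h h' =>
    exact mem_of_eq_of_mem (funext₂ fun z ζ => by simp [add_mul]) (add_mem h h')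
  | smul c _ _ h =>
    exact mem_of_eq_of_mem (funext₂ fun z ζ => by simp [mul_assoc]) (Submodule.smul_mem _ c h)

theorem mono_mem {k : K} {a : J →₀ ℕ} (ha : a ∈ σ k) (hle : ∀ i, ∑ j, a j * ch.b j i ≤ e k i)
    (X : ∀ j, ch.Th j →L[ℂ] ch.E (some j)) :
    (fun (z : ch.Pt) (ζ : ch.Zt) => (∏ j, z.2 (some j) (X j (pw ζ _)) ^ a j) *
      ∏ i, ζ i (z.1 i) ^ (e k i - ∑ j, a j * ch.b j i)) ∈ Submodule.span ℂ (ch.G2 e σ k) := by
  classical
  let b := fun j => Module.finBasis ℂ (ch.Th j)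
  let b' := Module.finBasis ℂ (Tens ch.M fun i => e k i - ∑ j, a j * ch.b j i)
  have e1 : (fun (z : ch.Pt) (ζ : ch.Zt) => (∏ j, z.2 (some j) (X j (pw ζ _)) ^ a j) *
      ∏ i, ζ i (z.1 i) ^ (e k i - ∑ j, a j * ch.b j i)) =
      ∑ r : ∀ s : Σ j, Fin (a j), Fin (finrank ℂ (ch.Th s.1)), ∑ r', fun (z : ch.Pt) ζ =>
        ((∏ s : Σ j, Fin (a j), fun ζ => (b s.1).coord (r s) (pw ζ _)) *
          fun ζ => b'.coord r' (pw ζ _)) ζ *
        (∏ s, z.2 (some s.1) (X s.1 (b s.1 (r s)))) * val (b' r') z.1 := by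
    funext z ζ
    have a1 : ∏ j, z.2 (some j) (X j (pw ζ _)) ^ a j =
        ∏ s : Σ j, Fin (a j), z.2 (some s.1) (X s.1 (pw ζ _)) := by
      rw [Fintype.prod_sigma]
      exact Finset.prod_congr rfl fun j _ => (Fin.prod_const (a j) _).symm
    rw [a1, ← val_pw, Finset.prod_congr rfl fun s _ =>
      lin_sum (b s.1) (z.2 (some s.1) ∘L X s.1).toLinearMap (pw ζ _), Fintype.prod_sum,
      show val (pw ζ _) z.1 = _ from lin_sum b' (evL _ z.1).toLinearMap (pw ζ _),
      Finset.sum_mul_sum]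
    simp only [Finset.sum_apply, Pi.mul_apply, Finset.prod_apply, Finset.prod_mul_distrib]
    exact Finset.sum_congr rfl fun r _ => Finset.sum_congr rfl fun r' _ => by
      simp only [ContinuousLinearMap.coe_coe, ContinuousLinearMap.comp_apply, evL_apply]
      ring
  rw [e1]
  refine Submodule.sum_mem _ fun r _ => Submodule.sum_mem _ fun r' _ => gen_mem ha ?_ _ _
  have a2 := PiZ.mul (PiZ.prod Finset.univ fun (s : Σ j, Fin (a j)) _ =>
    PiZ.pw (ch.b s.1) ((b s.1).coord (r s))) (PiZ.pw _ (b'.coord r'))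
  have a3 : (∑ s : Σ j, Fin (a j), ch.b s.1) + (fun i => e k i - ∑ j, a j * ch.b j i) = e k := by
    funext i
    rw [Pi.add_apply, Finset.sum_apply, Fintype.sum_sigma]
    simp only [Finset.sum_const, Finset.card_univ, Fintype.card_fin, smul_eq_mul]
    exact Nat.add_sub_cancel' (hle i)
  rwa [a3] at a2

theorem bil_mem {j : J} (X : ch.Th j →L[ℂ] ch.E (some j)) {q q' : ch.Th j × ch.Th j → ch.Th j}
    (h : q = Prod.fst ∧ q' = Prod.snd ∨ q = Prod.snd ∧ q' = Prod.fst) :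
    (fun (z : ch.Pt) m => val (q m) z.1 * z.2 (some j) (X (q' m))) ∈
      Submodule.span ℂ (ch.G1 j) := by
  let b := Module.finBasis ℂ (ch.Th j)
  have e1 : (fun (z : ch.Pt) m => val (q m) z.1 * z.2 (some j) (X (q' m))) =
      ∑ r, ∑ r', fun (z : ch.Pt) m => b.coord r (q m) * b.coord r' (q' m) * val (b r) z.1 *
        z.2 (some j) (X (b r')) := by
    funext z m
    rw [show val (q m) z.1 = _ from lin_sum b (evL _ z.1).toLinearMap (q m),
      show z.2 (some j) (X (q' m)) = _ from lin_sum b (z.2 (some j) ∘L X).toLinearMap (q' m),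
      Finset.sum_mul_sum]
    simp only [Finset.sum_apply]
    exact Finset.sum_congr rfl fun r _ => Finset.sum_congr rfl fun r' _ => by
      simp only [ContinuousLinearMap.coe_coe, ContinuousLinearMap.comp_apply, evL_apply]
      ring
  rw [e1]
  refine Submodule.sum_mem _ fun r _ => Submodule.sum_mem _ fun r' _ => Submodule.subset_span ?_
  rcases h with ⟨rfl, rfl⟩ | ⟨rfl, rfl⟩
  · exact ⟨(b.coord r).toContinuousLinearMap, (b.coord r').toContinuousLinearMap, _, _, rfl⟩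
  · exact ⟨(b.coord r').toContinuousLinearMap, (b.coord r).toContinuousLinearMap, b r, X (b r'),
      funext₂ fun z m => by rw [mul_comm (b.coord r _)]; rfl⟩

theorem sctF_snd (x : ch.WF ν κ Λ) (k : K) (z : ch.Pt) (ζ : ch.Zt) : (sctF F e x).2 k z ζ =
    eval (fun j => z.2 (some j) (x.2.X j (pw ζ _))) (hp F e x.1 k ζ z.1) := hmg_fib _ _ _ _ _ _ _

theorem Fits.sctF_mem (h : ch.Fits F e) (x : ch.WF ν κ Λ) : sctF F e x ∈ ch.polF F e := by
  refine mem_polS.2 ⟨fun j => sub_mem (bil_mem (x.2.X j) (Or.inr ⟨rfl, rfl⟩))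
    (bil_mem (x.2.X j) (Or.inl ⟨rfl, rfl⟩)), fun k => ?_⟩
  refine mem_of_eq_of_mem (funext₂ fun z ζ => ?_) (Submodule.sum_mem _ fun a ha =>
    Submodule.smul_mem _ (eval x.1 (coeff a (F.G k))) (mono_mem ha (h.le k a ha) x.2.X))
  simp only [sctF_snd, Ch.eval_hp, Finset.sum_apply, Pi.smul_apply, smul_eq_mul, mul_assoc]

theorem continuous_sctF : Continuous (sctF F e : ch.WF ν κ Λ → ch.P K) := by
  have a : ∀ j (u : ch.E (some j) →L[ℂ] ℂ) m, Continuous fun x : ch.WF ν κ Λ => u (x.2.X j m) :=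
    fun j u m => u.continuous.comp (((W.XL (ch := ch) (ν := Mk ν κ) j).continuous.comp
      continuous_snd).clm_apply continuous_const)
  refine (continuous_pi fun j => continuous_pi fun z => continuous_pi fun m =>
    (continuous_const.mul (a j _ _)).sub (continuous_const.mul (a j _ _))).prodMk
    (continuous_pi fun k => continuous_pi fun z => continuous_pi fun ζ => ?_)
  refine Continuous.congr ?_ fun x => ((sctF_snd x k z ζ).trans (Ch.eval_hp _ _ _ _ _ _ _)).symm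
  exact continuous_finsetSum _ fun β _ => (((continuous_eval _).comp continuous_fst).mul
    (continuous_finsetProd _ fun j _ => (a j _ _).pow _)).mul continuous_const

/-- the action on the points -/
noncomputable def zz (s : ch.AF ν κ S) (z : ch.Pt) : ch.Pt :=
  (fun i => Ring.inverse (s.2.1 i) (z.1 i), fun l => z.2 l ∘L s.2.2.1 l)

theorem ρF_fst (s : ch.AF ν κ S) (f : ch.P K) (j : J) (z : ch.Pt) (m : ch.Th j × ch.Th j) :
    (ρF F s f).1 j z m =
      (∏ i, s.1 i ^ F.wt j i) * f.1 j (zz s z) (sub s.2 _ m.1, sub s.2 _ m.2) := rfl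

theorem ρF_snd (s : ch.AF ν κ S) (f : ch.P K) (k : K) (z : ch.Pt) (ζ : ch.Zt) :
    (ρF F s f).2 k z ζ = (∏ i, s.1 i ^ F.wk k i) * f.2 k (zz s z) fun i => ζ i ∘L s.2.1 i := rfl

theorem P_ext {f g : ch.P K} (h1 : ∀ j z m, f.1 j z m = g.1 j z m)
    (h2 : ∀ k z ζ, f.2 k z ζ = g.2 k z ζ) : f = g := Prod.ext (funext₃ h1) (funext₃ h2)

theorem ρF_add (s : ch.AF ν κ S) (f g : ch.P K) : ρF F s (f + g) = ρF F s f + ρF F s g :=
  P_ext (fun _ _ _ => mul_add _ _ _) fun _ _ _ => mul_add _ _ _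

theorem ρF_smul (s : ch.AF ν κ S) (c : ℂ) (f : ch.P K) : ρF F s (c • f) = c • ρF F s f :=
  P_ext (fun _ _ _ => mul_left_comm _ _ _) fun _ _ _ => mul_left_comm _ _ _

theorem zz_one (z : ch.Pt) : zz (1 : ch.AF ν κ S) z = z :=
  Prod.ext (funext fun i => DFunLike.congr_fun (Ring.inverse_one (_ →L[ℂ] _)) (z.1 i)) rfl

theorem ρF_one (f : ch.P K) : ρF F (1 : ch.AF ν κ S) f = f :=
  P_ext (fun j z m => by
    rw [ρF_fst, zz_one]
    simp only [Prod.fst_one, Pi.one_apply, one_zpow, Finset.prod_const_one, one_mul]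
    rfl) fun k z ζ => by
    rw [ρF_snd, zz_one]
    simp only [Prod.fst_one, Pi.one_apply, one_zpow, Finset.prod_const_one, one_mul]
    rfl

theorem unit_fst {s : ch.AF ν κ S} (hs : IsUnit s) (i : ι) : IsUnit (s.2.1 i) :=
  isUnit_fst (isUnitF_iff.1 hs).2 i

theorem zz_mul {s : ch.AF ν κ S} (hs : IsUnit s) (t : ch.AF ν κ S) (z : ch.Pt) :
    zz (s * t) z = zz t (zz s z) :=
  Prod.ext (funext fun i =>
    DFunLike.congr_fun (Ring.inverse_mul (b := t.2.1 i) (Or.inl (unit_fst hs i))) (z.1 i)) rfl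

theorem ρF_mul {s t : ch.AF ν κ S} (hs : IsUnit s) (_ht : IsUnit t) (f : ch.P K) :
    ρF F (s * t) f = ρF F s (ρF F t f) :=
  P_ext (fun j z m => by
    rw [ρF_fst, ρF_fst, ρF_fst, zz_mul hs, Prod.fst_mul, prod_zpow_mul, mul_assoc]
    rfl) fun k z ζ => by
    rw [ρF_snd, ρF_snd, ρF_snd, zz_mul hs, Prod.fst_mul, prod_zpow_mul, mul_assoc]
    rfl

theorem ρF_mem {s : ch.AF ν κ S} {f : ch.P K} (hf : f ∈ ch.polS e σ) : ρF F s f ∈ ch.polS e σ := by
  refine mem_polS.2 ⟨fun j => ?_, fun k => ?_⟩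
  · refine Submodule.smul_mem _ (∏ i, s.1 i ^ F.wt j i)
      (x := fun (z : ch.Pt) (m : ch.Th j × ch.Th j) =>
        f.1 j (zz s z) (sub s.2 _ m.1, sub s.2 _ m.2)) ?_
    have h := (mem_polS.1 hf).1 j
    generalize f.1 j = g at h
    induction h using Submodule.span_induction with
    | mem g h =>
      obtain ⟨a, a', μ, y, rfl⟩ := h
      exact Submodule.subset_span ⟨a ∘L sub s.2 _, a' ∘L sub s.2 _,
        μ.compContinuousLinearMap fun r => Ring.inverse (s.2.1 r.1), s.2.2.1 _ y, rfl⟩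
    | zero => exact zero_mem _
    | add _ _ _ _ a b => exact add_mem a b
    | smul c _ _ a => exact Submodule.smul_mem _ c a
  · refine Submodule.smul_mem _ (∏ i, s.1 i ^ F.wk k i)
      (x := fun (z : ch.Pt) (ζ : ch.Zt) => f.2 k (zz s z) fun i => ζ i ∘L s.2.1 i) ?_
    have h := (mem_polS.1 hf).2 k
    generalize f.2 k = g at h
    induction h using Submodule.span_induction with
    | mem g h =>
      obtain ⟨a, ha, v, y, μ, rfl⟩ := h
      exact Submodule.subset_span ⟨a, ha, fun r => s.2.1 r.1 (v r), fun r => s.2.2.1 _ (y r),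
        μ.compContinuousLinearMap fun r => Ring.inverse (s.2.1 r.1), rfl⟩
    | zero => exact zero_mem _
    | add _ _ _ _ a b => exact add_mem a b
    | smul c _ _ a => exact Submodule.smul_mem _ c a

theorem continuous_zz (z : ch.Pt) :
    Continuous fun g : (ch.AF ν κ S)ˣ => zz (g : ch.AF ν κ S) z := by
  have a : Continuous fun g : (ch.AF ν κ S)ˣ => (g : ch.AF ν κ S).2 :=
    continuous_snd.comp Units.continuous_val
  have b : Continuous fun g : (ch.AF ν κ S)ˣ => (↑g⁻¹ : ch.AF ν κ S).2 :=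
    continuous_snd.comp Units.continuous_coe_inv
  refine (continuous_pi fun i => ?_).prodMk (continuous_pi fun l => continuous_const.clm_comp
    ((continuous_apply l).comp (continuous_fst.comp (continuous_snd.comp a))))
  refine (((continuous_apply i).comp (continuous_fst.comp b)).clm_apply
    (continuous_const (y := z.1 i))).congr fun g => DFunLike.congr_fun ?_ (z.1 i)
  exact (Ring.inverse_unit ⟨(g : ch.AF ν κ S).2.1 i, (↑g⁻¹ : ch.AF ν κ S).2.1 i,
    congrArg (fun s : ch.AF ν κ S => s.2.1 i) g.mul_inv,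
    congrArg (fun s : ch.AF ν κ S => s.2.1 i) g.inv_mul⟩).symm

theorem continuous_ρF {f : ch.P K} (hf : f ∈ ch.polS e σ) :
    Continuous fun g : (ch.AF ν κ S)ˣ => ρF F (g : ch.AF ν κ S) f := by
  have a : Continuous fun g : (ch.AF ν κ S)ˣ => (g : ch.AF ν κ S).2 :=
    continuous_snd.comp Units.continuous_val
  have b : ∀ w : S → ℤ, Continuous fun g : (ch.AF ν κ S)ˣ => ∏ i, (g : ch.AF ν κ S).1 i ^ w i :=
    fun w => continuous_finsetProd _ fun i _ => ((continuous_apply i).comp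
      (continuous_fst.comp Units.continuous_val)).zpow₀ _ fun g => Or.inl (ne_S g.isUnit i)
  have c : ∀ j (m : ch.Th j), Continuous fun g : (ch.AF ν κ S)ˣ =>
      sub (g : ch.AF ν κ S).2 _ m := fun j m =>
    ((continuous_iff_continuousAt.2 fun s : ch.A (ν ⊕ κ) => (an_sub analyticAt_id
      (Sigma.fst : (Σ i, Fin (ch.b j i)) → ι)).continuousAt).comp a).clm_apply continuous_const
  exact (continuous_pi fun j => continuous_pi fun z => continuous_pi
    fun m : ch.Th j × ch.Th j => (b _).mul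
    ((cont_G1 ((mem_polS.1 hf).1 j)).comp
      ((continuous_zz z).prodMk ((c j m.1).prodMk (c j m.2))))).prodMk
    (continuous_pi fun k => continuous_pi fun z => continuous_pi fun ζ => (b _).mul
      ((cont_G2 ((mem_polS.1 hf).2 k)).comp ((continuous_zz z).prodMk
        (continuous_pi fun i => continuous_const.clm_comp
          ((continuous_apply i).comp (continuous_fst.comp a))))))

variable {s : ch.AF ν κ S}

theorem ap_zz (hs : IsUnit s) (z : ch.Pt) (i : ι) : s.2.1 i ((zz s z).1 i) = z.1 i :=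
  Cv.ap_inv (unit_fst hs i) _

theorem val_zz (hs : IsUnit s) (z : ch.Pt) {a : ι → ℕ} (m : Tens ch.M a) :
    val (sub s.2 _ m) (zz s z).1 = val m z.1 :=
  congrArg m (funext fun r => ap_zz hs z r.1)

theorem zz_mem (hs : IsUnit s) {z : ch.Pt} (hz : z ∈ gr (actF F.toWt s x).2) : zz s z ∈ gr x.2 :=
  (Cv.gr_act (x := scl (fun j => ∏ i, s.1 i ^ F.wt j i) x.2) (c := (zz s z).1) (u := z.2)
    (isUnit_dupF hs)).1 (mem_of_eq_of_mem (Prod.ext (funext (ap_zz hs z)) rfl) hz)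

theorem X_actF (z : ch.Pt) (j : J) (m : ch.Th j) : z.2 (some j) ((actF F.toWt s x).2.X j m) =
    (∏ i, s.1 i ^ F.wt j i) * (zz s z).2 (some j) (x.2.X j (sub s.2 _ m)) :=
  map_smul ((zz s z).2 (some j)) (∏ i, s.1 i ^ F.wt j i) (x.2.X j (sub s.2 _ m))

theorem eval_coeff (hF : F.Inv) {τ : S → ℂ} (hτ : ∀ i, τ i ≠ 0) (y : Λ → ℂ) {k : K} {a : J →₀ ℕ}
    (ha : a ∈ (F.G k).support) :
    eval (F.actL τ y) (coeff a (F.G k)) * ∏ j, (∏ i, τ i ^ F.wt j i) ^ a j =
      (∏ i, τ i ^ F.wk k i) * eval y (coeff a (F.G k)) := by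
  simp only [eval_eq', Finset.sum_mul, Finset.mul_sum]
  refine Finset.sum_congr rfl fun β hβ => ?_
  simp only [Wt.actL, mul_pow, Finset.prod_mul_distrib, prod_pow_zpow hτ,
    ← hF.homS k a ha β hβ, zpow_add₀ (hτ _)]
  ring

theorem eval_hp_act (hF : F.Inv) (hs : IsUnit s) (y : Λ → ℂ) (k : K) (ζ : ch.Zt) (z : ch.Pt)
    (v : J → ℂ) :
    eval (fun j => (∏ i, s.1 i ^ F.wt j i) * v j) (hp F e (F.actL s.1 y) k ζ z.1) =
      (∏ i, s.1 i ^ F.wk k i) * eval v (hp F e y k (fun i => ζ i ∘L s.2.1 i) (zz s z).1) := by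
  rw [Ch.eval_hp, Ch.eval_hp, Finset.mul_sum]
  refine Finset.sum_congr rfl fun a ha => ?_
  simp only [mul_pow, Finset.prod_mul_distrib, ContinuousLinearMap.comp_apply, ap_zz hs]
  rw [← mul_assoc, eval_coeff hF (ne_S hs) y ha]
  ring

theorem sctF_actF (hF : F.Inv) (hs : IsUnit s) (x : ch.WF ν κ Λ) :
    sctF F e (actF F.toWt s x) = ρF F s (sctF F e x) := by
  refine P_ext (fun j z m => ?_) fun k z ζ => ?_
  · change val m.2 z.1 * z.2 (some j) ((actF F.toWt s x).2.X j m.1) -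
      val m.1 z.1 * z.2 (some j) ((actF F.toWt s x).2.X j m.2) = (∏ i, s.1 i ^ F.wt j i) *
        (val (sub s.2 _ m.2) (zz s z).1 * (zz s z).2 (some j) (x.2.X j (sub s.2 _ m.1)) -
          val (sub s.2 _ m.1) (zz s z).1 * (zz s z).2 (some j) (x.2.X j (sub s.2 _ m.2)))
    rw [X_actF, X_actF, val_zz hs, val_zz hs]
    ring
  · rw [ρF_snd, sctF_snd, sctF_snd]
    simp only [X_actF]
    exact eval_hp_act hF hs x.1 k ζ z _

theorem vanM_actF (hs : IsUnit s) {f : ch.P K} (hf : f ∈ vanM F e x) :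
    ρF F s f ∈ vanM F e (actF F.toWt s x) := by
  obtain ⟨a, b⟩ := mem_vanM.1 hf
  refine mem_vanM.2 ⟨ρF_mem a, fun z hz => ?_⟩
  have c := b _ (zz_mem hs hz)
  exact Prod.ext (funext₂ fun j m => mul_eq_zero_of_right _
    (congrFun (congrFun (congrArg Prod.fst c) j) _))
    (funext₂ fun k ζ => mul_eq_zero_of_right _ (congrFun (congrFun (congrArg Prod.snd c) k) _))

theorem obsM_actF (hF : F.Inv) (hs : IsUnit s) {f : ch.P K} (hf : f ∈ obsM F e x) :
    ρF F s f ∈ obsM F e (actF F.toWt s x) := by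
  obtain ⟨a, b⟩ := mem_obsF.2 hf
  refine mem_obsF.1 ⟨ρF_mem a, fun z hz => ?_⟩
  obtain ⟨y, h1, h2, h3⟩ := b _ (zz_mem hs hz)
  refine ⟨fun j => (∏ i, s.1 i ^ F.wt j i) • (y j ∘L sub s.2 _), 
    fun j hj => ContinuousLinearMap.ext fun m => by simp [h1 j hj], fun j m => ?_, fun k ζ => ?_⟩
  · rw [ρF_fst, h2, val_zz hs, val_zz hs]
    simp only [smul_apply, ContinuousLinearMap.comp_apply, smul_eq_mul]
    ring
  · rw [ρF_snd, h3, ← deriv_const_mul_field]
    refine congrArg (deriv · 0) (funext fun ε => ?_)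
    rw [hmg_fib, hmg_fib, ← eval_hp_act hF hs]
    refine congrArg (MvPolynomial.eval · _) (_root_.funext fun j => ?_)
    rw [X_actF, mul_add, mul_left_comm]
    rfl

end Ch

end Vale.Agent.P269
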