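import Vale.Agent.P287Q.G.Vir.Ob

/-!
# The rank of the obstruction space on a nodal curve
-/

set_option linter.unusedSectionVars false
set_option linter.unusedVariables false

namespace Vale.Agent.P269.Vir

open Set Function Topology Filter Module Cv

variable {J K Z : Type} [Fintype J] {Θ : J → Type} [∀ j, AddCommGroup (Θ j)] [∀ j, Module ℂ (Θ j)]
  {X : Type} [TopologicalSpace X] {R : RS X} {N : Finset (X × X)} {c : CD R K Z Θ} {L : J → LB R}
  {Lk : K → LB R} {G : LB R}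

namespace Rk

/-- Pluecker coordinates of the image from those of the kernel -/
theorem exists_plu [Finite K] [DecidableEq J] {n r : ℕ} {g : K → J → ℂ} {mov : Set J}
    (e : Fin n ⊕ Fin r ≃ mov) {q : (Fin n → J) → ℂ} (h : Sb.Plu (Vt g mov) q) :
    ∃ p : (Fin r → K) → ℂ, Sb.Plu (Wg g mov) p ∧ ∀ σ s, p σ * q s =
      (Matrix.of fun b a : Fin n ⊕ Fin r => Sum.elim (fun k => if s k = e b then (1 : ℂ) else 0)
        (fun l => g (σ l) (e b)) a).det := by
  obtain ⟨v, c, hc, hq⟩ := h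
  let _ : Fintype mov := Fintype.ofFinite _
  have r1 := finrank_Wg_add g mov
  rw [finrank_eq_card_basis v, ← Fintype.card_congr e] at r1
  simp only [Fintype.card_sum, Fintype.card_fin] at r1
  let w := finBasisOfFinrankEq ℂ (Wg g mov) (show _ = r by omega)
  choose u u0 u1 using fun l => (w l).2
  have se : ∀ η : J → ℂ, (∀ j ∉ mov, η j = 0) → ∀ f : J → ℂ,
      ∑ b, η (e b) * f (e b) = ∑ j, f j * η j := fun η hη f =>
    Fintype.sum_of_injective (fun b => (e b).1) (Subtype.val_injective.comp e.injective) _ _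
      (fun j hj => by rw [hη j fun a => hj ⟨e.symm ⟨j, a⟩, by simp⟩, mul_zero])
      fun b => mul_comm _ _
  let y : Fin n ⊕ Fin r → J → ℂ := Sum.elim (fun i => (v i).1) u
  have y0 : ∀ a, ∀ j ∉ mov, y a j = 0 := Sum.rec (fun i => (v i).2.1) u0
  let P : Matrix (Fin n ⊕ Fin r) (Fin n ⊕ Fin r) ℂ := Matrix.of fun a b => y a (e b)
  have hP : P.det ≠ 0 := fun d => by
    obtain ⟨t, t0, t1⟩ := Matrix.exists_vecMul_eq_zero_iff.2 d
    have z : ∀ j, ∑ a, t a * y a j = 0 := fun j => by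
      by_cases hj : j ∈ mov
      · simpa [P, Matrix.vecMul, dotProduct] using congrFun t1 (e.symm ⟨j, hj⟩)
      · simp [y0 _ j hj]
    have z2 : ∀ l, t (.inr l) = 0 := Fintype.linearIndependent_iff.1 w.linearIndependent _
      (Subtype.ext (funext fun k => by
        have : ∑ j, g k j * ∑ a, t a * y a j = 0 := by simp [z]
        simp only [Finset.mul_sum, mul_left_comm (g k _)] at this
        rw [Finset.sum_comm] at this
        simp only [← Finset.mul_sum, Fintype.sum_sum_type, y, Sum.elim_inl, Sum.elim_inr, u1,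
          (v _).2.2 k, mul_zero, Finset.sum_const_zero, zero_add] at this
        simpa using this))
    have z1 : ∀ i, t (.inl i) = 0 := Fintype.linearIndependent_iff.1 v.linearIndependent _
      (Subtype.ext (funext fun j => by simpa [Fintype.sum_sum_type, z2, y] using z j))
    exact t0 (funext (Sum.rec z1 z2))
  refine ⟨_, ⟨w, (c * P.det)⁻¹, inv_ne_zero (mul_ne_zero hc hP), fun _ => rfl⟩, fun σ s => ?_⟩
  have m : P * (Matrix.of fun b a : Fin n ⊕ Fin r => Sum.elim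
      (fun k => if s k = e b then (1 : ℂ) else 0) (fun l => g (σ l) (e b)) a) =
      Matrix.fromBlocks (Matrix.of fun i k => (v i).1 (s k)) 0 (Matrix.of fun l k => u l (s k))
        (Matrix.of fun i l => (w i).1 (σ l)) := Matrix.ext fun a a' => by
    rcases a' with k | l
    · refine (se (y a) (y0 a) fun j => if s k = j then 1 else 0).trans ?_
      rcases a with i | i <;> simp [y]
    · refine (se (y a) (y0 a) (g (σ l))).trans ?_
      rcases a with i | i
      exacts [(v i).2.2 _, u1 i _]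
  have d := congrArg Matrix.det m
  rw [Matrix.det_mul, Matrix.det_fromBlocks_zero₁₂] at d
  rw [hq]
  field_simp
  linear_combination -d

theorem det_mem {n : Type} [Fintype n] [DecidableEq n] {P C : n → LB R} {Q : n → n → X → ℂ}
    (h : ∀ b a, Q b a ∈ H0 N (P a / C b)) :
    (fun x => (Matrix.of fun b a => Q b a x).det) ∈ H0 N ((∏ a, P a) / ∏ b, C b) := by
  rw [show (fun x => (Matrix.of fun b a => Q b a x).det) = ∑ σ : Equiv.Perm n,
    ((Equiv.Perm.sign σ : ℤ) : ℂ) • ∏ a, Q (σ a) a from funext fun x => by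
      simp [Matrix.det_apply']]
  refine Submodule.sum_mem _ fun σ _ => Submodule.smul_mem _ _ ?_
  rw [← Equiv.prod_comp σ C, ← Finset.prod_div_distrib]
  exact H0.prod_mem fun a _ => h _ _

theorem exists_kos {Θ : Type} [AddCommGroup Θ] [Module ℂ Θ] {t Y0 : Θ →ₗ[ℂ] ℂ} {m m' : Θ}
    {y y' : ℂ} (h : t m ≠ 0 ∨ t m' ≠ 0) (e : kos t Y0 (m, m') = t m' * y - t m * y') :
    ∃ Y, (∀ p, kos t Y p = kos t Y0 p) ∧ Y m = y ∧ Y m' = y' := by
  simp only [kos] at e
  obtain ⟨a, h1, h2⟩ : ∃ a, Y0 m + a * t m = y ∧ Y0 m' + a * t m' = y' := by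
    rcases h with h | h
    · exact ⟨(y - Y0 m) / t m, by field_simp; ring, by field_simp; linear_combination -e⟩
    · exact ⟨(y' - Y0 m') / t m', by field_simp; linear_combination e, by field_simp; ring⟩
  exact ⟨Y0 + a • t, fun p => by rw [kos_add, kos_self, add_zero], h1, h2⟩

theorem tends {A : LB R} {s : X → ℂ} {p : X} (h : A.Sec s p) :
    Tendsto (fun y => s y / A.φ p y) (𝓝[≠] p) (𝓝 (s p)) := by
  have := (LB.sec_iff.1 h).continuousAt.tendsto
  rw [A.self, div_one] at this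
  exact this.mono_left nhdsWithin_le_nhds

/-- multiplication with a function -/
def mulG (u : X → ℂ) : Gl X Θ K Z →ₗ[ℂ] Gl X Θ K Z where
  toFun κ := (fun j m => κ.1 j m * u, fun k z => κ.2 k z * u)
  map_add' _ _ := Prod.ext (funext₂ fun _ _ => add_mul _ _ _) (funext₂ fun _ _ => add_mul _ _ _)
  map_smul' t κ := Prod.ext (funext₂ fun j m => smul_mul_assoc t (κ.1 j m) u)
    (funext₂ fun k z => smul_mul_assoc t (κ.2 k z) u)

theorem evG_mulG (u : X → ℂ) (κ : Gl X Θ K Z) (x : X) : evG x (mulG u κ) = u x • evG x κ :=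
  Prod.ext (funext₂ fun _ _ => mul_comm _ _) (funext₂ fun _ _ => mul_comm _ _)

variable [T2Space X] [CompactSpace X]

theorem eq_zero_of_can {A : LB R} {s : X → ℂ} {p : X} (h : s ∈ A.Γ) (e : s * RS.can p = 0) :
    s = 0 := by
  have k : ∀ y ≠ p, s y = 0 := fun y hy => by simpa [can_ne hy] using congrFun e y
  funext y
  by_cases hy : y = p
  · have := R.neBot y
    exact tendsto_nhds_unique (tends (h y)) (tendsto_const_nhds.congr'
      (eventually_mem_nhdsWithin.mono fun z hz => by simp [k z (hy ▸ hz)]))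
  · exact k y hy

theorem chiN_pt (A : LB R) (p : X) : chiN N (A * R.pt p) = chiN N A + 1 := by
  rw [chiN, chiN, deg_mul, deg_pt]; ring

end Rk

open Rk

namespace CD

variable (c N L) in
/-- coordinates on the space of fields -/
noncomputable def fldE : mv Θ (fun j => H0 N (L j * c.B j)) c.mov ≃ₗ[ℂ] c.Fld N L :=
  LinearEquiv.ofBijective
    { toFun Y := ⟨fun j => (H0 N (L j * c.B j)).subtype ∘ₗ Y.1 j,
        fun j hj => by simp [mem_mv.1 Y.2 j hj], fun j m => (Y.1 j m).2⟩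
      map_add' _ _ := rfl
      map_smul' _ _ := rfl }
    ⟨fun Y Y' e => Subtype.ext (funext fun j => LinearMap.ext fun m => Subtype.ext
      (LinearMap.congr_fun (congrFun (congrArg Subtype.val e) j) m)), fun Y =>
      ⟨⟨fun j => (Y.1 j).codRestrict _ (Y.2.2 j), fun j hj => LinearMap.ext fun m => Subtype.ext
        (LinearMap.congr_fun (Y.2.1 j hj) m)⟩, rfl⟩⟩

theorem Ok.finrank_Wg [Fintype c.mov] (h : c.Ok N L Lk G) (x : X) :
    finrank ℂ (Wg (fun k j => c.g k j x) c.mov) + c.n = Fintype.card c.mov :=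
  h.finrank_Vt x ▸ finrank_Wg_add _ _

variable [T2Space X] [CompactSpace X] [Finite K] [∀ j, FiniteDimensional ℂ (Θ j)] [Fintype c.mov]

theorem fin_Fld : FiniteDimensional ℂ (c.Fld N L) := (fldE N c L).finiteDimensional

theorem finrank_Fld : finrank ℂ (c.Fld N L) =
    ∑ j : c.mov, finrank ℂ (Θ j) * finrank ℂ (H0 N (L j * c.B j)) :=
  (fldE N c L).finrank_eq.symm.trans (finrank_mv _ _)

theorem Ok.finrank_Nrm [Nonempty X] (hN : Nd N) (h : c.Ok N L Lk G) : ∃ P : LB R, ∀ T,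
    Cv.h1 N (P * T) = 0 → FiniteDimensional ℂ (c.Nrm N fun k => Lk k * T) ∧
      (finrank ℂ (c.Nrm N fun k => Lk k * T) : ℤ) =
        ∑ j : c.mov, chiN N (L j * T) - (c.n * (1 - gen R N) + deg (G * T ^ c.n)) := by
  classical
  cases nonempty_fintype K
  obtain ⟨r, hr⟩ : ∃ r, r + c.n = Fintype.card c.mov := ⟨_, h.finrank_Wg (Classical.arbitrary X)⟩
  let e : Fin c.n ⊕ Fin r ≃ c.mov := Fintype.equivOfCardEq (by simp [← hr, add_comm])
  obtain ⟨q, q1, q2⟩ := h.det
  choose p p1 p2 using fun x => exists_plu e (q2 x)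
  refine (Sb.finrank_Sc (A := Lk) (D := (∏ j : c.mov, L j) / G) (p := fun σ x => p x σ)
    hN (fun σ => mem_of_bpf' q1 (fun x => ?_) fun s => ?_) p1).imp fun P hP T hT =>
      ⟨(hP T hT).1, (hP T hT).2.trans ?_⟩
  rotate_right
  · simp only [chiN, deg_mul, deg_div, deg_pow, deg_prod, Finset.sum_sub_distrib,
      Finset.sum_add_distrib, Finset.sum_const, Finset.card_univ, ← hr, nsmul_eq_mul]
    push_cast
    ring
  · obtain ⟨w, a, b, d, f, -⟩ := (q2 x).exists
    exact (Sb.exists_det_ne b).imp fun s i => (f s).trans_ne (mul_ne_zero d i)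
  · have := det_mem (N := N) (P := Sum.elim (fun k => L (s k)) fun l => Lk (σ l))
      (C := fun b => L (e b)) (Q := fun b a => Sum.elim
        (fun k _ => if s k = e b then (1 : ℂ) else 0) (fun l => c.g (σ l) (e b)) a)
      fun b => Sum.rec (fun k => by
        by_cases a : s k = e b
        · simp only [Sum.elim_inl, a, if_true, div_self']
          exact H0.one_mem
        · simp only [Sum.elim_inl, a, if_false]
          exact zero_mem _) fun l => h.g_mem _ (e b).2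
    rw [Equiv.prod_comp e fun j => L j, Fintype.prod_sum_type] at this
    refine (congrArg₂ (· ∈ H0 N ·) (funext fun x => Eq.trans ?_ (p2 x σ s).symm) ?_).mp this
    · exact congrArg Matrix.det (Matrix.ext fun b a => by cases a <;> rfl)
    · simp only [Sum.elim_inl, Sum.elim_inr]
      rw [div_div_eq_mul_div, div_mul_eq_mul_div, mul_assoc, mul_div_cancel, mul_comm]

theorem Ok.exists_dG (h : c.Ok N L Lk G) (h1 : ∀ j ∈ c.mov, Cv.h1 N (L j) = 0) {κ : Gl X Θ K Z}
    (hκ : κ ∈ c.Ob N L Lk) : ∃ Y ∈ c.Fld N L, (c.dG Y).1 = κ.1 := by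
  choose Y0 a b using fun x => PD.mem_Im.1 (hκ.2.2 x)
  have e : ∀ x j m, kos (evY x c.tv j) (Y0 x j) m = κ.1 j m x := fun x j m =>
    congrFun (congrFun (congrArg Prod.fst (b x)) j) m
  have : ∀ j, ∃ Y : Θ j →ₗ[ℂ] X → ℂ, (j ∉ c.mov → Y = 0) ∧ (∀ m, Y m ∈ H0 N (L j * c.B j)) ∧
      ∀ m x, kos (evY x c.tv j) (LinearMap.proj x ∘ₗ Y) m = κ.1 j m x := fun j => by
    by_cases hj : j ∈ c.mov
    swap
    · exact ⟨0, fun _ => rfl, fun _ => zero_mem _, fun m x => by rw [← e, a x j hj]; rfl⟩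
    have t := h.tv_mem j hj
    have bp := fun x => (h.tv_ne x) j hj
    obtain ⟨_, ⟨m, rfl⟩, _, ⟨m', rfl⟩, hm⟩ := exists_pencil (W := LinearMap.range (c.tv j))
      (by rintro _ ⟨m, rfl⟩; exact (t m).1) fun x => let ⟨m, hm⟩ := bp x; ⟨_, ⟨m, rfl⟩, hm⟩
    have mo := h1_mul_le_of_bpf (N := N) fun x => let ⟨m, hm⟩ := bp x; ⟨_, t m, hm⟩
    obtain ⟨f, f1, f', f2, hf⟩ := pencil (t m) (t m') hm (by rw [mul_div_cancel_right, h1 j hj])
      (le_antisymm (((mo _).trans (mo _)).trans (h1 j hj).le) (h1_nonneg _ _)) (hκ.1 j (m, m'))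
    choose Y y1 y2 y3 using fun x => exists_kos (t := evY x c.tv j) (y := f' x) (y' := -f x) (hm x)
      ((e x j (m, m')).trans (by rw [hf]; simp; ring))
    have k : ∀ q q' u, (∀ x, Y x q' = u x) → u ∈ H0 N (L j * c.B j) →
        LinearMap.pi Y q * c.tv j q' ∈ H0 N (L j * c.B j * c.B j) := fun q q' u h2 h3 => by
      refine (congrArg (· ∈ H0 N (L j * c.B j * c.B j)) (funext fun x => Eq.symm ?_)).mp
        (add_mem (hκ.1 j (q, q')) (H0.mul_mem h3 (t q)))
      rw [Pi.add_apply, ← e, ← y1]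
      simp [kos, h2]
      ring
    refine ⟨LinearMap.pi Y, fun k => absurd hj k, fun q => mem_of_bpf (t := ![c.tv j m, c.tv j m'])
      (Fin.forall_fin_two.2 ⟨t m, t m'⟩) (fun x => Fin.exists_fin_two.2 (hm x))
      (Fin.forall_fin_two.2 ⟨k q m f' y2 f2, k q m' (-f) y3 (neg_mem f1)⟩), fun q x => ?_⟩
    rw [LinearMap.proj_pi, y1, e]
  choose Y y1 y2 y3 using this
  exact ⟨Y, ⟨y1, y2⟩, funext₂ fun j m => funext fun x => y3 j m x⟩

theorem Ok.mem_Im (h : c.Ok N L Lk G) {κ : Gl X Θ K Z} {x : X}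
    (h1 : ∀ j m, (L j * c.B j * c.B j).Sec (κ.1 j m) x) (h2 : ∀ k z, (Lk k * c.E k).Sec (κ.2 k z) x)
    (e : ∀ y ≠ x, evG y κ ∈ c.Im y) : evG x κ ∈ c.Im x := by
  have := R.neBot x
  have t : PD.Tends (fun y => (c.pt y).sc (fun j => (c.B j).φ x y) (fun j => (L j).φ x y)
      (fun k => (c.E k).φ x y) fun k => (Lk k).φ x y) (𝓝[≠] x) (c.pt x) c.mov :=
    ⟨fun j hj m => (tends ((h.tv_mem j hj m).1 x)).congr fun y => div_eq_inv_mul _ _,
      fun k z j hj => (tends ((h.D_mem k z j hj).1 x)).congr fun y => by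
        rw [LB.div_φ]; rfl, fun k z => tends ((h.tot_mem k z).1 x)⟩
  have t' : Tendsto (fun y => PD.scF (fun j => (c.B j).φ x y) (fun j => (L j).φ x y)
      (fun k => (c.E k).φ x y) (fun k => (Lk k).φ x y) (evG y κ)) (𝓝[≠] x) (𝓝 (evG x κ)) :=
    (tendsto_pi_nhds.2 fun j => tendsto_pi_nhds.2 fun m => (tends (h1 j m)).congr fun y => by
      simp only [LB.mul_φ]; rfl).prodMk_nhds (tendsto_pi_nhds.2 fun k => tendsto_pi_nhds.2 fun z =>
        (tends (h2 k z)).congr fun y => by simp only [LB.mul_φ]; rfl)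
  exact t.mem_Im' (h.reg x).choose_spec (.of_forall fun y => ⟨(h.rel y).sc (fun j => LB.ne _ _ _)
    (fun j => LB.ne _ _ _), by
      obtain ⟨K₁, a⟩ := h.reg y
      cases nonempty_fintype K₁
      rw [(a.jac.scale (fun k => (Lk k).ne x y) fun j => (L j).ne x y).finrank_Wg,
        ← a.jac.finrank_Wg]
      exact (Nat.add_right_cancel ((h.finrank_Wg y).trans (h.finrank_Wg x).symm)).le⟩)
    (fun k j hj => (tends ((h.g_mem k hj).1 x)).congr fun y => by
      rw [LB.div_φ, div_div_eq_mul_div]) (eventually_mem_nhdsWithin.mono fun y hy =>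
      PD.sc_mem (fun j => LB.ne _ _ _) (fun j => LB.ne _ _ _) (e y hy)) t'

theorem Ok.exists_div {p : X} (hp : Sm N p) (h : c.Ok N L Lk G) {κ : Gl X Θ K Z}
    (hκ : κ ∈ c.Ob N (fun j => L j * R.pt p) fun k => Lk k * R.pt p) (h0 : evG p κ = 0) :
    ∃ κ' ∈ c.Ob N L Lk, ∀ x, evG x κ = RS.can p x • evG x κ' := by
  have a : ∀ j m, ∃ s ∈ H0 N (L j * c.B j * c.B j), κ.1 j m = s * RS.can p ∧
      ∀ y ≠ p, s y = κ.1 j m y := fun j m => exists_div0 hp
    (by rw [mul_right_comm, mul_right_comm (L j)]; exact hκ.1 j m)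
    (congrFun (congrFun (congrArg Prod.fst h0) j) m)
  have b : ∀ k z, ∃ s ∈ H0 N (Lk k * c.E k), κ.2 k z = s * RS.can p ∧
      ∀ y ≠ p, s y = κ.2 k z y := fun k z => exists_div0 hp
    (by rw [mul_right_comm]; exact hκ.2.1 k z) (congrFun (congrFun (congrArg Prod.snd h0) k) z)
  choose s s1 s2 s3 using a
  choose u u1 u2 u3 using b
  have e : ∀ x ≠ p, evG x (s, u) ∈ c.Im x := fun x hx => by
    rw [show evG x (s, u) = evG x κ from Prod.ext (funext₂ fun j m => s3 j m x hx)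
      (funext₂ fun k z => u3 k z x hx)]
    exact hκ.2.2 x
  refine ⟨(s, u), ⟨s1, u1, fun x => ?_⟩, fun x => by
    rw [← evG_mulG]; exact congrArg _ (Prod.ext (funext₂ s2) (funext₂ u2))⟩
  by_cases hx : x = p
  · exact h.mem_Im (fun j m => (s1 j m).1 x) (fun k z => (u1 k z).1 x) (hx ▸ e)
  · exact e x hx

theorem Ok.exists_ev {p : X} (hp : Sm N p) (h : c.Ok N L Lk G)
    (h1 : ∀ j ∈ c.mov, Cv.h1 N (L j * c.B j / R.pt p) = 0) {w : Fib Θ K Z} (hw : w ∈ c.Im p) :
    ∃ Y ∈ c.Fld N L, evG p (c.dG Y) = w := by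
  obtain ⟨Y, a, rfl⟩ := PD.mem_Im.1 hw
  have : ∀ j, ∃ s ∈ H0 N (L j * c.B j), j ∈ c.mov → s p = 1 := fun j => by
    by_cases hj : j ∈ c.mov
    · obtain ⟨s, s1, s2⟩ := exists_ne_sm hp (h1 j hj)
      exact ⟨(s p)⁻¹ • s, Submodule.smul_mem _ _ s1, fun _ => inv_mul_cancel₀ s2⟩
    · exact ⟨0, zero_mem _, fun k => absurd k hj⟩
  choose s s1 s2 using this
  refine ⟨fun j => (Y j).smulRight (s j), ⟨fun j hj => by simp [a j hj],
    fun j m => Submodule.smul_mem _ _ (s1 j)⟩, (evG_dG _ _).trans (congrArg _ (funext fun j =>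
      LinearMap.ext fun m => ?_))⟩
  by_cases hj : j ∈ c.mov
  · simp [s2 j hj]
  · simp [a j hj]

variable (c N L Lk G) in
/-- the statement which is proved by descending induction -/
def Rank : Prop := FiniteDimensional ℂ (c.Ob N L Lk) ∧ ((∀ j ∈ c.mov, Cv.h1 N (L j * c.B j) = 0) →
  (finrank ℂ (c.Ob N L Lk) : ℤ) =
    ∑ j : c.mov, finrank ℂ (Θ j) * chiN N (L j * c.B j) - (c.n * (1 - gen R N) + deg G))

theorem Ok.rank_big (h : c.Ok N L Lk G) (h1 : ∀ j, Cv.h1 N (L j) = 0)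
    (h2 : FiniteDimensional ℂ (c.Nrm N Lk) ∧ (finrank ℂ (c.Nrm N Lk) : ℤ) =
      ∑ j : c.mov, chiN N (L j) - (c.n * (1 - gen R N) + deg G)) : Rank N c L Lk G := by
  classical
  have := fin_Fld (c := c) (N := N) (L := L)
  have := h2.1
  let ex : (∀ j : c.mov, H0 N (L j)) →ₗ[ℂ] J → X → ℂ := LinearMap.pi fun j =>
    if hj : j ∈ c.mov then (H0 N (L j)).subtype ∘ₗ LinearMap.proj (⟨j, hj⟩ : c.mov) else 0
  have e0 : ∀ η, ∀ j ∉ c.mov, ex η j = 0 := fun η j hj => by simp [ex, hj]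
  have e1 : ∀ η (j : c.mov), ex η j = η j := fun η j => by simp [ex, j.2]
  have e2 : ∀ η j, ex η j ∈ H0 N (L j) := fun η j => by
    by_cases hj : j ∈ c.mov
    exacts [e1 η ⟨j, hj⟩ ▸ (η ⟨j, hj⟩).2, e0 η j hj ▸ zero_mem _]
  let d : c.Fld N L →ₗ[ℂ] c.Ob N L Lk := c.dG.restrict fun _ => h.dG_mem
  let i : (∀ j : c.mov, H0 N (L j)) →ₗ[ℂ] c.Fld N L :=
    (c.tG ∘ₗ ex).codRestrict _ fun η => h.tG_mem (e0 η) (e2 η)
  let n : c.Nrm N Lk →ₗ[ℂ] c.Ob N L Lk := c.nG.restrict fun _ => h.nG_mem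
  have hi : Injective i := fun η η' e => funext fun j => Subtype.ext (funext fun x => by
    obtain ⟨m, hm⟩ := (h.tv_ne x) j j.2
    rw [← e1, ← e1]
    exact mul_right_cancel₀ hm
      (congrFun (LinearMap.congr_fun (congrFun (congrArg Subtype.val e) j) m) x))
  obtain ⟨f, r⟩ := finrank_two (F := c.Fld N L) (L := ∀ j : c.mov, H0 N (L j)) (N := c.Nrm N Lk)
    (K := c.Ob N L Lk) d (LinearMap.fst ℂ _ _ ∘ₗ (c.Ob N L Lk).subtype) i n hi
    (fun a a' e => Subtype.ext (funext₂ fun k x => congrFun (PD.nrm_injective (h.tot_ne x)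
      (congrArg (evG x) (congrArg Subtype.val e))) k))
    (fun κ => by
      obtain ⟨Y, a, b⟩ := h.exists_dG (fun j _ => h1 j) κ.2
      exact ⟨⟨Y, a⟩, b⟩)
    (fun Y => ⟨fun e => by
      obtain ⟨η, a, b, d⟩ := h.exists_tG Y.2 e
      refine ⟨fun j => ⟨η j, b j⟩, Subtype.ext (Eq.trans (congrArg c.tG (funext fun j => ?_)) d)⟩
      by_cases hj : j ∈ c.mov
      exacts [e1 _ ⟨j, hj⟩, (e0 _ j hj).trans (a j hj).symm], by
      rintro ⟨η, rfl⟩
      exact congrArg Prod.fst (h.dG_tG (e0 η))⟩)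
    fun κ => ⟨fun e => let ⟨a, b, d⟩ := h.exists_nG κ.2 e; ⟨⟨a, b⟩, Subtype.ext d⟩, by
      rintro ⟨a, rfl⟩; rfl⟩
  refine ⟨f, fun h3 => ?_⟩
  rw [finrank_pi_fintype, finrank_Fld] at r
  have r' := congrArg (Nat.cast : ℕ → ℤ) r
  push_cast at r'
  simp only [finrank_H0 (h1 _), h2.2, chiN, fun j : c.mov => finrank_H0 (h3 j j.2)] at r'
  simp only [chiN]
  linarith

theorem Ok.rank_step {p : X} (hp : Sm N p) (h : c.Ok N L Lk G)
    (H : Rank N c (fun j => L j * R.pt p) (fun k => Lk k * R.pt p) (G * R.pt p ^ c.n)) :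
    Rank N c L Lk G := by
  have := H.1
  let f : c.Ob N L Lk →ₗ[ℂ] c.Ob N (fun j => L j * R.pt p) fun k => Lk k * R.pt p :=
    (mulG (RS.can p)).restrict fun κ a => ⟨fun j m => by
      rw [mul_right_comm (L j), mul_right_comm _ (R.pt p)]
      exact H0.mul_mem (a.1 j m) (can_mem0 hp), fun k z => by
      rw [mul_right_comm]
      exact H0.mul_mem (a.2.1 k z) (can_mem0 hp), fun x =>
        evG_mulG (RS.can p) κ x ▸ Submodule.smul_mem _ _ (a.2.2 x)⟩
  have i : Injective f := (injective_iff_map_eq_zero _).2 fun κ e => Subtype.ext (Prod.ext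
    (funext₂ fun j m => eq_zero_of_can (κ.2.1 j m).1
      (congrFun (congrFun (congrArg (·.1.1) e) j) m))
    (funext₂ fun k z => eq_zero_of_can (κ.2.2.1 k z).1
      (congrFun (congrFun (congrArg (·.1.2) e) k) z)))
  refine ⟨.of_injective f i, fun h1 => ?_⟩
  let v := evG p ∘ₗ (c.Ob N (fun j => L j * R.pt p) fun k => Lk k * R.pt p).subtype
  have a := LinearMap.finrank_range_add_finrank_ker v
  rw [show LinearMap.ker v = LinearMap.range f from Submodule.ext fun κ => ⟨fun e =>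
      let ⟨κ', b, d⟩ := h.exists_div hp κ.2 e
      ⟨⟨κ', b⟩, Subtype.ext (ext_evG fun x => (evG_mulG _ _ x).trans (d x).symm)⟩, by
      rintro ⟨κ, rfl⟩
      exact (evG_mulG _ _ p).trans (by simp [RS.can])⟩, LinearMap.finrank_range_of_inj i,
    show LinearMap.range v = c.Im p from le_antisymm (by rintro _ ⟨κ, rfl⟩; exact κ.2.2.2 p)
      fun w hw => let ⟨Y, b, d⟩ := (h.twist (R.pt p)).exists_ev hp (fun j hj => by
        rw [mul_right_comm, mul_div_cancel_right, h1 j hj]) hw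
      ⟨⟨_, (h.twist _).dG_mem b⟩, d⟩] at a
  have b := H.2 fun j hj => le_antisymm (by
    rw [mul_right_comm]; exact (h1_mul_pt hp _).trans (h1 j hj).le) (h1_nonneg _ _)
  obtain ⟨K₁, hK⟩ := h.reg p
  cases nonempty_fintype K₁
  have d0 := hK.finrank_Im
  rw [← hK.jac.finrank_Wg, ← h.finrank_Wg p] at d0
  have d := congrArg (Nat.cast : ℕ → ℤ) d0
  simp only [mul_right_comm _ (R.pt p), chiN_pt, mul_add, mul_one, Finset.sum_add_distrib,
    deg_mul, deg_pow, deg_pt] at b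
  push_cast at d
  have a' := congrArg (Nat.cast : ℕ → ℤ) a
  push_cast at a'
  unfold Im at a'
  linarith

theorem Ok.rank (hN : Nd N) (h : c.Ok N L Lk G) : Rank N c L Lk G := by
  rcases isEmpty_or_nonempty X with hX | hX
  · have z : ∀ A : LB R, chi A = 0 := fun A => by
      rw [chi, finrank_zero_of_subsingleton, finrank_zero_of_subsingleton]; rfl
    have z' : ∀ A : LB R, deg A = 0 := fun A => by rw [deg, z, z]; rfl
    refine ⟨.of_finite, fun _ => ?_⟩
    rw [finrank_zero_of_subsingleton]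
    simp [chiN, gen, z, z', Finset.eq_empty_of_isEmpty N]
  obtain ⟨P, hP⟩ := h.finrank_Nrm hN
  obtain ⟨T, t1, t2⟩ := exists_big hN (Option.elim · P L)
  have H := (h.twist T).rank_big (fun j => t2 (some j)) (hP T (t2 none))
  clear t2 hP
  induction t1 using Submonoid.closure_induction_left generalizing L Lk G with
  | one => simpa only [mul_one, one_pow] using H
  | mul_left _ hp T _ ih =>
    obtain ⟨p, hp, rfl⟩ := hp
    exact h.rank_step hp (ih (h.twist _) (by simpa only [mul_assoc, mul_pow] using H))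

theorem Ok.fin_Ob (hN : Nd N) (h : c.Ok N L Lk G) : FiniteDimensional ℂ (c.Ob N L Lk) :=
  (h.rank hN).1

theorem Ok.finrank_Ob (hN : Nd N) (h : c.Ok N L Lk G) (h1 : ∀ j ∈ c.mov, Cv.h1 N (L j * c.B j) = 0) :
    (finrank ℂ (c.Ob N L Lk) : ℤ) =
      ∑ j : c.mov, finrank ℂ (Θ j) * chiN N (L j * c.B j) - (c.n * (1 - gen R N) + deg G) :=
  (h.rank hN).2 h1

end CD

end Vale.Agent.P269.Vir
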