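import Vale.Agent.P269.Vir.Gen2
import Vale.Agent.P287Q.G.Vir.Lim
import Vale.Agent.P287Q.G.Vir.Van

/-!
# The Kuranishi presentation of the moduli spaces; existence and uniqueness of the virtual class
-/

set_option linter.all false

namespace Vale.Agent.P269.Ch

open Set Function Topology Filter Module P291Z Orb

variable {S Λ R J K ι ν κ : Type} [Fintype S] [Fintype Λ] [Fintype R] [Fintype J] [Fintype K]
  [Fintype ι] [DecidableEq ι] [Fintype ν] [Fintype κ] {ch : Ch ι J}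

section defs

variable (F : Fam S Λ R J K) (e : K → ι → ℕ)

variable (ch ν κ) in
/-- the Kuranishi data of a chart -/
@[reducible] noncomputable def kd : KD (ch.AF ν κ S) (ch.WF ν κ Λ) (ch.P K) :=
  ⟨ρF F, ch.polF F e, vanM F e, obsM F e, sctF F e⟩

variable (ch ν κ) in
/-- the part of `adm` where all zeros of the section are solutions -/
def dom : Set (ch.WF ν κ Λ) :=
  {x | x ∈ ch.adm ν κ F ∧ (sctF F e x ∈ vanM F e x → x ∈ ch.solF ν κ F)}

/-- `k` presents the obstruction theory along `(th, μ)` -/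
abbrev IsKP (Y : Sp) (th : Y.G → ch.AF ν κ S) (μ : Y.T → ch.WF ν κ Λ) (k : KP Y)
    (i : k.P.W →ₗ[ℂ] ch.P K) : Prop := (ch.kd ν κ F e).IsKP Y th μ k i

/-- `O` is a domain for the base cycle `S₀` -/
abbrev Dom (S₀ O : Set (ch.WF ν κ Λ)) : Prop :=
  (ch.kd ν κ F e).Dom (actF F.toWt) (ch.solF ν κ F ∩ S₀) S₀ O

/-- the virtual class in terms of presentations -/
abbrev IsV (S₀ : Set (ch.WF ν κ Λ)) (v : BM (ModS F S₀)) : Prop :=
  (ch.kd ν κ F e).IsV (actF F.toWt) (ch.solF ν κ F ∩ S₀) S₀ v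

variable (ch) in
/-- the hypotheses for the obstruction theory -/
structure Std (K₀ : RD R) (ℓ : R → ι → ℤ) : Prop where
  inv : F.Inv
  reg : F.Reg K₀
  fits : ch.Fits F e
  cuts : ch.Cuts
  wt : ch.HasWt F ℓ

end defs

variable {F : Fam S Λ R J K} {e : K → ι → ℕ} {K₀ : RD R} {ℓ : R → ι → ℤ} {x : ch.WF ν κ Λ}
  {S₀ O : Set (ch.WF ν κ Λ)}

theorem KD.stm_iff {A W P : Type} [NormedRing A] [NormedAlgebra ℂ A] [NormedAddCommGroup W]
    [NormedSpace ℂ W] [AddCommGroup P] [Module ℂ P] [TopologicalSpace P] {act : A → W → W}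
    {Z S : Set W} {ρ : A → P → P} {P₀ : Submodule ℂ P} {van obs : W → Submodule ℂ P} {s : W → P}
    {v : BM (Quo act Z)} (E : Set W → (W → Submodule ℂ P) → ℕ → Prop)
    (hE : ∀ O N r, Z ⊆ O → O ⊆ S → (E O N r ↔ (∀ a, IsUnit a → ∀ x ∈ O, act a x ∈ O) ∧
      LocallyCompactSpace O ∧ T2Space (Quo act O) ∧ T2Space (Tot act ρ O (fun _ => P₀) N) ∧
      (KD.mk ρ P₀ van obs s).Ext act Z O N r)) :
    (∃ (O : Set W) (hO : Z ⊆ O) (N : W → Submodule ℂ P) (r : ℕ) (β : BM (Quo act O))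
      (t : Coch (Tot act ρ O (fun _ => P₀) N)), (∃ O', IsOpen O' ∧ O = S ∩ O') ∧ E O N r ∧
      P269.IsFund act O β ∧ IsThomOf act ρ O (fun _ => P₀) N t ∧
      Gys (Quo.incl act hO) (pull (sec act ρ O (fun _ => P₀) N s) t) β v) ↔
      (KD.mk ρ P₀ van obs s).Stm act Z S v :=
  exists_congr fun _ => exists_congr fun hO => exists_congr fun _ => exists_congr fun _ =>
    exists_congr fun _ => exists_congr fun _ => and_congr_right fun a => by
      simp only [hE _ _ _ hO (a.choose_spec.2.le.trans inter_subset_left), and_assoc]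

theorem isVirF_def {v : BM (ModS F S₀)} : IsVirF F e S₀ v ↔
    ∃ (O : Set (ch.WF ν κ Λ)) (hO : ch.solF ν κ F ∩ S₀ ⊆ O) (N : _ → Submodule ℂ (ch.P K)) (r : ℕ)
      (β : BM (Quo (actF F.toWt) O)) (t : Coch (Tot _ (ρF F) O (fun _ => ch.polF F e) N)),
      (∃ O', IsOpen O' ∧ O = S₀ ∩ O') ∧ IsExt F e O N r ∧ IsFund (actF F.toWt) O β ∧
      IsThomOf _ (ρF F) O (fun _ => ch.polF F e) N t ∧ Gys (Quo.incl _ hO)
      (pull (sec _ (ρF F) O (fun _ => ch.polF F e) N (sctF F e)) t) β v := Iff.rfl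

theorem isVirF_iff {v : BM (ModS F S₀)} : IsVirF F e S₀ v ↔
    (ch.kd ν κ F e).Stm (actF F.toWt) (ch.solF ν κ F ∩ S₀) S₀ v :=
  isVirF_def.trans <| KD.stm_iff (IsExt F e) fun _ _ _ hO a => ⟨fun b => ⟨b.inv, b.lc, b.t2, b.t2',
    fun x hx _ h => b.van_le x hx (mem_vanF.2 h), b.le_pol, b.rank,
    fun x hx h => ⟨b.zero x hx h, a hx⟩, b.equi, b.closed, fun x hx f h h' =>
      mem_vanF.1 (b.disj x (hO hx) hx.1 f (mem_obsF.2 h) h'), fun x hx f h =>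
      (b.span x (hO hx) hx.1 f h).imp fun _ d => ⟨mem_obsF.1 d.1, d.2⟩⟩,
    fun ⟨b1, b2, b3, b4, b⟩ => ⟨b1, b2, b3, b4,
      fun x hx _ h => b.van_le x hx (mem_vanF.1 h), b.le, b.rank, fun x hx h => (b.zero x hx h).1,
      b.equi, b.closed, fun x hx h f h1 h2 =>
        mem_vanF.2 (b.disj x ⟨h, a hx⟩ f (mem_obsF.1 h1) h2), fun x hx h f h1 =>
        (b.span x ⟨h, a hx⟩ f h1).imp fun _ d => ⟨mem_obsF.2 d.1, d.2⟩⟩⟩

theorem IsV.isVirF {v : BM (ModS F S₀)} (h : IsV F e S₀ v) : IsVirF F e S₀ v :=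
  isVirF_iff.2 (h.stm fun _ _ => inf_le_left)

theorem isRepOn_ρF {σ : K → Finset (J →₀ ℕ)} :
    IsRepOn (ρF F : ch.AF ν κ S → ch.P K → ch.P K) (ch.polS e σ) :=
  ⟨fun _ _ _ => ρF_mem, fun _ _ _ _ _ _ => ρF_add _ _ _, fun _ _ _ _ _ => ρF_smul _ _ _,
    fun _ _ => ρF_one _, fun _ _ a b _ _ => ρF_mul a b _, fun _ => continuous_ρF⟩

theorem mem_dom (hx : x ∈ ch.solF ν κ F) (ha : x ∈ ch.adm ν κ F) : x ∈ ch.dom ν κ F e :=
  ⟨ha, fun _ => hx⟩

theorem actF_mem_dom (hF : F.Inv) {s : ch.AF ν κ S} (hs : IsUnit s) (hx : x ∈ ch.dom ν κ F e) :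
    actF F.toWt s x ∈ ch.dom ν κ F e := by
  refine ⟨actF_mem_adm hF hs hx.1, fun h => actF_mem_solF hF hs (hx.2 ?_)⟩
  obtain ⟨g, rfl⟩ := hs
  have := vanM_actF g⁻¹.isUnit h
  rwa [← sctF_actF hF g⁻¹.isUnit, ← actF_mul, g.inv_mul, actF_one] at this

theorem Cuts.isClosed_van (hc : ch.Cuts) (hO : ∀ x ∈ O, x.2 ∈ ch.base (Mk ν κ)) :
    IsClosed {z : O × ch.P K | z.2 ∈ vanM F e z.1.1} :=
  isClosed_of_closure_subset fun z hz =>
    haveI := mem_closure_iff_nhdsWithin_neBot.1 hz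
    hc.van_lim (l := 𝓝[_] z) (x := fun y : O × ch.P K => y.1.1) (.of_forall fun y => hO _ y.1.2)
      (hO _ z.1.2) ((continuous_subtype_val.comp continuous_fst).tendsto z |>.mono_left
        nhdsWithin_le_nhds) self_mem_nhdsWithin (continuous_snd.tendsto z |>.mono_left
        nhdsWithin_le_nhds)

theorem Cuts.isClosed_zero (hc : ch.Cuts) (hO : ∀ x ∈ O, x.2 ∈ ch.base (Mk ν κ)) :
    IsClosed {x : O | sctF F e x.1 ∈ vanM F e x.1} :=
  (hc.isClosed_van hO).preimage (f := fun x : O => (x, sctF F e x.1))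
    (continuous_id.prodMk (continuous_sctF.comp continuous_subtype_val))

namespace Std

variable (h : ch.Std F e K₀ ℓ)
include h

theorem zero (hx : x ∈ ch.dom ν κ F e) : sctF F e x ∈ vanM F e x ↔ x ∈ ch.solF ν κ F :=
  ⟨hx.2, sctF_mem_vanM h.fits⟩

/-- `dom` is an invariant open part of `adm` -/
theorem dom_open : ∃ U, IsOpen U ∧ ch.dom ν κ F e = ch.adm ν κ F ∩ U := by
  obtain ⟨U, h1, h2⟩ := isOpen_induced_iff.1 (show IsOpen {x : ch.adm ν κ F |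
      sctF F e x.1 ∈ vanM F e x.1 → x.1 ∈ ch.solF ν κ F} from isOpen_iff_mem_nhds.2 fun x hx => by
    by_cases a : sctF F e x.1 ∈ vanM F e x.1
    · exact (continuous_subtype_val.continuousAt.eventually
        (eventually_solF h.inv h.fits (hx a))).mono fun y b => b y.2
    · exact mem_of_superset ((h.cuts.isClosed_zero fun _ b => b.1.2.1).isOpen_compl.mem_nhds a)
        fun _ b c => (b c).elim)
  exact ⟨U, h1, Set.ext fun x => and_congr_right fun hx => (Set.ext_iff.1 h2 ⟨x, hx⟩).symm⟩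

theorem rk_nonneg (hx : x ∈ ch.solF ν κ F) : 0 ≤ ch.rk F ℓ K₀ := by
  have := finrank_obsM h.inv h.reg h.fits h.wt h.cuts.ne hx
  haveI : FiniteDimensional ℂ (obsM F e x) := Submodule.finiteDimensional_inf_left _ _
  have := Submodule.finrank_mono (vanM_le_obsM (F := F) (e := e) (x := x))
  omega

/-- **the obstruction theory is a system of Kuranishi data** -/
theorem ok : ∃ v, (ch.kd ν κ F e).Ok (actF F.toWt) (ch.dom ν κ F e) v (ch.rk F ℓ K₀).toNat := by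
  obtain ⟨v, hv⟩ := exists_rank_van (ν := ν) (κ := κ) h.inv h.fits h.cuts.ne
  have a : ∀ x ∈ ch.dom ν κ F e, x.2 ∈ ch.base (Mk ν κ) := fun _ b => b.1.1.2.1
  refine ⟨v, fin_polF, isRepOn_ρF, ⟨fun _ _ => inf_le_left, h.cuts.isClosed_van a,
    fun x hx => hv x (a x hx), fun _ _ _ hs _ => vanM_actF hs⟩, fun x _ => h.fits.sctF_mem x,
    continuous_sctF.continuousOn, fun x _ _ hs => sctF_actF h.inv hs x,
    isClosed_of_closure_subset fun z hz => ?_, fun x hx b => ?_,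
    fun _ _ _ _ hs _ => obsM_actF h.inv hs, fun _ _ _ => vanM_le_obsM, fun _ _ _ => inf_le_left,
    fun x hx b w y c u d1 d2 d3 => h.cuts.cone_lim h.inv h.reg h.fits
      (.of_forall fun n => (d1 n).1) (hx.2 b) d2 (.of_forall d3)⟩
  · have b := closure_minimal (fun _ c => And.left c)
      ((h.cuts.isClosed_zero (F := F) (e := e) a).preimage continuous_fst) hz
    obtain ⟨l, c, d⟩ := mem_closure_iff_ultrafilter.1 hz
    exact ⟨b, h.cuts.obs_lim (l := l) (x := fun y => y.1.1) h.inv h.reg h.fits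
      (mem_of_superset c fun y c => y.1.2.2 c.1) (z.1.2.2 b)
      (((continuous_subtype_val.comp continuous_fst).tendsto z).mono_left d)
      (mem_of_superset c fun _ c => c.2) ((continuous_snd.tendsto z).mono_left d)⟩
  · have := finrank_obsM h.inv h.reg h.fits h.wt h.cuts.ne (hx.2 b)
    have := h.rk_nonneg (hx.2 b)
    have := hv x (a x hx)
    change finrank ℂ (obsM F e x) = _
    omega

/-- **existence of presentations** along every equivariant map to `dom` -/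
theorem exists_isKP (Y : Sp) (θ : Y.G →* (ch.AF ν κ S)ˣ) (hθ : Continuous θ)
    {μ : Y.T → ch.WF ν κ Λ} (hμ : Continuous μ) (hm : ∀ t, μ t ∈ ch.dom ν κ F e)
    (he : ∀ g t, μ (g • t) = actF F.toWt (θ g) (μ t)) :
    ∃ (k : KP Y) (i : k.P.W →ₗ[ℂ] ch.P K), IsKP F e Y (fun g => θ g) μ k i ∧
      k.r = (ch.rk F ℓ K₀).toNat :=
  let ⟨_, a⟩ := h.ok (ν := ν) (κ := κ)
  let ⟨k, i, b, _, c⟩ := a.exists_isKP Y θ hθ hμ hm he
  ⟨k, i, b, c⟩

theorem mem_Zs {Y : Sp} {th : Y.G → ch.AF ν κ S} {μ : Y.T → ch.WF ν κ Λ} {k : KP Y}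
    {i : k.P.W →ₗ[ℂ] ch.P K} (hk : IsKP F e Y th μ k i) {t : Y.T} (ht : μ t ∈ ch.dom ν κ F e) :
    t ∈ k.Zs ↔ μ t ∈ ch.solF ν κ F := hk.mem_Zs.trans (h.zero ht)

/-- the rank of every presentation with a zero -/
theorem r_eq {Y : Sp} {th : Y.G → ch.AF ν κ S} {μ : Y.T → ch.WF ν κ Λ} {k : KP Y}
    {i : k.P.W →ₗ[ℂ] ch.P K} (hk : IsKP F e Y th μ k i) {t : Y.T} (ht : μ t ∈ ch.solF ν κ F) :
    (k.r : ℤ) = ch.rk F ℓ K₀ := by
  have a := hk.finrank_van t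
  have b := hk.finrank_obs (hk.mem_Zs.2 (sctF_mem_vanM h.fits ht))
  have c := finrank_obsM h.inv h.reg h.fits h.wt h.cuts.ne ht
  rw [show (ch.kd ν κ F e).van (μ t) ⊓ _ = vanM F e (μ t) from inf_eq_left.2 inf_le_left] at a
  rw [show (ch.kd ν κ F e).obs (μ t) ⊓ _ = obsM F e (μ t) from inf_eq_left.2 inf_le_left] at b
  omega

/-- domains from invariant open parts with a proper action -/
theorem dom (hS : S₀ ⊆ ch.adm ν κ F) (ho : ∃ U, IsOpen U ∧ O = S₀ ∩ U)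
    (hz : ch.solF ν κ F ∩ S₀ ⊆ O) [Holo.IsAct (actF F.toWt) O]
    (hO : Orb (ch.AF ν κ S)ˣ (Holo.Sp (actF F.toWt) O)) : Dom F e S₀ (O ∩ ch.dom ν κ F e) := by
  obtain ⟨U, a, b⟩ := h.dom_open (ν := ν) (κ := κ)
  have c : O ⊆ S₀ := ho.elim fun _ c => c.2 ▸ inter_subset_left
  have d : O ∩ ch.dom ν κ F e = O ∩ U := by
    rw [b, ← inter_assoc, inter_eq_left.2 (c.trans hS)]
  have f : (KD.mk (fun _ => id) ⊥ (fun _ => ⊥) (fun _ => ⊥) (fun _ => 1) : KD _ _ ℂ).Dom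
      (actF F.toWt) ∅ S₀ O := ⟨empty_subset _, ho, ‹_›, hO, fun _ _ => iff_of_false one_ne_zero id⟩
  have g := f.inter a (empty_subset _) fun s hs x hx => (d.le ⟨Holo.IsAct.mem s hs x hx.1,
    actF_mem_dom h.inv hs (d.ge hx).2⟩).2
  rw [← d] at g
  exact ⟨fun x hx => ⟨hz hx, mem_dom hx.1 (hS hx.2)⟩, g.opn, g.isAct, g.orb,
    fun x hx => (h.zero hx.2).trans (and_iff_left (c hx.1)).symm⟩

end Std

theorem Dom.subset_dom (hS : S₀ ⊆ ch.adm ν κ F) (h : Dom F e S₀ O) : O ⊆ ch.dom ν κ F e :=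
  fun x hx => ⟨hS (h.subset hx), fun a => ((h.zero x hx).1 a).1⟩

theorem Std.exists_isKP' (h : ch.Std F e K₀ ℓ) (hS : S₀ ⊆ ch.adm ν κ F) (hd : Dom F e S₀ O) :
    ∃ (k : KP hd.sp) (i : k.P.W →ₗ[ℂ] ch.P K), hd.IsKP k i ∧ k.r = (ch.rk F ℓ K₀).toNat :=
  let ⟨_, a⟩ := h.ok (ν := ν) (κ := κ)
  let ⟨k, i, b, _, c⟩ := hd.exists_isKP a (hd.subset_dom hS)
  ⟨k, i, b, c⟩

namespace Dom

variable (hd : Dom F e S₀ O) {k : KP hd.sp} {i : k.P.W →ₗ[ℂ] ch.P K} (hk : hd.IsKP k i)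
  (hS : ∀ s, IsUnit s → ∀ x ∈ S₀, actF F.toWt s x ∈ S₀) {v : BM (ModS F S₀)}
  {β : BM (Quo (actF F.toWt) O)}
include hk hS

/-- the definition of the virtual class in terms of presentations -/
theorem isVirF_iff_isV : IsVirF F e S₀ v ↔ IsV F e S₀ v :=
  haveI := isActF_of hS
  ⟨fun h => (isVirF_iff.1 h).isV hd hk, IsV.isVirF⟩

theorem isV_virF (hβ : IsFund (actF F.toWt) O β) : IsV F e S₀ (virF F e S₀) :=
  (hd.isVirF_iff_isV hk hS).1 (Classical.epsilon_spec ⟨_, IsV.isVirF (hd.isV hk hβ)⟩)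

/-- **the virtual class** is computed by every presentation -/
theorem virF_eq (hU : UF (actF F.toWt) O) (hβ : IsFund (actF F.toWt) O β) :
    virF F e S₀ = k.vir (Quo.incl _ hd.sub) β := (hd.isV_virF hk hS hβ).eq_vir' hU hd hk hβ

theorem eq_virF (hU : UF (actF F.toWt) O) (hβ : IsFund (actF F.toWt) O β) (hv : IsV F e S₀ v) :
    v = virF F e S₀ := (hv.eq_vir' hU hd hk hβ).trans (hd.virF_eq hk hS hU hβ).symm

end Dom

end Vale.Agent.P269.Ch
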