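import Vale.Agent.P269.Map.SQD
import Vale.Agent.P287Q.G.Vir.KP
import Vale.Agent.P269.Base.Main

set_option linter.all false

/-!
# The two bundles of the index class
-/

namespace Vale.Agent.P269.Ch

open Set Function Topology Filter Module Vir Cv

variable {S Λ R J ι ν κ α : Type} [Fintype S] [Fintype Λ] [Fintype R] [Fintype J] [Fintype ι]
  [DecidableEq ι] [Fintype ν] [Fintype κ] {ch : Ch ι J} {F : Wt S Λ R J} {j : J}
  {x : ch.WF ν κ Λ} {f : ch.P Empty} {Z : Set (ch.WF ν κ Λ)}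

variable (ch) in
/-- the family with the only movable field `j` and no equations -/
@[reducible] def oneF (F : Wt S Λ R J) (j : J) : Fam S Λ ι J Empty where
  w := ch.wd
  wt := F.wt
  wl := F.wl
  θ := 0
  χ := Empty.elim
  wk := Empty.elim
  G := Empty.elim
  B := univ
  U := univ
  E := univ
  mov := {j}
  zer := ∅

theorem oneF_inv : (ch.oneF F j).Inv :=
  ⟨fun k => k.elim, fun k => k.elim, isOpen_univ, fun _ _ _ _ => trivial, isClosed_univ,
    fun _ _ _ _ => trivial, fun _ _ _ _ _ => trivial, empty_disjoint _, isOpen_univ.isLocallyClosed,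
    fun _ _ _ _ => trivial⟩

variable (ch j) in
/-- the numerical data of `oneF` -/
@[reducible] def oneD : RD ι := ⟨1, ch.wd j⟩

theorem oneF_vert {z} {η : J → ℂ} : η ∈ (ch.oneF F j).vert z ↔ ∀ i ≠ j, η i = 0 := by
  simp [Fam.vert, Submodule.mem_iInf]

open Classical in
theorem oneF_reg : (ch.oneF F j).Reg (ch.oneD j) := by
  have b : ∀ z, ∃ v : Basis (Fin 1) ℂ ((ch.oneF F j).vert z), (v 0).1 = Pi.single j 1 := fun z =>
    ⟨Basis.mk (v := fun _ => ⟨Pi.single j 1, oneF_vert.2 fun i h => by simp [h]⟩)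
      (linearIndependent_unique_iff.2 fun h => by simpa using congrFun (congrArg Subtype.val h) j)
      fun η _ => (Submodule.mem_span_range_iff_exists_fun _).2 ⟨fun _ => η.1 j, Subtype.ext
        (funext fun i => by
          by_cases h : i = j
          · simp [h]
          · simp [h, oneF_vert.1 η.2 i h])⟩, by simp⟩
  refine ⟨fun _ _ => ⟨∅, fun _ => ⟨0, fun _ _ => rfl, fun k => k.elim⟩,
    .of_forall fun _ _ _ k => k.elim⟩, fun z _ => ?_, fun l _ =>
    ⟨fun _ s => (Pi.single j 1 : J → ℂ) (s 0), fun y _ => ?_, fun s y _ =>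
      ⟨_, analyticAt_const, .of_forall fun _ _ => rfl⟩, fun t _ y _ s => ?_⟩⟩
  · obtain ⟨v, -⟩ := b z
    exact (finrank_eq_card_basis v).trans (Fintype.card_fin 1)
  · obtain ⟨v, e⟩ := b (l, y)
    exact ⟨1, v, one_ne_zero, fun s => by simp [e]⟩
  · by_cases h : s 0 = j
    · simp [h]
    · simp [h]

theorem oneF_wt : ch.HasWt (ch.oneF F j) fun r => Pi.single r 1 := fun j i => by
  simp [Pi.single_apply, wd]

theorem oneF_fits : ch.Fits (ch.oneF F j) Empty.elim :=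
  ⟨⟨_, oneF_wt⟩, fun k => k.elim, fun k => k.elim⟩

theorem ρK_eq (s : ch.AF ν κ S) (f : ch.P Empty) : ρK F s f = ρF (ch.oneF F j) s f :=
  Prod.ext rfl (Subsingleton.elim _ _)

theorem polF_oneF : ch.polF (ch.oneF F j) Empty.elim = ch.polS Empty.elim Empty.elim :=
  congrArg (ch.polS Empty.elim) (funext fun k => k.elim)

variable (ch j) in
/-- the Koszul functions of the field `j` -/
noncomputable def polKM : Submodule ℂ (ch.P Empty) where
  carrier := ch.polK j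
  add_mem' a b := ⟨add_mem a.1 b.1, fun i h => (congrArg₂ (· + ·) (a.2 i h) (b.2 i h)).trans (add_zero 0)⟩
  zero_mem' := ⟨zero_mem _, fun _ _ => rfl⟩
  smul_mem' c _ a := ⟨Submodule.smul_mem _ c a.1, fun i h =>
    (congrArg (c • ·) (a.2 i h)).trans (smul_zero c)⟩

theorem polKM_le : ch.polKM j ≤ ch.polS Empty.elim Empty.elim := fun _ a => a.1

instance : FiniteDimensional ℂ (ch.polKM j) := Submodule.finiteDimensional_of_le polKM_le

open Classical in
variable (ch j) in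
/-- functions in the component `j` -/
noncomputable def sgK : (ch.Pt → ch.Th j × ch.Th j → ℂ) →ₗ[ℂ] ch.P Empty :=
  LinearMap.inl ℂ _ _ ∘ₗ LinearMap.single ℂ (fun j => ch.Pt → ch.Th j × ch.Th j → ℂ) j

theorem sgK_same (g) : (ch.sgK j g).1 j = g := by
  classical exact Pi.single_eq_same (M := fun j => ch.Pt → ch.Th j × ch.Th j → ℂ) j g

theorem sgK_ne {i : J} (h : i ≠ j) (g) : (ch.sgK j g).1 i = 0 := by
  classical exact Pi.single_eq_of_ne h _

theorem sgK_mem {g} (h : g ∈ Submodule.span ℂ (ch.G1 j)) : ch.sgK j g ∈ ch.polK j :=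
  ⟨mem_polS.2 ⟨fun i => by
    rcases eq_or_ne i j with rfl | a
    · rwa [sgK_same]
    · exact sgK_ne a g ▸ zero_mem _, fun k => k.elim⟩, fun _ a => sgK_ne a g⟩

theorem ext_polK {g : ch.P Empty} (hf : f ∈ ch.polK j) (hg : g ∈ ch.polK j) (e : f.1 j = g.1 j) :
    f = g := Prod.ext (funext fun i => by
  rcases eq_or_ne i j with rfl | a
  exacts [e, (hf.2 i a).trans (hg.2 i a).symm]) (Subsingleton.elim _ _)

theorem mem_van_one (hf : f ∈ ch.polK j) :
    f ∈ vanM (ch.oneF F j) Empty.elim x ↔ ∀ z ∈ gr x.2, f.1 j z = 0 :=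
  mem_vanM.trans ⟨fun a z hz => congrFun (congrArg Prod.fst (a.2 z hz)) j, fun a =>
    ⟨polF_oneF.ge hf.1, fun z hz => Prod.ext (funext fun i => by
      rcases eq_or_ne i j with rfl | b
      exacts [a z hz, congrFun (hf.2 i b) z]) (Subsingleton.elim _ _)⟩⟩

theorem mem_obs_one : f ∈ obsM (ch.oneF F j) Empty.elim x ↔ f ∈ ch.polS Empty.elim Empty.elim ∧
    ∀ z ∈ gr x.2, (∀ i ≠ j, f.1 i z = 0) ∧ ∃ y : ch.Th j →L[ℂ] ℂ,
      ∀ m, f.1 j z m = val m.2 z.1 * y m.1 - val m.1 z.1 * y m.2 := by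
  classical
  rw [← mem_obsF, ← polF_oneF (F := F) (j := j)]
  refine and_congr_right fun _ => forall₂_congr fun z _ => ⟨fun ⟨y, a, b, _⟩ =>
    ⟨fun i h => funext fun m => by simp [b, a i h], y j, b j⟩, fun ⟨a, y, b⟩ =>
      ⟨Pi.single j y, fun i h => Pi.single_eq_of_ne h _, fun i m => ?_, fun k => k.elim⟩⟩
  rcases eq_or_ne i j with rfl | c
  · rw [Pi.single_eq_same, b]
  · simp [a i c, Pi.single_eq_of_ne c]

theorem mem_obs_one' (hf : f ∈ ch.polK j) : f ∈ obsM (ch.oneF F j) Empty.elim x ↔ ∀ z ∈ gr x.2,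
    ∃ y : ch.Th j →L[ℂ] ℂ, ∀ m, f.1 j z m = val m.2 z.1 * y m.1 - val m.1 z.1 * y m.2 :=
  mem_obs_one.trans ⟨fun b z hz => (b.2 z hz).2,
    fun b => ⟨hf.1, fun z hz => ⟨fun i c => congrFun (hf.2 i c) z, b z hz⟩⟩⟩

theorem sdK_N : (ch.sdK ν κ F j).N x = ch.polKM j ⊓ vanM (ch.oneF F j) Empty.elim x :=
  (congrArg (Submodule.span ℂ) (Set.ext fun _ => and_congr_right fun a =>
    (mem_van_one a).symm)).trans (Submodule.span_eq (ch.polKM j ⊓ vanM (ch.oneF F j) Empty.elim x))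

theorem sdK_B : (ch.sdK ν κ F j).B x = ch.polKM j ⊓ obsM (ch.oneF F j) Empty.elim x :=
  (congrArg (Submodule.span ℂ) (Set.ext fun _ => and_congr_right fun a =>
    (mem_obs_one' a).symm)).trans (Submodule.span_eq (ch.polKM j ⊓ obsM (ch.oneF F j) Empty.elim x))

theorem mem_sdK_N : f ∈ (ch.sdK ν κ F j).N x ↔ f ∈ ch.polK j ∧ ∀ z ∈ gr x.2, f.1 j z = 0 := by
  rw [sdK_N]
  exact and_congr_right mem_van_one

theorem mem_sdK_B : f ∈ (ch.sdK ν κ F j).B x ↔ f ∈ ch.polK j ∧ ∀ z ∈ gr x.2,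
    ∃ y : ch.Th j →L[ℂ] ℂ, ∀ m, f.1 j z m = val m.2 z.1 * y m.1 - val m.1 z.1 * y m.2 := by
  rw [sdK_B]
  exact and_congr_right mem_obs_one'

theorem ρK_polK {s : ch.AF ν κ S} (hf : f ∈ ch.polK j) : ρK F s f ∈ ch.polK j :=
  ⟨(ρK_eq (F := F) (j := j) s f).symm ▸ ρF_mem hf.1, fun i h => funext₂ fun z m => mul_eq_zero_of_right _
    (congrFun (congrFun (hf.2 i h) _) _)⟩

instance : FiniteDimensional ℂ ((ch.sdK ν κ F j).B x) := by
  rw [sdK_B]
  exact Submodule.finiteDimensional_inf_left _ _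

theorem Cuts.obs_one_lim {l : Filter α} [l.NeBot] (hc : ch.Cuts) {y : α → ch.WF ν κ Λ}
    (hy : ∀ᶠ a in l, (y a).2 ∈ ch.base _) (hx : x.2 ∈ ch.base _) (h1 : Tendsto y l (𝓝 x))
    {g : α → ch.P Empty} (hg : ∀ᶠ a in l, g a ∈ obsM (ch.oneF F j) Empty.elim (y a))
    (h2 : Tendsto g l (𝓝 f)) : f ∈ obsM (ch.oneF F j) Empty.elim x := by
  have p : ∀ᶠ a in l, g a ∈ ch.polF (ch.oneF F j) Empty.elim := hg.mono fun _ b => b.1
  have p0 : f ∈ ch.polF (ch.oneF F j) Empty.elim := isClosed_polS.mem_of_tendsto h2 p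
  refine mem_obsM.2 ⟨p0, fun z₀ hz => ?_⟩
  obtain ⟨z, a, b⟩ := hc.exists_gr hy hx h1.snd_nhds hz
  have t := tends_pd (F := ch.oneF F j) (e := Empty.elim) h1 b
  have r : ∀ (x : ch.WF ν κ Λ), ∀ z ∈ gr x.2, (pd (ch.oneF F j) Empty.elim x z).Reg pwT {j} univ
      Empty.elim := fun x z c => ⟨fun i _ => tvZ_ne c.1 i, fun k => k.elim, fun k => k.elim,
        jac_univ fun _ => ⟨0, fun _ _ => rfl, fun k => k.elim⟩⟩
  exact PD.Tends.mem_Im ⟨fun j _ => t.tv j trivial, fun k => k.elim, t.tot⟩ (r x z₀ hz)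
    (a.mono fun _ c => r _ _ c) (fun k => k.elim)
    ((hg.and a).mono fun _ c => (mem_obsM.1 c.1).2 _ c.2) (tendsto_evZ p p0 h2 b)

variable (ch j) in
/-- the rank of the functions that vanish on the curve -/
noncomputable def rkN : ℕ := (finrank ℂ (ch.polKM j) -
  finrank ℂ (ch.PiT j) * ch.eu fun i => ch.a (some j) i + ch.b j i : ℤ).toNat

variable (ch j) in
/-- the rank of the obstruction bundle of the field `j` -/
noncomputable def rkO : ℕ := (finrank ℂ (ch.Th j) * ch.h (some j) - ch.eu (ch.wd j) : ℤ).toNat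

section cr

variable {X : Type} [TopologicalSpace X] [T2Space X] [CompactSpace X] {Q : RS X}
  {N : Finset (X × X)} {A : ι → LB Q} {π : X → V ch.M} {u : X → ∀ l, ch.E l →L[ℂ] ℂ}
  {p : Mk ν κ → X} {ξ : X → ℂ} (hx : Cr N A x.2 π u p ξ)
include hx

theorem mem_sdK_N_iff : f ∈ (ch.sdK ν κ F j).N x ↔ f ∈ ch.polK j ∧ resC π u f = 0 := by
  rw [sdK_N]
  exact and_congr_right fun a =>
    (mem_vanM_iff oneF_inv oneF_fits hx).trans (and_iff_right (polF_oneF.ge a.1))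

theorem map_sdK_B (ha : ∀ l, ch.a l ≠ 0) (s : J → X → ℂ) : ((ch.sdK ν κ F j).B x).map (resC π u) =
    (cd (ch.oneF F j) Empty.elim (ch.oneD j) x A π u s).Ob N (fun j => bz A (ch.wd j))
      fun k => bz A ((ch.oneF F j).dk (fun r => Pi.single r 1) k) := by
  rw [← map_obsM oneF_inv oneF_fits oneF_wt ha hx, sdK_B]
  refine le_antisymm (Submodule.map_mono inf_le_right) ?_
  rintro _ ⟨f, a, rfl⟩
  obtain ⟨b, c⟩ := mem_obs_one.1 a
  have d := sgK_mem ((mem_polS.1 b).1 j)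
  refine ⟨_, ⟨d, mem_obs_one.2 ⟨d.1, fun z hz => ⟨fun i e => congrFun (d.2 i e) z, ?_⟩⟩⟩,
    Prod.ext (funext fun i => funext₂ fun m y => ?_) (Subsingleton.elim _ _)⟩
  · exact (sgK_same (f.1 j)).symm ▸ (c z hz).2
  · rcases eq_or_ne i j with rfl | e
    · exact congrFun (congrFun (sgK_same _) _) _
    · exact (congrFun (congrFun (sgK_ne e _) _) _).trans (congrFun ((c _ (hx.gr y)).1 i e) m).symm

theorem finrank_sdK_N' (ha : ∀ l, ch.a l ≠ 0) : finrank ℂ ((ch.sdK ν κ F j).N x) = ch.rkN j := by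
  let T : ch.P Empty →ₗ[ℂ] _ := rs (fun y => (π y, u y)) ∘ₗ LinearMap.proj j ∘ₗ LinearMap.fst ℂ _ _
  have a := finrank_map_add T (U := ch.polKM j) (W := (ch.sdK ν κ F j).N x) fun f =>
    (mem_sdK_N_iff hx).trans (and_congr_right fun b => ⟨fun c => congrFun (congrArg Prod.fst c) j,
      fun c => Prod.ext (funext fun i => by
        rcases eq_or_ne i j with rfl | e
        exacts [c, funext₂ fun m y => congrFun (congrFun (b.2 i e) _) _]) (Subsingleton.elim _ _)⟩)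
  have b : (ch.polKM j).map T = _ := Eq.trans (le_antisymm (by
    rintro _ ⟨f, b, rfl⟩
    exact ⟨_, (mem_polS.1 b.1).1 j, rfl⟩) (by
    rintro _ ⟨g, b, rfl⟩
    exact ⟨_, sgK_mem b, congrArg (rs _) (sgK_same g)⟩)) (map_fst ha hx j)
  have c := hx.par.finrank hx.cur (a := ch.a (some j) + ch.b j) fun a => ha _ (add_eq_zero.1 a).1
  rw [rkN, ← a, b, finrank_Bi, Nat.cast_add, Nat.cast_mul]
  exact (Int.toNat_natCast _).symm.trans (congrArg _ (eq_sub_of_add_eq'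
    (congrArg (· + _) (congrArg _ c.symm))))

end cr

theorem finrank_sdK_N (ha : ∀ l, ch.a l ≠ 0) (hx : x.2 ∈ ch.base _) :
    finrank ℂ ((ch.sdK ν κ F j).N x) = ch.rkN j :=
  let ⟨_, _, _, _, _, _, _, _, _, _, _, h⟩ := exists_cr hx
  finrank_sdK_N' h ha

theorem sdK_le : (ch.sdK ν κ F j).N x ≤ (ch.sdK ν κ F j).B x := by
  rw [sdK_N, sdK_B]
  exact inf_le_inf_left _ vanM_le_obsM

theorem finrank_sdK_B' (ha : ∀ l, ch.a l ≠ 0) (hx : x.2 ∈ ch.base _) :
    (finrank ℂ ((ch.sdK ν κ F j).B x) : ℤ) =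
      ch.rkN j + (finrank ℂ (ch.Th j) * ch.h (some j) - ch.eu (ch.wd j)) := by
  let y : ch.WF ν κ Λ := (x.1, W.mk' x.2.Q x.2.p x.2.Ξ 0)
  obtain ⟨X, _, _, _, Q, N, A, π, u, p, ξ, hc⟩ := exists_cr (x := y.2) hx
  have ok := cd_ok (s := 0) (oneF_inv (F := F) (j := j)) oneF_reg oneF_fits oneF_wt hc
    (fun i z m => by simp [y]) fun _ => ⟨trivial, ⟨trivial, trivial, nofun⟩, fun k => k.elim⟩
  have c := finrank_map_add (resC π u) (U := (ch.sdK ν κ F j).B y) (W := (ch.sdK ν κ F j).N y)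
    fun f => ⟨fun d => ⟨sdK_le d, ((mem_sdK_N_iff hc).1 d).2⟩,
      fun d => (mem_sdK_N_iff hc).2 ⟨(mem_sdK_B.1 d.1).1, d.2⟩⟩
  let _ : Unique (cd (ch.oneF F j) Empty.elim (ch.oneD j) y A π u 0).mov := uniqueSingleton j
  have e1 : ∀ i, bz A (ch.wd i) * (cd (ch.oneF F j) Empty.elim (ch.oneD j) y A π u 0).B i =
    bz A fun r => ch.a (some i) r := bz_wd
  have d := ok.finrank_Ob hc.par.nd fun j _ => e1 j ▸ (hc.par.numbers hc.cur).2.2 _ (ha _)
  have e2 : (fun i => ∑ r, (ch.oneD j).γ r * (Pi.single r 1 : ι → ℤ) i) = ch.wd j :=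
    funext fun i => by simp [Pi.single_apply]
  simp only [e1, e2, chiN_bz hc, Fintype.sum_unique, deg_bz, hc.deg_eq, hc.gen_eq] at d
  change (finrank ℂ ((ch.sdK ν κ F j).B y) : ℤ) = _
  rw [← c, map_sdK_B hc ha 0, Nat.cast_add, d, finrank_sdK_N' hc ha, add_comm, h_eq₁ hx (ha _)]
  refine congrArg (_ + ·) (congrArg₂ (· - ·) rfl ?_)
  simp only [cd, eu]
  push_cast
  ring

theorem rkO_eq (ha : ∀ l, ch.a l ≠ 0) {y : ch.W (Mk ν κ)} (hy : y ∈ ch.base _) :
    (ch.rkO j : ℤ) = finrank ℂ (ch.Th j) * ch.h (some j) - ch.eu (ch.wd j) := by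
  let F : Wt Empty Empty Empty J := ⟨0, 0, 0⟩
  have a := finrank_sdK_B' (F := F) (j := j) (x := (0, y)) ha hy
  have b := Submodule.finrank_mono (sdK_le (F := F) (j := j) (x := ((0, y) : ch.WF ν κ Empty)))
  rw [finrank_sdK_N ha hy] at b
  exact Int.toNat_of_nonneg (by omega)

theorem finrank_sdK_B (ha : ∀ l, ch.a l ≠ 0) (hx : x.2 ∈ ch.base _) :
    finrank ℂ ((ch.sdK ν κ F j).B x) = ch.rkN j + ch.rkO j := by
  have := finrank_sdK_B' (F := F) (j := j) ha hx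
  rw [← rkO_eq ha hx] at this
  exact_mod_cast this

/-- **the obstruction bundle of a field** -/
theorem Cuts.okK (hc : ch.Cuts) (hZ : ∀ x ∈ Z, x.2 ∈ ch.base _) (j : J) :
    (ch.sdK ν κ F j).Ok (actF F) Z (ch.rkN j + ch.rkO j) (ch.rkN j) := by
  have a : IsClosed {z : Z × ch.P Empty | z.2 ∈ ch.polKM j} :=
    (ch.polKM j).closed_of_finiteDimensional.preimage continuous_snd
  have r : (ch.sdK ν κ F j).ρ = ρF (ch.oneF F j) := funext₂ ρK_eq
  have b : (ch.sdK ν κ F j).B = _ := funext fun _ => sdK_B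
  have n : (ch.sdK ν κ F j).N = _ := funext fun _ => sdK_N
  refine ⟨fin_polS, r ▸ isRepOn_ρF, ⟨fun x _ => (sdK_B.le.trans inf_le_left).trans polKM_le, ?_,
    fun x hx => finrank_sdK_B hc.ne (hZ x hx), fun x _ s hs q hq => sdK_B.ge ⟨ρK_polK (sdK_B.le hq).1,
      r ▸ obsM_actF oneF_inv hs (sdK_B.le hq).2⟩⟩,
    ⟨fun x _ => (sdK_N.le.trans inf_le_left).trans polKM_le, ?_,
      fun x hx => finrank_sdK_N hc.ne (hZ x hx), fun x _ s hs q hq => sdK_N.ge
        ⟨ρK_polK (sdK_N.le hq).1, r ▸ vanM_actF hs (sdK_N.le hq).2⟩⟩, fun _ _ => sdK_le⟩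
  · rw [b]
    refine a.inter (isClosed_of_closure_subset (s := {z : Z × ch.P Empty |
      z.2 ∈ obsM (ch.oneF F j) Empty.elim z.1.1}) fun z hz => ?_)
    haveI := mem_closure_iff_nhdsWithin_neBot.1 hz
    exact hc.obs_one_lim (l := 𝓝[_] z) (y := fun y : Z × ch.P Empty => y.1.1)
      (.of_forall fun y => hZ _ y.1.2) (hZ _ z.1.2)
      ((continuous_subtype_val.comp continuous_fst).tendsto z |>.mono_left nhdsWithin_le_nhds)
      self_mem_nhdsWithin (continuous_snd.tendsto z |>.mono_left nhdsWithin_le_nhds)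
  · rw [n]
    exact a.inter (hc.isClosed_van hZ)

/-- **the space of thickened fields** -/
theorem okX (Z : Set (ch.WF ν κ Λ)) (j : J) :
    (ch.sdX ν κ F j).Ok (actF F) Z (finrank ℂ (ch.Th j) * ch.h (some j)) 0 := by
  refine ⟨inferInstance, ⟨fun _ _ _ _ => trivial, fun s _ X _ Y _ => ?_, fun s _ c X _ => ?_,
    fun X _ => ?_, fun s t _ _ X _ => ?_, fun X _ => ?_⟩, ⟨fun _ _ => le_rfl, isClosed_univ,
      fun _ _ => by rw [finrank_top, Base.finrank_clm, finrank_fin_fun], fun _ _ _ _ _ _ => trivial⟩,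
    ⟨fun _ _ => bot_le, isClosed_eq continuous_snd continuous_const, fun _ _ => finrank_bot _ _,
      fun _ _ s _ X h => ?_⟩, fun _ _ => bot_le⟩
  · simp [ρX]
  · simp [ρX, smul_comm c]
  · exact ContinuousLinearMap.ext fun m => by simp [ρX, dup_one, sub_one]
  · exact ContinuousLinearMap.ext fun m => by
      simp [ρX, dup_mul, sub_mul, mul_zpow, Finset.prod_mul_distrib, mul_smul]
  · have a : Continuous fun g : (ch.AF ν κ S)ˣ => (g : ch.AF ν κ S).2 :=
      continuous_snd.comp Units.continuous_val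
    exact (continuous_finsetProd _ fun i _ => ((continuous_apply i).comp
      (continuous_fst.comp Units.continuous_val)).zpow₀ _ fun g => Or.inl (ne_S g.isUnit i)).smul
      (((continuous_apply _).comp (continuous_fst.comp (continuous_snd.comp a))).clm_comp
        (continuous_const.clm_comp ((continuous_iff_continuousAt.2 fun s : ch.A (ν ⊕ κ) =>
          (an_sub analyticAt_id (Sigma.fst : (Σ i, Fin (ch.b j i)) → ι)).continuousAt).comp a)))
  · obtain rfl : X = 0 := h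
    exact ContinuousLinearMap.ext fun m => by simp [ρX]

variable (ch j) in
/-- the Koszul relations of a thickened field -/
noncomputable def kzK : (ch.Th j →L[ℂ] ch.E (some j)) →ₗ[ℂ] ch.P Empty :=
  ch.sgK j ∘ₗ
    { toFun := fun X z m => val m.2 z.1 * z.2 (some j) (X m.1) - val m.1 z.1 * z.2 (some j) (X m.2)
      map_add' := fun _ _ => funext₂ fun _ _ => by simp; ring
      map_smul' := fun _ _ => funext₂ fun _ _ => by simp; ring }

variable {X : ch.Th j →L[ℂ] ch.E (some j)}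

theorem kzK_apply (X : ch.Th j →L[ℂ] ch.E (some j)) (z : ch.Pt) (m) : (ch.kzK j X).1 j z m =
    val m.2 z.1 * z.2 (some j) (X m.1) - val m.1 z.1 * z.2 (some j) (X m.2) :=
  congrFun (congrFun (sgK_same _) z) m

theorem kzK_mem (X : ch.Th j →L[ℂ] ch.E (some j)) : ch.kzK j X ∈ ch.polK j :=
  sgK_mem (sub_mem (bil_mem X (Or.inr ⟨rfl, rfl⟩)) (bil_mem X (Or.inl ⟨rfl, rfl⟩)))

theorem kzK_mem_B (X : ch.Th j →L[ℂ] ch.E (some j)) : ch.kzK j X ∈ (ch.sdK ν κ F j).B x :=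
  mem_sdK_B.2 ⟨kzK_mem X, fun z _ => ⟨z.2 _ ∘L X, kzK_apply X z⟩⟩

theorem kzK_ρ {s : ch.AF ν κ S} (hs : IsUnit s) (X : ch.Th j →L[ℂ] ch.E (some j)) :
    ch.kzK j (ρX F j s X) = ρK F s (ch.kzK j X) :=
  ext_polK (kzK_mem _) (ρK_polK (kzK_mem X)) (funext₂ fun z m => by
    rw [ρK_eq (j := j), ρF_fst, kzK_apply, kzK_apply, val_zz hs, val_zz hs]
    simp only [ρX, ContinuousLinearMap.smul_apply, map_smul, smul_eq_mul]
    change _ * (_ * (zz s z).2 _ (X (sub s.2 _ m.1))) - _ * (_ * (zz s z).2 _ (X (sub s.2 _ m.2))) = _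
    ring)

/-- the kernel consists of the induced fields -/
theorem kzK_mem_N : ch.kzK j X ∈ (ch.sdK ν κ F j).N x ↔
    ∀ z ∈ gr x.2, ∃ y, ∀ m, z.2 (some j) (X m) = y * val m z.1 :=
  mem_sdK_N.trans ⟨fun a z hz =>
    let ⟨m, b⟩ := tvZ_ne (ch := ch) hz.1 j
    ⟨_, fun n => LinearMap.congr_fun (eq_of_kos (Y := (z.2 _ ∘L X).toLinearMap) b fun n =>
      (kzK_apply X z (n, m)).symm.trans (congrFun (a.2 z hz) _)) n⟩,
    fun a => ⟨kzK_mem X, fun z hz => funext fun m => by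
      obtain ⟨y, b⟩ := a z hz
      rw [kzK_apply, b, b, Pi.zero_apply]
      ring⟩⟩

theorem homK (Z : Set (ch.WF ν κ Λ)) (j : J) :
    (ch.sdX ν κ F j).Hom (ch.sdK ν κ F j) (actF F) Z id id fun _ => ch.kzK j :=
  ⟨fun _ _ => continuousOn_const, fun _ _ X _ => kzK_mem_B X, fun _ _ X h => by
    obtain rfl : X = 0 := h
    exact (map_zero (ch.kzK j)).symm ▸ zero_mem _,
    fun _ _ _ hs X _ => (sub_eq_zero.2 (kzK_ρ (F := F) hs X)).symm ▸ zero_mem _⟩

end Vale.Agent.P269.Ch
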