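import Vale.Agent.P287Q.G.Vir.Sd
import Vale.Agent.P287Q.G.Br.Cls
import Vale.Agent.P287Q.G.Spl.LocA
import Vale.Agent.P287Q.G.Prop.Main

set_option linter.all false

/-!
# The standard package
-/

namespace Vale.Agent.P269

open Set Function Topology Filter Module P291Z Orb Holo Base

variable {S Λ R J K ι ν κ I : Type} [Fintype S] [Fintype Λ] [Fintype R] [Fintype J] [Fintype K]
  [Fintype ι] [DecidableEq ι] [Fintype ν] [Fintype κ] [Fintype I]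

theorem Fam.Good.exists_pr [DecidableEq R] {F : Fam S Λ R J K} {k D : ℕ} (h : F.Good) (hk : F.Big k)
    (hD : F.BigD k D) (g : ℤ) (d : R → ℤ) :
    ∃ U, Ch.Pr F (U : Set ((F.sch ν κ k D g d).WF ν κ Λ)) :=
  let ⟨U, a, b, c, e, f⟩ := h.exists_prp (ν := ν) (κ := κ) (g := g) (d := d) hk hD rfl
  ⟨U, a, fun _ hs => b hs.unit, c, e, fun y hy => (f y hy).mk'⟩

theorem Fam.exists_pr [DecidableEq R] {F : Fam S Λ R J K} {k : ℕ} (h : F.Good) (hk : F.Big k)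
    (g : ℤ) (d : R → ℤ) :
    ∀ᶠ D in atTop, ∃ U, Ch.Pr F (U : Set ((F.sch ν κ k D g d).WF ν κ Λ)) :=
  (Fam.eventually_bigD F k).mono fun _ a => h.exists_pr hk a g d

/-- the closure of the main stratum is a base cycle of dimension `n` -/
abbrev Ch.Vm {ch : Ch ι J} (F : Fam S Λ R J K) (e : K → ι → ℕ) (u : ν → J → ℕ)
    (U : Set (ch.WF ν κ Λ)) (n : ℕ) : Prop :=
  Ch.Vd F e (ch.cyc κ F u) (ch.cyc κ F u ∩ U ∩ ch.dom ν κ F e) (ch.main κ F u ∩ U ∩ ch.dom ν κ F e) n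

namespace Ch.Ok

variable {ch : Ch ι J} {F : Fam S Λ R J K} {e : K → ι → ℕ} {K₀ : RD R} {ℓ : R → ι → ℤ}
  {U : Set (ch.WF ν κ Λ)} {b : ℕ} [DecidableEq I] {δ : J → ℕ} {φ : I → J} {n : J → I → ℤ}
  {ψ : J → (Λ → ℂ) → ℂ} (h : ch.Ok F e K₀ ℓ b U) (hE : F.PolE) (hs : F.Sh δ φ n ψ) (u : ν → ℕ)
include h hE hs

theorem vd_sh : Vm F e (fun m => u m • δ) U
    ((ch.dimM ν κ F b (Fintype.card I)).toNat - finrank ℂ (ch.AF ν κ S)) :=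
  h.vd (h.lat.gr h.inv hs u) (locAn_main h.cuts h.wt hE _)

theorem deg_sh : BM.IsDeg (2 * ch.vdim ν κ F ℓ K₀ b (Fintype.card I))
    (virF F e (ch.cyc κ F fun m => u m • δ)) :=
  h.deg (h.lat.gr h.inv hs u) (locAn_main h.cuts h.wt hE _)

end Ch.Ok

namespace Fam

variable [DecidableEq R] {F : Fam S Λ R J K} {k b : ℕ} {K₀ : RD R} {δ : J → ℕ}

variable (ν κ) in
/-- the standard charts are good -/
theorem Good.ok' (h : F.Good) (hR : F.Reg K₀) (hB : F.Sm b) (hk : F.Big k) {D : ℕ} (hD : F.BigD k D)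
    (g : ℤ) (d : R → ℤ) : ∃ U : Set ((F.sch ν κ k D g d).WF ν κ Λ),
      (F.sch ν κ k D g d).Ok F (F.tdeg (F.sch ν κ k D g d)) K₀ ℓs b U :=
  (h.exists_pr hk hD g d).imp fun _ => chart_ok h hR hB hk hD

variable (ν κ) in
theorem Good.ok (h : F.Good) (hR : F.Reg K₀) (hB : F.Sm b) (hk : F.Big k) (g : ℤ) (d : R → ℤ) :
    ∀ᶠ D in atTop, F.BigD k D ∧ ∃ U : Set ((F.sch ν κ k D g d).WF ν κ Λ),
      (F.sch ν κ k D g d).Ok F (F.tdeg (F.sch ν κ k D g d)) K₀ ℓs b U :=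
  (eventually_bigD F k).mono fun _ a => ⟨a, h.ok' ν κ hR hB hk a g d⟩

variable (κ) in
theorem Nice.vd' (h : F.Nice δ) (hk : F.Big k) : ∃ K₀ b, F.Reg K₀ ∧ F.Sm b ∧
    ∀ D, F.BigD k D → ∀ (g : ℤ) (d : R → ℤ) (u : ν → ℕ),
      ∃ (U : Set ((F.sch ν κ k D g d).WF ν κ Λ)) (n : ℕ),
        (F.sch ν κ k D g d).Ok F (F.tdeg (F.sch ν κ k D g d)) K₀ ℓs b U ∧
        Ch.Vm F (F.tdeg (F.sch ν κ k D g d)) (fun m => u m • δ) U n :=
  let ⟨K₀, a⟩ := h.reg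
  let ⟨b, c⟩ := h.sm
  let ⟨_, _, _, _, s⟩ := h.sh
  ⟨K₀, b, a, c, fun _ hD g d u => (h.toGood.ok' ν κ a c hk hD g d).imp fun _ f =>
    ⟨_, f, f.vd_sh h.pol s u⟩⟩

variable (κ) in
/-- **the standard package** -/
theorem Nice.vd (h : F.Nice δ) (hk : F.Big k) (g : ℤ) (d : R → ℤ) (u : ν → ℕ) :
    ∃ K₀ b, F.Reg K₀ ∧ F.Sm b ∧ ∀ᶠ D in atTop, F.BigD k D ∧
      ∃ (U : Set ((F.sch ν κ k D g d).WF ν κ Λ)) (n : ℕ),
        (F.sch ν κ k D g d).Ok F (F.tdeg (F.sch ν κ k D g d)) K₀ ℓs b U ∧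
        Ch.Vm F (F.tdeg (F.sch ν κ k D g d)) (fun m => u m • δ) U n :=
  let ⟨K₀, a⟩ := h.reg
  let ⟨b, c⟩ := h.sm
  let ⟨_, _, _, _, s⟩ := h.sh
  ⟨K₀, b, a, c, (h.toGood.ok ν κ a c hk g d).mono fun _ e =>
    ⟨e.1, e.2.imp fun _ f => ⟨_, f, f.vd_sh h.pol s u⟩⟩⟩

variable (κ) in
theorem Good.vir_deg' [DecidableEq I] (h : F.Good) (hR : F.Reg K₀) (hB : F.Sm b) (hE : F.PolE)
    {φ : I → J} {n ψ} (hs : F.Sh δ φ n ψ) (hk : F.Big k) {D : ℕ} (hD : F.BigD k D) (g : ℤ)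
    (d : R → ℤ) (u : ν → ℕ) : BM.IsDeg (2 * F.vdim ν κ K₀ b (Fintype.card I) g d)
      (F.vir κ k D g d fun m => u m • δ) := by
  obtain ⟨_, a⟩ := h.ok' ν κ hR hB hk hD g d
  have := a.deg_sh hE hs u
  rwa [chart_vdim] at this

variable (κ) in
/-- **the degree of the virtual class** -/
theorem Good.vir_deg [DecidableEq I] (h : F.Good) (hR : F.Reg K₀) (hB : F.Sm b) (hE : F.PolE)
    {φ : I → J} {n ψ} (hs : F.Sh δ φ n ψ) (hk : F.Big k) (g : ℤ) (d : R → ℤ) (u : ν → ℕ) :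
    ∀ᶠ D in atTop, BM.IsDeg (2 * F.vdim ν κ K₀ b (Fintype.card I) g d)
      (F.vir κ k D g d fun m => u m • δ) :=
  (eventually_bigD F k).mono fun _ a => h.vir_deg' κ hR hB hE hs hk a g d u

end Fam

theorem St.virEU : St.VirEU := fun {R J K ν κ} _ _ _ _ _ _ F k g d h hk =>
  let ⟨_, _, _, _, a⟩ := h.nice_zero.vd κ hk g d (0 : ν → ℕ)
  a.mono fun _ ⟨_, _, _, b, c⟩ => ⟨_, (c.isVirF_iff b.toStd).2 rfl, fun _ => (c.isVirF_iff b.toStd).1⟩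

end Vale.Agent.P269
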