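import Vale.Agent.P287Q.G.Vir.Pl

/-!
# Holomorphic equivariant families of Plücker vectors
-/

set_option linter.unusedSectionVars false

namespace Vale.Agent.P269

open Set Function Module Matrix Filter Topology Holo

namespace Holo.HolOn

variable {A : Type*} [NormedAddCommGroup A] [NormedSpace ℂ A] {S : Set A} {a : A} {f f' : A → ℂ}

theorem cst (c : ℂ) : HolOn S (fun _ => c) a := of_an analyticAt_const

theorem mulC (h : HolOn S f a) (h' : HolOn S f' a) : HolOn S (fun s => f s * f' s) a :=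
  let ⟨Φ, h1, h2⟩ := h
  let ⟨Ψ, h3, h4⟩ := h'
  ⟨fun s => Φ s * Ψ s, h1.mul h3, by
    filter_upwards [h2, h4] with s b1 b2 hs using congrArg₂ (· * ·) (b1 hs) (b2 hs)⟩

theorem invC (h : HolOn S f a) (ha : a ∈ S) (h0 : f a ≠ 0) : HolOn S (fun s => (f s)⁻¹) a :=
  h.comp_an ha (analyticAt_inv h0)

theorem sumC {α : Type*} [Fintype α] {f : α → A → ℂ} (h : ∀ i, HolOn S (f i) a) :
    HolOn S (fun s => ∑ i, f i s) a := by
  choose Φ h1 h2 using h
  exact ⟨fun s => ∑ i, Φ i s, Finset.analyticAt_fun_sum _ fun i _ => h1 i,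
    (eventually_all.2 h2).mono fun s b hs => Finset.sum_congr rfl fun i _ => b i hs⟩

theorem prodC {α : Type*} [Fintype α] {f : α → A → ℂ} (h : ∀ i, HolOn S (f i) a) :
    HolOn S (fun s => ∏ i, f i s) a := by
  choose Φ h1 h2 using h
  exact ⟨fun s => ∏ i, Φ i s, Finset.analyticAt_fun_prod _ fun i _ => h1 i,
    (eventually_all.2 h2).mono fun s b hs => Finset.prod_congr rfl fun i _ => b i hs⟩

end Holo.HolOn

namespace Vir

variable {J J' N N' I T T' Y Y' : Type} [Fintype J] [Fintype J'] [Fintype N] [Fintype N']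
  [Fintype I] [DecidableEq N] [DecidableEq N'] [DecidableEq I] [NormedAddCommGroup Y]
  [NormedSpace ℂ Y] [NormedAddCommGroup Y'] [NormedSpace ℂ Y']

/-- `q` is a holomorphic family of Plücker vectors of the spaces `V y`, `y ∈ C`; `t` acts on the
coordinate `j` by `a t j` and on the determinant of `V` by `g t`. -/
structure PlD (act : T → Y → Y) (C : Set Y) (a : T → J → ℂ) (V : Y → Submodule ℂ (J → ℂ))
    (g : T → ℂ) (q : Y → (N → J) → ℂ) : Prop where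
  pl : ∀ y ∈ C, IsPl (V y) (q y)
  hol : ∀ s, ∀ y ∈ C, HolOn C (q · s) y
  eqv : ∀ t, ∀ y ∈ C, ∀ s, q (act t y) s * g t = (∏ k, a t (s k)) * q y s

variable (N) in
/-- The determinant of `V` is equivariantly trivial with character `g`. -/
def PlE (act : T → Y → Y) (C : Set Y) (a : T → J → ℂ) (V : Y → Submodule ℂ (J → ℂ)) (g : T → ℂ) :
    Prop := ∃ q : Y → (N → J) → ℂ, PlD act C a V g q

variable (N) in
/-- `V` is a holomorphic family of subspaces. -/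
def LocPl (C : Set Y) (V : Y → Submodule ℂ (J → ℂ)) : Prop :=
  ∀ y ∈ C, ∃ q : Y → (N → J) → ℂ, (∀ᶠ y' in 𝓝 y, y' ∈ C → IsPl (V y') (q y')) ∧
    ∀ s, HolOn C (q · s) y

variable {act : T → Y → Y} {act' : T' → Y' → Y'} {C : Set Y} {C' : Set Y'} {a : T → J → ℂ}
  {a' : T → J' → ℂ} {V V₁ V₂ : Y → Submodule ℂ (J → ℂ)} {V' : Y → Submodule ℂ (J' → ℂ)}
  {g g' g₁ g₂ : T → ℂ}

/-- coordinate subspaces -/
theorem plE_top {τ : I → J} (hτ : Injective τ)
    (hV : ∀ y ∈ C, ∀ η, η ∈ V y ↔ ∀ j ∉ range τ, η j = 0) (hg : ∀ t, g t = ∏ i, a t (τ i)) :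
    PlE I act C a V g := by
  classical
  refine ⟨fun _ => mn fun i => Pi.single (τ i) 1, fun y hy => isPl_top hτ (hV y hy),
    fun _ _ _ => .cst _, fun t _ _ s => ?_⟩
  rw [hg, mul_comm, mn, ← det_mul_column, ← det_mul_row]
  refine congrArg det (Matrix.ext fun i k => ?_)
  simp only [of_apply, Pi.single_apply]
  split_ifs with e
  exacts [by rw [e], by simp]

namespace PlE

theorem finrank (h : PlE N act C a V g) {y} (hy : y ∈ C) : finrank ℂ (V y) = Fintype.card N :=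
  let ⟨_, b⟩ := h
  (b.pl y hy).finrank

theorem locPl (h : PlE N act C a V g) : LocPl N C V :=
  let ⟨q, b⟩ := h
  fun y hy => ⟨q, .of_forall b.pl, fun s => b.hol s y hy⟩

/-- base change -/
theorem pull {b : T' → J → ℂ} {W : Y' → Submodule ℂ (J → ℂ)} {γ : T' → ℂ} (h : PlE N act C a V g)
    (φ : Y' → Y) (f : T' → T) (hφ : ∀ y ∈ C', HolOn C' φ y) (hC : ∀ y ∈ C', φ y ∈ C)
    (he : ∀ t, ∀ y ∈ C', φ (act' t y) = act (f t) (φ y)) (hV : ∀ y ∈ C', W y = V (φ y))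
    (ha : ∀ t j, b t j = a (f t) j) (hg : ∀ t, γ t = g (f t)) : PlE N act' C' b W γ :=
  let ⟨q, d⟩ := h
  ⟨fun y => q (φ y), fun y hy => hV y hy ▸ d.pl _ (hC y hy), fun s y hy =>
    (d.hol s _ (hC y hy)).comp (hφ y hy) hy (.of_forall hC), fun t y hy s => by
      simp only [he t y hy, ha, hg, d.eqv _ _ (hC y hy)]⟩

theorem congr {C₁ : Set Y} (h : PlE N act C a V g) (hC : C₁ ⊆ C) (hV : ∀ y ∈ C₁, V₁ y = V y) :
    PlE N act C₁ a V₁ g :=
  h.pull id id (fun _ _ => .of_an analyticAt_id) hC (fun _ _ _ => rfl) hV (fun _ _ => rfl)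
    fun _ => rfl

theorem reindex (h : PlE N act C a V g) (e : Fintype.card N = Fintype.card N') :
    PlE N' act C a V g :=
  let ⟨q, d⟩ := h
  let e := Fintype.equivOfCardEq e
  ⟨fun y s => q y (s ∘ e), fun y hy => (d.pl y hy).reindex e, fun _ => d.hol _, fun t y hy s =>
    (d.eqv t y hy _).trans (congrArg (· * _) (e.prod_comp fun k => a t (s k)))⟩

/-- changing the character by a nowhere vanishing function -/
theorem scale (h : PlE N act C a V g) (μ : Y → ℂ) (h1 : ∀ y ∈ C, HolOn C μ y)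
    (h2 : ∀ y ∈ C, μ y ≠ 0) (h3 : ∀ t, ∀ y ∈ C, μ (act t y) * g' t = μ y * g t) :
    PlE N act C a V g' :=
  let ⟨q, d⟩ := h
  ⟨fun y s => μ y * q y s, fun y hy => (d.pl y hy).smul (h2 y hy),
    fun s y hy => (h1 y hy).mulC (d.hol s y hy), fun t y hy s => by
      linear_combination q (act t y) s * h3 t y hy + μ y * d.eqv t y hy s⟩

/-- the image under an equivariant matrix -/
theorem map (h : PlE N act C a V g) (A : Y → J' → J → ℂ) (h1 : ∀ j' j, ∀ y ∈ C, HolOn C (A · j' j) y)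
    (h2 : ∀ t, ∀ y ∈ C, ∀ j' j, A (act t y) j' j * a t j = a' t j' * A y j' j)
    (hi : ∀ y ∈ C, ∀ η ∈ V y, Matrix.of (A y) *ᵥ η = 0 → η = 0)
    (hV : ∀ y ∈ C, ∀ η', η' ∈ V' y ↔ ∃ η ∈ V y, Matrix.of (A y) *ᵥ η = η') : PlE N act C a' V' g :=
  let ⟨q, d⟩ := h
  ⟨fun y => mp (A y) (q y), fun y hy => (d.pl y hy).map _ (hi y hy) (hV y hy),
    fun _ y hy => .sumC fun s => (HolOn.prodC fun _ => h1 _ _ y hy).mulC (d.hol s y hy),
    fun t y hy s' => by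
      simp only [mp, Finset.sum_mul, Finset.mul_sum, mul_assoc, d.eqv t y hy]
      simp only [← mul_assoc, ← Finset.prod_mul_distrib, h2 t y hy]⟩

/-- the image under a projection to some of the coordinates -/
theorem comp (h : PlE N act C a V g) (ρ : J' → J) (h2 : ∀ t j, a' t j = a t (ρ j))
    (hi : ∀ y ∈ C, ∀ η ∈ V y, η ∘ ρ = 0 → η = 0)
    (hV : ∀ y ∈ C, ∀ η', η' ∈ V' y ↔ ∃ η ∈ V y, η ∘ ρ = η') : PlE N act C a' V' g :=
  let ⟨q, d⟩ := h
  ⟨fun y s => q y (ρ ∘ s), fun y hy => (d.pl y hy).comp ρ (hi y hy) (hV y hy),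
    fun _ => d.hol _, fun t y hy s' => by simp only [d.eqv t y hy, h2, Function.comp_apply]⟩

/-- direct sums -/
theorem wedge (h₁ : PlE N act C a V₁ g₁) (h₂ : PlE N' act C a V₂ g₂)
    (hd : ∀ y ∈ C, Disjoint (V₁ y) (V₂ y)) (hV : ∀ y ∈ C, V₁ y ⊔ V₂ y = V y)
    (hg : ∀ t, g t = g₁ t * g₂ t) : PlE (N ⊕ N') act C a V g := by
  obtain ⟨q₁, d₁⟩ := h₁
  obtain ⟨q₂, d₂⟩ := h₂
  refine ⟨fun y => wg (q₁ y) (q₂ y), fun y hy => (d₁.pl y hy).wedge (d₂.pl y hy) (hd y hy) (hV y hy),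
    fun _ y hy => .sumC fun σ => (HolOn.cst _).mulC ((d₁.hol _ y hy).mulC (d₂.hol _ y hy)),
    fun t y hy s => ?_⟩
  simp only [wg, Finset.sum_mul, Finset.mul_sum, hg]
  refine Finset.sum_congr rfl fun σ _ => ?_
  rw [mul_assoc, mul_mul_mul_comm, d₁.eqv t y hy, d₂.eqv t y hy, ← Equiv.prod_comp σ fun k => a t (s k),
    Fintype.prod_sum_type]
  ring

/-- the kernel of a surjective projection to some of the coordinates -/
theorem slice (h : PlE (N ⊕ I) act C a V g) (τ : I → J) (ha : ∀ t i, a t (τ i) ≠ 0)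
    (h1 : ∀ y ∈ C, ∀ η, η ∈ V₁ y ↔ η ∈ V y ∧ η ∘ τ = 0)
    (hs : ∀ y ∈ C, ∀ c : I → ℂ, ∃ η ∈ V y, η ∘ τ = c) (hg : ∀ t, g t = g₁ t * ∏ i, a t (τ i)) :
    PlE N act C a V₁ g₁ :=
  let ⟨q, d⟩ := h
  ⟨fun y s => q y (Sum.elim s τ), fun y hy => (d.pl y hy).slice τ (h1 y hy) (hs y hy),
    fun _ => d.hol _, fun t y hy s => mul_right_cancel₀
      (Finset.prod_ne_zero_iff.2 fun i (_ : i ∈ Finset.univ) => ha t i) (by
        rw [mul_assoc, ← hg, d.eqv t y hy, Fintype.prod_sum_type, mul_right_comm]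
        rfl)⟩

/-- the kernel of a surjective equivariant matrix -/
theorem ker (h : PlE (N ⊕ I) act C a V g) (B : Y → I → J → ℂ) (u : T → I → ℂ)
    (hu : ∀ t i, u t i ≠ 0) (h1 : ∀ i j, ∀ y ∈ C, HolOn C (B · i j) y)
    (h2 : ∀ t, ∀ y ∈ C, ∀ i j, B (act t y) i j * a t j = u t i * B y i j)
    (hV : ∀ y ∈ C, ∀ η, η ∈ V₁ y ↔ η ∈ V y ∧ ∀ i, ∑ j, B y i j * η j = 0)
    (hs : ∀ y ∈ C, ∀ c : I → ℂ, ∃ η ∈ V y, ∀ i, ∑ j, B y i j * η j = c i)
    (hg : ∀ t, g t = g₁ t * ∏ i, u t i) : PlE N act C a V₁ g₁ := by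
  classical
  let A : Y → J ⊕ I → J → ℂ := fun y => Sum.elim (fun j => Pi.single j 1) (B y)
  have e : ∀ y η, Matrix.of (A y) *ᵥ η = Sum.elim η fun i => ∑ j, B y i j * η j := fun y η =>
    funext (Sum.rec (fun j => single_one_dotProduct j η) fun _ => rfl)
  let W : Y → Submodule ℂ (J ⊕ I → ℂ) := fun y => (V y).map (Matrix.of (A y)).mulVecLin
  refine ((h.map (a' := fun t => Sum.elim (a t) (u t)) (V' := W) A (Sum.rec (fun _ _ _ _ => .cst _) h1)
    (fun t y hy => Sum.rec (fun j' j => ?_) (h2 t y hy))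
    (fun y _ η _ b => funext fun j => congrFun ((e y η).symm.trans b) (.inl j))
    fun _ _ _ => Iff.rfl).slice (V₁ := fun y => W y ⊓ LinearMap.ker (LinearMap.funLeft ℂ ℂ .inr))
    .inr hu (fun _ _ _ => Iff.rfl) (fun y hy c => let ⟨η, b, d⟩ := hs y hy c
      ⟨_, ⟨η, b, rfl⟩, funext d⟩) hg).comp .inl (fun _ _ => rfl) ?_ fun y hy η => (hV y hy η).trans
    ⟨fun b => ⟨_, ⟨⟨η, b.1, e y η⟩, funext b.2⟩, rfl⟩, ?_⟩
  · simp only [A, Sum.elim_inl, Pi.single_apply]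
    split_ifs with b
    exacts [by rw [b, mul_comm], by simp]
  · rintro y - _ ⟨⟨η, -, rfl⟩, b⟩ c
    exact funext (Sum.rec (congrFun c) (congrFun b))
  · rintro ⟨_, ⟨⟨η', b, rfl⟩, c⟩, rfl⟩
    rw [mulVecLin_apply, e] at c ⊢
    exact ⟨b, congrFun c⟩

/-- **extensions**: the kernel and the image of a projection to some of the coordinates -/
theorem ext (h₁ : PlE N act C a V₁ g₁) (h' : PlE N' act C a' V' g') (hL : LocPl (N ⊕ N') C V)
    (ρ : J' → J) (h2 : ∀ t j, a' t j = a t (ρ j)) (ha : ∀ t j, a t j ≠ 0)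
    (hC : ∀ t, ∀ y ∈ C, act t y ∈ C)
    (hi : ∀ t, ∀ y ∈ C, ∀ η', η' ∈ V (act t y) ↔ ∃ η ∈ V y, (fun j => a t j * η j) = η')
    (h1 : ∀ y ∈ C, ∀ η, η ∈ V₁ y ↔ η ∈ V y ∧ η ∘ ρ = 0)
    (hV : ∀ y ∈ C, ∀ η', η' ∈ V' y ↔ ∃ η ∈ V y, η ∘ ρ = η') (hg : ∀ t, g t = g₁ t * g' t) :
    PlE (N ⊕ N') act C a V g := by
  obtain ⟨q₁, d₁⟩ := h₁
  obtain ⟨q', d'⟩ := h'
  choose! p p1 p2 using fun y hy => (d₁.pl y hy).exact (d'.pl y hy) ρ (h1 y hy) (hV y hy)
  refine ⟨p, p1, fun s₀ y hy => ?_, fun t y hy s₀ => ?_⟩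
  · obtain ⟨q, b1, b2⟩ := hL y hy
    obtain ⟨s, c⟩ := (d₁.pl y hy).ne
    obtain ⟨s', c'⟩ := (d'.pl y hy).ne
    have n : q y (Sum.elim s (ρ ∘ s')) ≠ 0 := by
      obtain ⟨μ, e, f⟩ := (p1 y hy).prop (b1.self_of_nhds hy)
      rw [f, p2 y hy]
      exact mul_ne_zero e (mul_ne_zero c c')
    refine ((((d₁.hol s y hy).mulC (d'.hol s' y hy)).mulC ((b2 _).invC hy n)).mulC (b2 s₀)).congr ?_
    filter_upwards [b1, (b2 _).ev hy (eventually_ne_nhds n)] with z e1 e2 hz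
    obtain ⟨μ, -, f⟩ := (e1 hz).prop (p1 z hz)
    rw [← p2 z hz, f, f, mul_inv_cancel_right₀ (e2 hz)]
  · obtain ⟨μ, -, f⟩ := ((p1 y hy).diag (ha t) (hi t y hy)).prop (p1 _ (hC t y hy))
    obtain ⟨s, c⟩ := (d₁.pl y hy).ne
    obtain ⟨s', c'⟩ := (d'.pl y hy).ne
    have k := congrArg₂ (· * ·) (d₁.eqv t y hy s) (d'.eqv t y hy s')
    simp only [h2] at k
    rw [mul_mul_mul_comm, ← p2 _ (hC t y hy), f, ← hg, p2 y hy, Fintype.prod_sum_type] at k
    have m : μ * g t = 1 := mul_left_cancel₀ (mul_ne_zero (mul_ne_zero (Finset.prod_ne_zero_iff.2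
      fun k (_ : k ∈ Finset.univ) => ha t (s k)) c) (mul_ne_zero (Finset.prod_ne_zero_iff.2
      fun k (_ : k ∈ Finset.univ) => ha t (ρ (s' k))) c')) (by
        simp only [Sum.elim_inl, Sum.elim_inr, Function.comp_apply] at k
        linear_combination k)
    rw [f, mul_right_comm, m, one_mul]

end PlE

end Vir

end Vale.Agent.P269
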