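import Vale.Agent.P287Q.G.Vir.RP

/-!
# Operations on the regularity data
-/

namespace Vale.Agent.P269.RD

variable {R J : Type} [Fintype J]

/-- direct sum -/
@[reducible] def add (D D' : RD R) : RD R := ⟨D.n + D'.n, D.γ + D'.γ⟩

/-- complement -/
@[reducible] def sub (D D' : RD R) : RD R := ⟨D.n - D'.n, D.γ - D'.γ⟩

open Classical in
/-- the free fields in `T` -/
@[reducible] noncomputable def free (w : J → R → ℤ) (T : Set J) : RD R :=
  ⟨T.ncard, ∑ j with j ∈ T, w j⟩

end Vale.Agent.P269.RD
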