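import Vale.Agent.P287Q.G.Vir.Cone
import Vale.Agent.P287Q.G.Vir.RD0
import Vale.Agent.P287Q.G.Vir.PlD

/-!
# Construction of the regularity data
-/

set_option linter.unusedSectionVars false

namespace Vale.Agent.P269

open Set Function Topology Filter Module Vir Holo

variable {S Λ R J K S' Λ' R' J' K' N N' I : Type} [Fintype S] [Fintype Λ] [Fintype R] [Fintype J]
  [Fintype K] [Fintype S'] [Fintype Λ'] [Fintype R'] [Fintype J'] [Fintype K'] [Fintype N]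
  [Fintype N'] [Fintype I] [DecidableEq N] [DecidableEq N'] [DecidableEq I]

namespace Vir

/-- the torus -/
abbrev TU (R : Type) : Type := {t : R → ℂ // IsUnit t}

/-- the character with weight `w` -/
noncomputable def chi (w : R → ℤ) (t : TU R) : ℂ := ∏ r, t.1 r ^ w r

theorem chi_ne (w : R → ℤ) (t : TU R) : chi w t ≠ 0 := prod_zpow_ne (isUnit_pi_iff.1 t.2) w

theorem chi_add (w w' : R → ℤ) (t : TU R) : chi (w + w') t = chi w t * chi w' t := by
  simp only [chi, Pi.add_apply, zpow_add₀ (isUnit_pi_iff.1 t.2 _), Finset.prod_mul_distrib]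

theorem chi_zero (t : TU R) : chi 0 t = 1 := by simp [chi]

theorem chi_sum {α : Type} (s : Finset α) (w : α → R → ℤ) (t : TU R) :
    chi (∑ i ∈ s, w i) t = ∏ i ∈ s, chi (w i) t := by
  classical
  exact Finset.induction_on s (chi_zero t) fun j s h e => by
    rw [Finset.sum_insert h, Finset.prod_insert h, chi_add, e]

/-- the homomorphism of tori given by an integer matrix -/
noncomputable def TU.map (c : R → R' → ℤ) (t : TU R') : TU R :=
  ⟨fun r => chi (c r) t, isUnit_pi_iff.2 fun _ => chi_ne _ t⟩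

theorem chi_map (c : R → R' → ℤ) (w : R → ℤ) (t : TU R') :
    chi w (t.map c) = chi (fun r' => ∑ r, w r * c r r') t := by
  simp only [chi, TU.map, ← Finset.prod_zpow, ← zpow_mul, zpow_sum_ne (isUnit_pi_iff.1 t.2 _),
    mul_comm (w _)]
  exact Finset.prod_comm

/-- the action of the torus on the fields -/
noncomputable def tac (w : J → R → ℤ) (t : TU R) (y : J → ℂ) (j : J) : ℂ := chi (w j) t * y j

theorem plE_empty {T Y : Type} [NormedAddCommGroup Y] [NormedSpace ℂ Y] {act : T → Y → Y}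
    {C : Set Y} {a : T → J → ℂ} {V : Y → Submodule ℂ (J → ℂ)} {g : T → ℂ} (h : ∀ y, y ∉ C) :
    PlE N act C a V g :=
  ⟨0, fun y a => (h y a).elim, fun _ y a => (h y a).elim, fun _ y a => (h y a).elim⟩

end Vir

namespace Fam

variable (F : Fam S Λ R J K) (F' : Fam S' Λ' R' J' K')

/-- the cone over the member `l` of the family -/
def fc (l : Λ → ℂ) : Set (J → ℂ) := {y | (l, y) ∈ F.cone}

variable (N) in
/-- the determinant of the vertical tangent space is trivial of weight `γ` on the member `l` -/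
def PE (γ : R → ℤ) (l : Λ → ℂ) : Prop :=
  PlE N (tac F.w) (F.fc l) (fun t j => chi (F.w j) t) (fun y => F.vert (l, y)) (chi γ)

open Classical in
/-- the data of a family that is cut out by the independent equations `K₁` -/
noncomputable def rd (K₁ : Set K) : RD R :=
  ⟨F.mov.ncard - K₁.ncard, ∑ j with j ∈ F.mov, F.w j - ∑ k with k ∈ K₁, F.χ k⟩

variable {F F'} {K₀ : RD R} {K₀' : RD R'} {K₁ : Set K} {l : Λ → ℂ} {y : J → ℂ} {γ : R → ℤ}

theorem actT_tac (t : TU R) (l : Λ → ℂ) (y : J → ℂ) : F.actT (1, t.1) (l, y) = (l, tac F.w t y) :=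
  Prod.ext (F.actL_one l) (funext fun j => by simp [Wt.actT, tac, chi])

theorem Reg.pe (h : F.Reg K₀) (hn : K₀.n = Fintype.card N) (l : Λ → ℂ) : F.PE N K₀.γ l := by
  by_cases a : l ∈ F.B
  · obtain ⟨q, b, c, d⟩ := h.det l a
    refine PlE.reindex (N := Fin K₀.n) ⟨q, b, c, fun t y hy s => ?_⟩ ((Fintype.card_fin _).trans hn)
    have := d t.1 t.2 y hy s
    rwa [actT_tac] at this
  · exact plE_empty fun y b => a b.1

theorem reg_of_pe (loc : ∀ z ∈ F.cone, ∃ K₁, F.RegAt K₁ z) (hn : K₀.n = Fintype.card N)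
    (h : ∀ l, (F.fc l).Nonempty → F.PE N K₀.γ l) : F.Reg K₀ := by
  refine ⟨loc, fun z hz => ((h z.1 ⟨_, hz⟩).finrank hz).trans hn.symm, fun l _ => ?_⟩
  have : F.PE N K₀.γ l := (F.fc l).eq_empty_or_nonempty.elim
    (fun e => plE_empty fun y a => e.le a) (h l)
  obtain ⟨q, d⟩ := this.reindex (hn.symm.trans (Fintype.card_fin _).symm)
  refine ⟨q, d.pl, d.hol, fun t ht y hy s => ?_⟩
  rw [actT_tac ⟨t, ht⟩]
  exact d.eqv ⟨t, ht⟩ y hy s

theorem reg_of_empty (h : ∀ z, z ∉ F.cone) : F.Reg K₀ :=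
  reg_of_pe (fun z a => (h z a).elim) (Fintype.card_fin _).symm fun _ a => (h _ a.choose_spec).elim

theorem an_jac (l : Λ → ℂ) (k : K) (j : J) (y : J → ℂ) : AnalyticAt ℂ (fun y => F.jac (l, y) k j) y :=
  AnalyticOnNhd.eval_mvPolynomial (MvPolynomial.pderiv j ((F.fib l).F k)) y trivial

theorem Inv.fc_tac (hF : F.Inv) (t : TU R) (hy : y ∈ F.fc l) : tac F.w t y ∈ F.fc l :=
  mem_of_eq_of_mem (s := F.cone) (actT_tac t l y).symm (hF.cone_act (Prod.isUnit_iff.2 ⟨isUnit_one, t.2⟩) hy)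

theorem Inv.sum_jac_tac (hF : F.Inv) (t : TU R) (k : K) (η : J → ℂ) :
    ∑ j, F.jac (l, tac F.w t y) k j * tac F.w t η j = chi (F.χ k) t * ∑ j, F.jac (l, y) k j * η j := by
  refine (hasDerivAt_eval ((F.fib l).F k) _ _).unique
    (((hasDerivAt_eval ((F.fib l).F k) y η).const_mul _).congr_of_eventuallyEq
      (.of_forall fun ε => ?_))
  have := hF.eval_act (t := (1, t.1)) (Prod.isUnit_iff.2 ⟨isUnit_one, t.2⟩)
    (l, fun j => y j + ε * η j) k
  simp only [actT_tac, Pi.one_apply, one_zpow, Finset.prod_const_one, one_mul] at this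
  exact Eq.trans (congrArg (MvPolynomial.eval · _) (funext fun j => by simp only [tac]; ring)) this

theorem Inv.jac_tac (hF : F.Inv) (t : TU R) (k : K) (j : J) :
    F.jac (l, tac F.w t y) k j * chi (F.w j) t = chi (F.χ k) t * F.jac (l, y) k j := by
  classical
  simpa [tac, Pi.single_apply] using hF.sum_jac_tac (l := l) (y := y) t k (Pi.single j 1)

theorem Inv.vert_tac (hF : F.Inv) (t : TU R) (η' : J → ℂ) : η' ∈ F.vert (l, tac F.w t y) ↔
    ∃ η ∈ F.vert (l, y), (fun j => chi (F.w j) t * η j) = η' := by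
  have e : ∀ η, tac F.w t η ∈ F.vert (l, tac F.w t y) ↔ η ∈ F.vert (l, y) := fun η => by
    simp only [RP.mem_vert, hF.sum_jac_tac]
    simp only [mul_eq_zero, chi_ne, false_or, tac]
  have f : tac F.w t (fun j => (chi (F.w j) t)⁻¹ * η' j) = η' :=
    funext fun j => mul_inv_cancel_left₀ (chi_ne _ t) _
  exact ⟨fun a => ⟨_, (e _).1 (f.symm ▸ a), f⟩, fun ⟨η, a, b⟩ => b ▸ (e η).2 a⟩

/-- equations with independent differentials -/
theorem plE_jac {T : Type} {act : T → (J → ℂ) → J → ℂ} {C : Set (J → ℂ)} {a : T → J → ℂ}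
    {u : T → K₁ → ℂ} {g : T → ℂ} [Fintype F.mov] [Fintype K₁] (hu : ∀ t k, u t k ≠ 0)
    (hJ : ∀ y ∈ C, Jac (F.jac (l, y)) F.mov K₁)
    (he : ∀ t, ∀ y ∈ C, ∀ (k : K₁) j, F.jac (l, act t y) k j * a t j = u t k * F.jac (l, y) k j)
    (hn : Fintype.card F.mov = Fintype.card N + Fintype.card K₁)
    (hg : ∀ t, ∏ j : F.mov, a t j = g t * ∏ k, u t k) :
    PlE N act C a (fun y => F.vert (l, y)) g := by
  classical
  refine ((plE_top (τ := (Subtype.val : F.mov → J)) (V := fun _ => Submodule.pi F.movᶜ fun _ => ⊥)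
    Subtype.val_injective (fun _ _ η => by simp [Submodule.mem_pi]) fun _ => rfl).reindex
      (hn.trans Fintype.card_sum.symm)).ker (fun y k => F.jac (l, y) k.1) u hu
    (fun k j y _ => .of_an (an_jac l k.1 j y)) he (fun y hy η => RP.mem_vert.trans
      (and_congr_right fun b => ⟨fun c k => c k, fun c => (hJ y hy).red η b fun k d => c ⟨k, d⟩⟩))
    (fun y hy c => ((hJ y hy).ind (extend Subtype.val c 0)).imp fun η b => ⟨b.1, fun k =>
      (b.2 k k.2).trans (Subtype.val_injective.extend_apply _ _ k)⟩) hg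

theorem _root_.Vale.Agent.P269.Vir.Jac.finrank_vert {z} (h : Jac (F.jac z) F.mov K₁) :
    finrank ℂ (F.vert z) + K₁.ncard = F.mov.ncard := by
  classical
  let P : Submodule ℂ (J → ℂ) := Submodule.pi F.movᶜ fun _ => ⊥
  let L : (J → ℂ) →ₗ[ℂ] K → ℂ := Matrix.mulVecLin (Matrix.of (F.jac z))
  have a := LinearMap.finrank_range_add_finrank_ker (L ∘ₗ P.subtype)
  rw [show LinearMap.range (L ∘ₗ P.subtype) = Wg (F.jac z) F.mov from Submodule.ext fun c =>
      ⟨fun ⟨η, e⟩ => ⟨η.1, η.2, congrFun e⟩, fun ⟨η, a, e⟩ => ⟨⟨η, a⟩, funext e⟩⟩,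
    h.finrank_Wg, (isPl_top (τ := (Subtype.val : F.mov → J)) (V := P) Subtype.val_injective
      fun η => by simp [P, Submodule.mem_pi]).finrank, ← Submodule.finrank_map_subtype_eq,
    show (LinearMap.ker (L ∘ₗ P.subtype)).map P.subtype = F.vert z from Submodule.ext fun η =>
      ⟨fun ⟨w, a, e⟩ => e ▸ RP.mem_vert.2 ⟨w.2, congrFun a⟩,
        fun a => ⟨⟨η, (RP.mem_vert.1 a).1⟩, funext (RP.mem_vert.1 a).2, rfl⟩⟩] at a
  rwa [← Nat.card_coe_set_eq, ← Nat.card_coe_set_eq, Nat.card_eq_fintype_card,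
    Nat.card_eq_fintype_card, add_comm]

theorem RegAt.finrank_vert (hF : F.Inv) {z} (h : F.RegAt K₁ z) (hz : z ∈ F.cone) :
    finrank ℂ (F.vert z) + K₁.ncard = F.mov.ncard := (h.jac hF hz).finrank_vert

theorem Reg.n_add (hF : F.Inv) (hR : F.Reg K₀) {z} (h : F.RegAt K₁ z) (hz : z ∈ F.cone) :
    K₀.n + K₁.ncard = F.mov.ncard := hR.dim z hz ▸ h.finrank_vert hF hz

/-- the vertical tangent spaces of a locally regular family form a holomorphic family -/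
theorem Inv.locPl (hF : F.Inv) (loc : ∀ z ∈ F.cone, ∃ K₁, F.RegAt K₁ z)
    (hn : ∀ y ∈ F.fc l, finrank ℂ (F.vert (l, y)) = Fintype.card N) :
    LocPl N (F.fc l) fun y => F.vert (l, y) := fun y hy => by
  classical
  obtain ⟨K₁, h⟩ := loc _ hy
  have a := h.finrank_vert hF hy
  rw [hn y hy, ← Nat.card_coe_set_eq, ← Nat.card_coe_set_eq, Nat.card_eq_fintype_card,
    Nat.card_eq_fintype_card] at a
  obtain ⟨q, d⟩ := plE_jac (N := N) (T := Empty) (act := Empty.elim) (a := Empty.elim)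
    (u := Empty.elim) (g := Empty.elim) (C := {y | Jac (F.jac (l, y)) F.mov K₁}) (·.elim)
    (fun _ b => b) (·.elim) a.symm (·.elim)
  have b : ∀ᶠ y' in 𝓝 y, y' ∈ F.fc l → Jac (F.jac (l, y')) F.mov K₁ :=
    ((Continuous.prodMk_right l).tendsto y).eventually (h.jac_nhds hF)
  exact ⟨q, b.mono fun y' c e => d.pl y' (c e), fun s => (d.hol s y (h.jac hF hy)).mono b⟩

/-- **the same equations are regular everywhere** -/
theorem reg_fix (hF : F.Inv) (h : ∀ z ∈ F.cone, F.RegAt K₁ z) : F.Reg (F.rd K₁) := by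
  classical
  refine reg_of_pe (fun z hz => ⟨_, h z hz⟩) (Fintype.card_fin _).symm fun l ⟨y, hy⟩ => ?_
  have a := (h _ hy).finrank_vert hF hy
  refine plE_jac (K₁ := K₁) (u := fun t k => chi (F.χ k) t) (fun _ _ => chi_ne _ _)
    (fun y hy => (h _ hy).jac hF hy) (fun t _ _ k => hF.jac_tac t k) ?_ fun t => ?_
  · rw [Fintype.card_fin, ← Nat.card_eq_fintype_card, ← Nat.card_eq_fintype_card,
      Nat.card_coe_set_eq, Nat.card_coe_set_eq]
    exact (Nat.sub_add_cancel (a ▸ Nat.le_add_left _ _)).symm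
  · rw [← chi_sum, ← chi_sum, ← chi_add, ← Finset.sum_subtype (p := (· ∈ K₁)) {k | k ∈ K₁} (by simp),
      ← Finset.sum_subtype (p := (· ∈ F.mov)) {k | k ∈ F.mov} (by simp)]
    exact congrArg (chi · t) (sub_add_cancel _ _).symm

theorem regAt_univ {z} (h : ∀ c : K → ℂ, ∃ η : J → ℂ, (∀ j ∉ F.mov, η j = 0) ∧
    ∀ k, ∑ j, F.jac z k j * η j = c k) : F.RegAt univ z :=
  ⟨fun c => (h c).imp fun _ a => ⟨a.1, fun k _ => a.2 k⟩, .of_forall fun _ _ a k => a k trivial⟩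

/-- **complete intersections** -/
theorem reg_univ (hF : F.Inv) (h : ∀ z ∈ F.cone, ∀ c : K → ℂ, ∃ η : J → ℂ,
    (∀ j ∉ F.mov, η j = 0) ∧ ∀ k, ∑ j, F.jac z k j * η j = c k) : F.Reg (F.rd univ) :=
  reg_fix hF fun z hz => regAt_univ (h z hz)

theorem regAt_empty [IsEmpty K] (z) : F.RegAt univ z :=
  regAt_univ fun _ => ⟨0, fun _ _ => rfl, isEmptyElim⟩

/-- **no equations** -/
theorem reg_empty [IsEmpty K] : F.Reg (F.rd univ) := by
  classical
  refine reg_of_pe (N := F.mov) (fun z _ => ⟨_, regAt_empty z⟩) ?_ fun l _ => plE_top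
    Subtype.val_injective (fun _ _ η => by simp [RP.mem_vert]) fun t => ?_
  · simp [rd, ← Nat.card_coe_set_eq]
  · rw [← chi_sum, ← Finset.sum_subtype (p := (· ∈ F.mov)) {k | k ∈ F.mov} (by simp)]
    simp [rd]

theorem _root_.Vale.Agent.P269.RD.free_eq (w : J → R → ℤ) (T : Set J) [Fintype T] :
    RD.free w T = ⟨Fintype.card T, ∑ j : T, w j⟩ := by
  classical
  rw [RD.free, ← Nat.card_coe_set_eq, Nat.card_eq_fintype_card,
    Finset.sum_subtype (p := (· ∈ T)) _ (by simp)]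

theorem reg_free [IsEmpty K] : F.Reg (.free F.w F.mov) :=
  (congrArg F.Reg (by simp [rd])).mp reg_empty

/-- **renamed fields and additional free fields `τ`** -/
theorem Reg.free (h : F.Reg K₀) (c : R → R' → ℤ) (π : (Λ' → ℂ) → Λ → ℂ) (P : (J' → ℂ) → J → ℂ)
    (φ : J → J') (τ : I → J') (loc : ∀ z ∈ F'.cone, ∃ K₁, F'.RegAt K₁ z)
    (hP : ∀ y, AnalyticAt ℂ P y) (hw : ∀ j r', F'.w (φ j) r' = ∑ r, F.w j r * c r r')
    (he : ∀ t y j, P (tac F'.w t y) j = chi (F'.w (φ j)) t * P y j) (hφ : Injective φ)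
    (hτ : Injective τ) (hd : ∀ j ∈ F.mov, φ j ∉ range τ)
    (hc : ∀ z ∈ F'.cone, (π z.1, P z.2) ∈ F.cone)
    (hv : ∀ z ∈ F'.cone, ∀ η, η ∈ F'.vert z ↔ (∀ j ∉ range φ, j ∉ range τ → η j = 0) ∧
      ∃ η₀ ∈ F.vert (π z.1, P z.2), ∀ j, φ j ∉ range τ → η (φ j) = η₀ j)
    (hn : K₀'.n = K₀.n + Fintype.card I)
    (hγ : ∀ r', K₀'.γ r' = ∑ r, K₀.γ r * c r r' + ∑ i, F'.w (τ i) r') : F'.Reg K₀' := by
  classical
  have w : ∀ t j, chi (F'.w (φ j)) t = chi (F.w j) (t.map c) := fun t j => by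
    rw [chi_map, funext (hw j)]
  let A : J' → J → ℂ := fun j' j => if j' = φ j then 1 else 0
  have e : ∀ η : J → ℂ, (Matrix.of A).mulVec η = extend φ η 0 := fun η => funext fun j' => by
    by_cases b : ∃ j, φ j = j'
    · obtain ⟨j, rfl⟩ := b
      simp [A, Matrix.mulVec, dotProduct, hφ.eq_iff, hφ.extend_apply]
    · rw [extend_apply' _ _ _ b]
      exact Finset.sum_eq_zero fun j _ => mul_eq_zero_of_left (if_neg fun d => b ⟨j, d.symm⟩) _
  have z : ∀ {z}, ∀ η ∈ F.vert z, ∀ j ∈ range τ, extend φ η 0 j = 0 := fun η a j b => by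
    by_cases d : ∃ i, φ i = j
    · obtain ⟨i, rfl⟩ := d
      exact (hφ.extend_apply _ _ i).trans ((RP.mem_vert.1 a).1 i fun f => hd i f b)
    · exact extend_apply' _ _ _ d
  refine reg_of_pe (N := Fin K₀.n ⊕ I) loc (by simp [hn]) fun l _ => PlE.wedge
    (V₁ := fun y => (F.vert (π l, P y)).map (Matrix.of A).mulVecLin)
    (V₂ := fun _ => Submodule.pi (range τ)ᶜ fun _ => ⊥)
    (((h.pe (Fintype.card_fin _).symm (π l)).pull P (TU.map c) (fun y _ => .of_an (hP y))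
      (fun y => hc (l, y)) (fun t y _ => funext fun j => (he t y j).trans (congrArg (· * _) (w t j)))
      (fun _ _ => rfl) w fun _ => rfl).map (fun _ => A) (fun _ _ _ _ => .cst _)
      (fun t _ _ j' j => ?_) (fun _ _ η _ b => funext fun j =>
        (hφ.extend_apply η 0 j).symm.trans (congrFun ((e η).symm.trans b) _)) fun _ _ _ => Iff.rfl)
    (plE_top hτ (fun _ _ _ => Iff.rfl) fun _ => rfl) (fun y _ => ?_) (fun y hy => ?_) fun t => ?_
  · simp only [A]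
    split_ifs with b
    exacts [by rw [b, mul_comm], by simp]
  · refine Submodule.disjoint_def.2 ?_
    rintro _ ⟨η, a, rfl⟩ b
    refine funext fun j => (em (j ∈ range τ)).elim (fun d => ?_) (b j)
    exact (congrFun (e η) j).trans (z η a j d)
  · refine Submodule.ext fun η => Submodule.mem_sup.trans (Iff.trans ?_ (hv (l, y) hy η).symm)
    constructor
    · rintro ⟨_, ⟨η, a, rfl⟩, ξ, b, rfl⟩
      rw [Matrix.mulVecLin_apply, e]
      exact ⟨fun j d f => by rw [Pi.add_apply, extend_apply' _ _ _ d, b j f, Pi.zero_apply, add_zero],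
        η, a, fun j f => by rw [Pi.add_apply, hφ.extend_apply, b _ f, add_zero]⟩
    · rintro ⟨a, η₀, b, d⟩
      refine ⟨_, ⟨η₀, b, e η₀⟩, η - _, fun j f => sub_eq_zero.2 ?_, add_sub_cancel _ _⟩
      by_cases g : ∃ i, φ i = j
      · obtain ⟨i, rfl⟩ := g
        exact (d i f).trans (hφ.extend_apply _ _ i).symm
      · exact (a j g f).trans (extend_apply' η₀ (0 : J' → ℂ) j g).symm
  · rw [chi_map, ← chi_sum, ← chi_add]
    exact congrArg (chi · t) (funext fun r' => by simp [hγ])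

/-- **renamed fields** -/
theorem Reg.ren (h : F.Reg K₀) (c : R → R' → ℤ) (π : (Λ' → ℂ) → Λ → ℂ) (φ : J → J')
    (loc : ∀ z ∈ F'.cone, ∃ K₁, F'.RegAt K₁ z) (hw : ∀ j r', F'.w (φ j) r' = ∑ r, F.w j r * c r r')
    (hφ : Injective φ) (hc : ∀ z ∈ F'.cone, (π z.1, z.2 ∘ φ) ∈ F.cone)
    (hv : ∀ z ∈ F'.cone, ∀ η, η ∈ F'.vert z ↔ (∀ j ∉ range φ, η j = 0) ∧
      η ∘ φ ∈ F.vert (π z.1, z.2 ∘ φ)) : F'.Reg (K₀.up c) :=
  h.free c π (· ∘ φ) φ (Empty.elim : Empty → J') loc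
    (fun y => analyticAt_pi_iff.2 fun j => (ContinuousLinearMap.proj (R := ℂ)
      (φ := fun _ : J' => ℂ) (φ j)).analyticAt y) hw (fun _ _ _ => rfl) hφ (·.elim)
    (fun _ _ a => a.choose.elim) hc (fun z hz η => (hv z hz η).trans (and_congr
      ⟨fun a j b _ => a j b, fun a j b => a j b fun d => d.choose.elim⟩
      ⟨fun a => ⟨_, a, fun _ _ => rfl⟩, fun ⟨_, a, b⟩ =>
        mem_of_eq_of_mem (funext fun j => b j fun d => d.choose.elim) a⟩)) rfl (by simp)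

variable {F₁ : Fam S' Λ' R J K'} {K₂ : RD R}

/-- **the fields `τ` are independent coordinates; they are frozen** -/
theorem Reg.slice (h : F.Reg K₀) (π : (Λ' → ℂ) → Λ → ℂ) (τ : I → J) (hw : F₁.w = F.w)
    (loc : ∀ z ∈ F₁.cone, ∃ K₁, F₁.RegAt K₁ z) (hc : ∀ z ∈ F₁.cone, (π z.1, z.2) ∈ F.cone)
    (hv : ∀ z ∈ F₁.cone, ∀ η, η ∈ F₁.vert z ↔ η ∈ F.vert (π z.1, z.2) ∧ η ∘ τ = 0)
    (hs : ∀ z ∈ F₁.cone, ∀ c : I → ℂ, ∃ η ∈ F.vert (π z.1, z.2), η ∘ τ = c)
    (hn : K₀.n = K₂.n + Fintype.card I) (hγ : K₀.γ = K₂.γ + ∑ i, F.w (τ i)) : F₁.Reg K₂ := by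
  refine reg_of_pe loc (Fintype.card_fin _).symm fun l _ => ?_
  rw [PE, hw]
  exact ((h.pe (N := Fin K₂.n ⊕ I) (by simp [hn]) (π l)).congr (fun y => hc (l, y))
    fun _ _ => rfl).slice τ (fun _ _ => chi_ne _ _) (fun y => hv (l, y)) (fun y => hs (l, y))
    fun t => by rw [hγ, chi_add, chi_sum]

theorem Reg.card_le (h : F.Reg K₀) {z} (hz : z ∈ F.cone) {τ : I → J}
    (hs : ∀ c : I → ℂ, ∃ η ∈ F.vert z, η ∘ τ = c) : Fintype.card I ≤ K₀.n := by
  have := LinearMap.finrank_le_finrank_of_surjective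
    (f := LinearMap.funLeft ℂ ℂ τ ∘ₗ (F.vert z).subtype) fun c => let ⟨η, a, b⟩ := hs c; ⟨⟨η, a⟩, b⟩
  rwa [finrank_fintype_fun_eq_card, h.dim z hz] at this

theorem Reg.slice' (h : F.Reg K₀) (π : (Λ' → ℂ) → Λ → ℂ) (τ : I → J) (hw : F₁.w = F.w)
    (loc : ∀ z ∈ F₁.cone, ∃ K₁, F₁.RegAt K₁ z) (hc : ∀ z ∈ F₁.cone, (π z.1, z.2) ∈ F.cone)
    (hv : ∀ z ∈ F₁.cone, ∀ η, η ∈ F₁.vert z ↔ η ∈ F.vert (π z.1, z.2) ∧ η ∘ τ = 0)
    (hs : ∀ z ∈ F₁.cone, ∀ c : I → ℂ, ∃ η ∈ F.vert (π z.1, z.2), η ∘ τ = c) :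
    F₁.Reg (K₀.sub ⟨Fintype.card I, ∑ i, F.w (τ i)⟩) := by
  rcases F₁.cone.eq_empty_or_nonempty with e | ⟨z, hz⟩
  exacts [reg_of_empty fun z a => e.le a, h.slice π τ hw loc hc hv hs
    (Nat.sub_add_cancel (h.card_le (hc z hz) (hs z hz))).symm (sub_add_cancel _ _).symm]

/-- the same for a set of fields -/
theorem Reg.sliceT (h : F.Reg K₀) (π : (Λ' → ℂ) → Λ → ℂ) (T : Set J) (hw : F₁.w = F.w)
    (loc : ∀ z ∈ F₁.cone, ∃ K₁, F₁.RegAt K₁ z) (hc : ∀ z ∈ F₁.cone, (π z.1, z.2) ∈ F.cone)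
    (hv : ∀ z ∈ F₁.cone, ∀ η, η ∈ F₁.vert z ↔ η ∈ F.vert (π z.1, z.2) ∧ ∀ j ∈ T, η j = 0)
    (hs : ∀ z ∈ F₁.cone, ∀ a : J → ℂ, ∃ η ∈ F.vert (π z.1, z.2), ∀ j ∈ T, η j = a j) :
    F₁.Reg (K₀.sub (.free F.w T)) := by
  classical
  rw [RD.free_eq]
  exact h.slice' π Subtype.val hw loc hc (fun z hz η => (hv z hz η).trans (and_congr_right'
    ⟨fun a => funext fun j => a j j.2, fun a j b => congrFun a ⟨j, b⟩⟩)) fun z hz c =>
      (hs z hz (extend Subtype.val c 0)).imp fun η a => ⟨a.1, funext fun j =>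
        (a.2 j j.2).trans (Subtype.val_injective.extend_apply _ _ j)⟩

theorem Reg.ncard_le (h : F.Reg K₀) {z} (hz : z ∈ F.cone) {T : Set J}
    (hs : ∀ a : J → ℂ, ∃ η ∈ F.vert z, ∀ j ∈ T, η j = a j) : T.ncard ≤ K₀.n := by
  classical
  rw [← Nat.card_coe_set_eq, Nat.card_eq_fintype_card]
  exact h.card_le hz (τ := (Subtype.val : T → J)) fun c =>
    (hs (extend Subtype.val c 0)).imp fun η a => ⟨a.1, funext fun j =>
      (a.2 j j.2).trans (Subtype.val_injective.extend_apply _ _ j)⟩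

/-- the base fields in `T` become free movable fields -/
theorem Reg.freeT (h : F.Reg K₀) (π : (Λ' → ℂ) → Λ → ℂ) (P : (J → ℂ) → J → ℂ) (T : Set J)
    (hw : F₁.w = F.w) (loc : ∀ z ∈ F₁.cone, ∃ K₁, F₁.RegAt K₁ z) (hP : ∀ y, AnalyticAt ℂ P y)
    (he : ∀ t y, P (tac F.w t y) = tac F.w t (P y)) (hd : Disjoint F.mov T)
    (hc : ∀ z ∈ F₁.cone, (π z.1, P z.2) ∈ F.cone)
    (hv : ∀ z ∈ F₁.cone, ∀ η, η ∈ F₁.vert z ↔
      ∃ η₀ ∈ F.vert (π z.1, P z.2), ∀ j ∉ T, η j = η₀ j) : F₁.Reg (K₀.add (.free F.w T)) := by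
  classical
  rw [RD.free_eq]
  exact h.free (fun r => Pi.single r 1) π P id (Subtype.val : T → J) loc hP
    (fun j r => by simp [hw, Pi.single_apply]) (fun t y j => by rw [hw, he]; rfl) injective_id
    Subtype.val_injective (fun j a => by simpa using disjoint_left.1 hd a) hc
    (fun z hz η => by simpa using hv z hz η) rfl fun r => by simp [hw, Pi.single_apply]

/-- **extensions**: the vertical tangent space of `F'` is an extension of the one of `F` by a family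
`V₁` with trivial determinant -/
theorem Reg.ext (h : F.Reg K₀) (hF' : F'.Inv) (c : R → R' → ℤ) (π : (Λ' → ℂ) → Λ → ℂ) (ρ : J → J')
    (loc : ∀ z ∈ F'.cone, ∃ K₁, F'.RegAt K₁ z) (hw : ∀ j r', F'.w (ρ j) r' = ∑ r, F.w j r * c r r')
    (hc : ∀ z ∈ F'.cone, (π z.1, z.2 ∘ ρ) ∈ F.cone)
    (hv : ∀ z ∈ F'.cone, ∀ η, η ∈ F.vert (π z.1, z.2 ∘ ρ) ↔ ∃ η' ∈ F'.vert z, η' ∘ ρ = η)
    {γ₁ : R' → ℤ} (h₁ : ∀ l, PlE N (tac F'.w) (F'.fc l) (fun t j => chi (F'.w j) t)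
      (fun y => F'.vert (l, y) ⊓ LinearMap.ker (LinearMap.funLeft ℂ ℂ ρ)) (chi γ₁))
    (hn : K₀'.n = Fintype.card N + K₀.n) (hγ : ∀ r', K₀'.γ r' = γ₁ r' + ∑ r, K₀.γ r * c r r') :
    F'.Reg K₀' := by
  have w : ∀ t j, chi (F'.w (ρ j)) t = chi (F.w j) (t.map c) := fun t j => by
    rw [chi_map, funext (hw j)]
  refine reg_of_pe (N := N ⊕ Fin K₀.n) loc (by simp [hn]) fun l _ => ?_
  have a : PlE (Fin K₀.n) (tac F'.w) (F'.fc l) (fun t j => chi (F'.w (ρ j)) t)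
      (fun y => F.vert (π l, y ∘ ρ)) fun t => chi K₀.γ (t.map c) :=
    (h.pe (Fintype.card_fin _).symm (π l)).pull (· ∘ ρ) (TU.map c) (fun y _ => .of_an
      (analyticAt_pi_iff.2 fun j => (ContinuousLinearMap.proj (R := ℂ)
        (φ := fun _ : J' => ℂ) (ρ j)).analyticAt y)) (fun y => hc (l, y))
      (fun t y _ => funext fun j => congrArg (· * _) (w t j)) (fun _ _ => rfl) w fun _ => rfl
  refine (h₁ l).ext a (hF'.locPl loc fun y hy => ?_) ρ (fun _ _ => rfl) (fun _ _ => chi_ne _ _)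
    (fun t _ => hF'.fc_tac t) (fun t _ _ => hF'.vert_tac t) (fun _ _ _ => Iff.rfl)
    (fun y => hv (l, y)) fun t => ?_
  · obtain ⟨_, b⟩ := h₁ l
    obtain ⟨_, d⟩ := a
    exact ((b.pl y hy).exact (d.pl y hy) ρ (fun _ => Iff.rfl) (hv (l, y) hy)).choose_spec.1.finrank
  · rw [chi_map, ← chi_add]
    exact congrArg (chi · t) (funext hγ)

end Fam

namespace Ch

variable {ι : Type} [Fintype ι] [DecidableEq ι] {ch : Ch ι J} {F : Fam S Λ R J K} {ℓ : R → ι → ℤ}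

variable (ch) in
/-- the Euler characteristic of a vector bundle of rank `n` with determinant of weight `γ` -/
def euD (ℓ : R → ι → ℤ) (n : ℤ) (γ : R → ℤ) : ℤ := n * (1 - ch.g) + ∑ i, (∑ r, γ r * ℓ r i) * ch.m i

theorem euD_add (n n' : ℤ) (γ γ' : R → ℤ) :
    ch.euD ℓ (n + n') (γ + γ') = ch.euD ℓ n γ + ch.euD ℓ n' γ' := by
  simp only [euD, Pi.add_apply, add_mul, Finset.sum_add_distrib]
  ring

theorem euD_sub (n n' : ℤ) (γ γ' : R → ℤ) :
    ch.euD ℓ (n - n') (γ - γ') = ch.euD ℓ n γ - ch.euD ℓ n' γ' := by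
  rw [eq_sub_iff_add_eq, ← euD_add, sub_add_cancel, sub_add_cancel]

theorem euD_one (γ : R → ℤ) : ch.euD ℓ 1 γ = ch.eu fun i => ∑ r, γ r * ℓ r i := by
  rw [euD, eu]
  ring

theorem euD_sum {α : Type} (s : Finset α) (γ : α → R → ℤ) :
    ch.euD ℓ s.card (∑ a ∈ s, γ a) = ∑ a ∈ s, ch.eu fun i => ∑ r, γ a r * ℓ r i := by
  classical
  exact Finset.induction_on s (by simp [euD]) fun a s h e => by
    rw [Finset.sum_insert h, Finset.sum_insert h, Finset.card_insert_of_notMem h, Nat.cast_add,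
      add_comm (s.card : ℤ), euD_add, e, Nat.cast_one, euD_one]

theorem HasWt.eu (h : ch.HasWt F ℓ) (j : J) :
    (ch.eu fun i => ∑ r, F.w j r * ℓ r i) = ch.eu fun i => ch.a (some j) i - ch.b j i :=
  congrArg ch.eu (funext fun i => (h j i).symm)

theorem euD_add' (D D' : RD R) :
    ch.euD ℓ (D.add D').n (D.add D').γ = ch.euD ℓ D.n D.γ + ch.euD ℓ D'.n D'.γ := by
  rw [← euD_add, Nat.cast_add]

theorem euD_sub' {D D' : RD R} (h : D'.n ≤ D.n) :
    ch.euD ℓ (D.sub D').n (D.sub D').γ = ch.euD ℓ D.n D.γ - ch.euD ℓ D'.n D'.γ := by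
  rw [← euD_sub, Nat.cast_sub h]

open Classical in
theorem euD_free (h : ch.HasWt F ℓ) (T : Set J) : ch.euD ℓ (RD.free F.w T).n (RD.free F.w T).γ =
    ∑ j with j ∈ T, ch.eu fun i => ch.a (some j) i - ch.b j i := by
  simp only [← h.eu]
  rw [Set.ncard_eq_toFinset_card', ← euD_sum]
  congr
  ext
  simp

theorem euD_up {ℓ' : R' → ι → ℤ} {c : R → R' → ℤ} (h : ∀ r i, ℓ r i = ∑ r', c r r' * ℓ' r' i)
    (n : ℤ) (γ : R → ℤ) : ch.euD ℓ' n (fun r' => ∑ r, γ r * c r r') = ch.euD ℓ n γ := by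
  simp only [euD, h, Finset.mul_sum, Finset.sum_mul, mul_assoc]
  exact congrArg _ (Finset.sum_congr rfl fun _ _ => Finset.sum_comm)

open Classical in
theorem rk_eq (K₀ : RD R) : ch.rk F ℓ K₀ = ∑ j with j ∈ F.mov,
    finrank ℂ (ch.Th j) * ch.eu (fun i => ch.a (some j) i) - ch.euD ℓ K₀.n K₀.γ := rfl

open Classical in
theorem euD_rd (h : ch.HasWt F ℓ) {K₁ : Set K} (hn : K₁.ncard ≤ F.mov.ncard) :
    ch.euD ℓ (F.rd K₁).n (F.rd K₁).γ = ∑ j with j ∈ F.mov, ch.eu (fun i => ch.a (some j) i - ch.b j i)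
      - ∑ k with k ∈ K₁, ch.eu (F.dk ℓ k) := by
  simp only [Fam.rd, Nat.cast_sub hn, euD_sub, ← h.eu]
  rw [Set.ncard_eq_toFinset_card', Set.ncard_eq_toFinset_card', ← euD_sum]
  exact congrArg₂ (· - ·) (by congr; ext; simp) (Eq.trans (by congr; ext; simp) (euD_sum _ _))

open Classical in
/-- the rank of the obstruction bundle for independent equations -/
theorem rk_rd (h : ch.HasWt F ℓ) {K₁ : Set K} (hn : K₁.ncard ≤ F.mov.ncard) :
    ch.rk F ℓ (F.rd K₁) = ∑ j with j ∈ F.mov, (finrank ℂ (ch.Th j) * ch.eu (fun i => ch.a (some j) i) -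
      ch.eu fun i => ch.a (some j) i - ch.b j i) + ∑ k with k ∈ K₁, ch.eu (F.dk ℓ k) := by
  rw [rk_eq, euD_rd h hn, Finset.sum_sub_distrib]
  ring

end Ch

end Vale.Agent.P269
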