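import Vale.Agent.P287Q.G.Vir.Ob

/-!
# Obstruction spaces: sub-tests and nodes (the part without rank counts)
-/

set_option linter.unusedSectionVars false

namespace Vale.Agent.P269.Vir

open Set Function Topology Filter Module Cv

variable {J K Z Z' : Type} [Fintype J] {Θ Θ' : J → Type} [∀ j, AddCommGroup (Θ j)]
  [∀ j, Module ℂ (Θ j)] [∀ j, AddCommGroup (Θ' j)] [∀ j, Module ℂ (Θ' j)]
  {X : Type} [TopologicalSpace X] {R : RS X} {N T : Finset (X × X)} {c : CD R K Z Θ}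
  {L : J → LB R} {Lk : K → LB R} {G : LB R}
  {i : ∀ j, Θ' j →ₗ[ℂ] Θ j} {ζ : Z' → Z} {pw' : Z' → ∀ j, Θ' j}

theorem mem_H0_union [DecidableEq X] {A : LB R} {s : X → ℂ} :
    s ∈ H0 (N ∪ T) A ↔ s ∈ H0 N A ∧ ∀ n ∈ T, s n.1 = s n.2 :=
  ⟨fun h => ⟨H0_anti Finset.subset_union_left h, fun n hn => h.2 n (Finset.mem_union_right _ hn)⟩,
    fun h => ⟨h.1.1, fun n hn => (Finset.mem_union.1 hn).elim (h.1.2 n) (h.2 n)⟩⟩

/-- the jumps at the pairs of `T` -/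
def jump (T : Finset (X × X)) : (X → ℂ) →ₗ[ℂ] T → ℂ where
  toFun s n := s n.1.1 - s n.1.2
  map_add' _ _ := funext fun _ => by simp only [Pi.add_apply]; ring
  map_smul' _ _ := funext fun _ => by simp only [Pi.smul_apply, smul_eq_mul, RingHom.id_apply]; ring

theorem surj_of_rank {F F' O O' : Type} [AddCommGroup F] [Module ℂ F] [AddCommGroup F']
    [Module ℂ F'] [AddCommGroup O] [Module ℂ O] [AddCommGroup O'] [Module ℂ O']
    [FiniteDimensional ℂ F] [FiniteDimensional ℂ O] [FiniteDimensional ℂ O'] (p : F →ₗ[ℂ] F')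
    (d : F →ₗ[ℂ] O) (r : O →ₗ[ℂ] O') (hp : Surjective p)
    (hk : ∀ κ, r κ = 0 → ∃ Y, p Y = 0 ∧ d Y = κ)
    (e : finrank ℂ O + finrank ℂ F' = finrank ℂ O' + finrank ℂ F) : Surjective r := by
  have a1 := (Submodule.finrank_mono (show LinearMap.ker r ≤ (LinearMap.ker p).map d from hk)).trans
    (Submodule.finrank_map_le _ _)
  have a2 := LinearMap.finrank_range_add_finrank_ker p
  have a3 := LinearMap.finrank_range_add_finrank_ker r
  rw [LinearMap.range_eq_top.2 hp, finrank_top] at a2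
  exact LinearMap.range_eq_top.1 (Submodule.eq_top_of_finrank_eq
    (le_antisymm (Submodule.finrank_le _) (by omega)))

namespace CD

theorem Ok.sub (h : c.Ok N L Lk G) (hpw : ∀ z, ∀ j ∈ c.mov, c.pw (ζ z) j = i j (pw' z j))
    (h1 : ∀ x, ∀ j ∈ c.mov, ∃ m, c.tv j (i j m) x ≠ 0) (h2 : ∀ x k, ∃ z, c.tot k (ζ z) x ≠ 0) :
    (c.sub i ζ pw').Ok N L Lk G :=
  ⟨fun j hj _ => h.tv_mem j hj _, fun k _ j hj => h.D_mem k _ j hj, fun k _ => h.tot_mem k _,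
    fun x => (h.reg x).imp fun _ a => ⟨h1 x, h2 x, fun k z j hj => by
      have := a.rel k (ζ z) j hj
      rw [hpw z j hj] at this
      exact this, a.jac⟩, h.det⟩

theorem resG_dG (hpw : ∀ z, ∀ j ∈ c.mov, c.pw (ζ z) j = i j (pw' z j)) {Y : ∀ j, Θ j →ₗ[ℂ] X → ℂ}
    (hY : ∀ j ∉ c.mov, Y j = 0) :
    resG i ζ (c.dG Y) = (c.sub i ζ pw').dG fun j => Y j ∘ₗ i j :=
  Prod.ext rfl (funext₂ fun k z => Finset.sum_congr rfl fun j _ => by
    change c.D k (ζ z) j * Y j (c.pw (ζ z) j) = c.D k (ζ z) j * Y j (i j (pw' z j))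
    by_cases hj : j ∈ c.mov
    · rw [hpw z j hj]
    · simp [hY j hj])

/-- the pointwise form of `resG_dG` -/
theorem sub_dEq (hpw : ∀ z, ∀ j ∈ c.mov, c.pw (ζ z) j = i j (pw' z j)) {κ : Gl X Θ K Z} {x : X}
    {Y : ∀ j, Θ j →ₗ[ℂ] ℂ} (hY : ∀ j ∉ c.mov, Y j = 0) (e : (c.pt x).dEq c.pw Y = evG x κ) :
    ((c.sub i ζ pw').pt x).dEq pw' (fun j => Y j ∘ₗ i j) = evG x (resG i ζ κ) :=
  Prod.ext (funext₂ fun j m => congrFun (congrFun (congrArg Prod.fst e) j) (i j m.1, i j m.2))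
    (funext₂ fun k z => Eq.trans (Finset.sum_congr rfl fun j _ => by
      change c.D k (ζ z) j x * Y j (i j (pw' z j)) = c.D k (ζ z) j x * Y j (c.pw (ζ z) j)
      by_cases hj : j ∈ c.mov
      · rw [hpw z j hj]
      · simp [hY j hj]) (congrFun (congrFun (congrArg Prod.snd e) k) (ζ z)))

theorem resG_mem (hpw : ∀ z, ∀ j ∈ c.mov, c.pw (ζ z) j = i j (pw' z j)) {κ : Gl X Θ K Z}
    (hκ : κ ∈ c.Ob N L Lk) : resG i ζ κ ∈ (c.sub i ζ pw').Ob N L Lk :=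
  ⟨fun j _ => hκ.1 j _, fun k _ => hκ.2.1 k _, fun x =>
    let ⟨Y, a, e⟩ := PD.mem_Im.1 (hκ.2.2 x)
    PD.mem_Im.2 ⟨fun j => Y j ∘ₗ i j, fun j hj => by simp only [a j hj, LinearMap.zero_comp],
      sub_dEq hpw a e⟩⟩

theorem Ok.resG_eq_zero (h : c.Ok N L Lk G) (h' : (c.sub i ζ pw').Ok N L Lk G)
    (hpw : ∀ z, ∀ j ∈ c.mov, c.pw (ζ z) j = i j (pw' z j)) {κ : Gl X Θ K Z}
    (hκ : κ ∈ c.Ob N L Lk) :
    resG i ζ κ = 0 ↔ ∃ Y ∈ c.Fld N L, (∀ j, Y j ∘ₗ i j = 0) ∧ c.dG Y = κ := by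
  refine ⟨fun h0 => ?_, ?_⟩
  · have key : ∀ x, ∃ Y : ∀ j, Θ j →ₗ[ℂ] ℂ, (∀ j ∉ c.mov, Y j = 0) ∧ (∀ j m, Y j (i j m) = 0) ∧
        (c.pt x).dEq c.pw Y = evG x κ := fun x => by
      obtain ⟨Y, a, e⟩ := PD.mem_Im.1 (hκ.2.2 x)
      have e' := sub_dEq hpw a e
      rw [h0, map_zero] at e'
      obtain ⟨η, b, d⟩ := PD.exists_eta (pw := pw') (h'.tv_ne x) (Y := fun j => Y j ∘ₗ i j)
        (fun j hj => by rw [a j hj, LinearMap.zero_comp]) (congrArg Prod.fst e')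
      have z : (fun k => ∑ j, c.g k j x * η j) = 0 :=
        PD.nrm_injective (h'.tot_ne x) (by
          rw [map_zero, ← e', d]
          exact ((h'.rel x).dEq_tv b).symm)
      refine ⟨Y - fun j => η j • (c.pt x).tv j, fun j hj => by simp [a j hj, b j hj],
        fun j m => sub_eq_zero.2 (LinearMap.congr_fun (congrFun d j) m), ?_⟩
      rw [map_sub, (h.rel x).dEq_tv b, z, map_zero, sub_zero, e]
    choose Y a b e using key
    have z : ∀ j ∉ c.mov, (LinearMap.pi fun x => Y x j) = 0 := fun j hj =>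
      LinearMap.ext fun m => funext fun x => by simp [a x j hj]
    refine ⟨fun j => LinearMap.pi fun x => Y x j, ⟨z, fun j m => ?_⟩,
      fun j => LinearMap.ext fun m => funext fun x => b x j m,
      ext_evG fun x => (evG_dG _ x).trans (e x)⟩
    by_cases hj : j ∈ c.mov
    · refine mem_of_bpf (h'.tv_mem j hj) (fun x => (h'.tv_ne x) j hj) fun m' => ?_
      refine (congrArg (· ∈ H0 N (L j * c.B j * c.B j)) (funext fun x => ?_)).mp
        (hκ.1 j (m, i j m'))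
      refine (congrFun (congrFun (congrArg Prod.fst (e x)) j) (m, i j m')).symm.trans ?_
      change c.tv j (i j m') x * Y x j m - c.tv j m x * Y x j (i j m') =
        Y x j m * c.tv j (i j m') x
      rw [b, mul_zero, sub_zero, mul_comm]
    · simp only [z j hj]
      exact zero_mem _
  · rintro ⟨Y, a, b, rfl⟩
    rw [resG_dG hpw a.1, show (fun j => Y j ∘ₗ i j) = 0 from funext b, map_zero]

theorem Ok.eq_zero_of_sub (h' : (c.sub i ζ pw').Ok N L Lk G) {Y : ∀ j, Θ j →ₗ[ℂ] X → ℂ}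
    (hY : ∀ j ∉ c.mov, Y j = 0) (h0 : ∀ j, Y j ∘ₗ i j = 0) (h1 : (c.dG Y).1 = 0) : Y = 0 :=
  funext fun j => by
    by_cases hj : j ∈ c.mov
    · refine LinearMap.ext fun m => funext fun x => ?_
      obtain ⟨m', hm⟩ := (h'.tv_ne x) j hj
      have a : c.tv j (i j m') x * Y j m x - c.tv j m x * Y j (i j m') x = 0 :=
        congrFun (congrFun (congrFun h1 j) (m, i j m')) x
      have b : Y j (i j m') x = 0 := congrFun (LinearMap.congr_fun (h0 j) m') x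
      rw [b, mul_zero, sub_zero] at a
      exact (mul_eq_zero.1 a).resolve_left hm
    · exact hY j hj

theorem Ok.dG_eq_zero (h : c.Ok N L Lk G) {Y : ∀ j, Θ j →ₗ[ℂ] X → ℂ} (hY : Y ∈ c.Fld N L) :
    c.dG Y = 0 ↔ ∃ η : J → X → ℂ, (∀ j ∉ c.mov, η j = 0) ∧ (∀ j, η j ∈ H0 N (L j)) ∧
      (∀ k, ∑ j, c.g k j * η j = 0) ∧ c.tG η = Y := by
  refine ⟨fun h0 => ?_, ?_⟩
  · obtain ⟨η, a, b, rfl⟩ := h.exists_tG hY (congrArg Prod.fst h0)
    refine ⟨η, a, b, fun k => funext fun x => ?_, rfl⟩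
    rw [h.dG_tG a] at h0
    obtain ⟨z, hz⟩ := (h.tot_ne x) k
    exact (mul_eq_zero.1 (congrFun (congrFun (congrFun (congrArg Prod.snd h0) k) z) x)).resolve_right
      hz
  · rintro ⟨η, a, -, b, rfl⟩
    rw [h.dG_tG a, show (fun k => ∑ j, c.g k j * η j) = 0 from funext b, map_zero]

theorem mem_Ob_union [DecidableEq X] {κ : Gl X Θ K Z} : κ ∈ c.Ob (N ∪ T) L Lk ↔
    κ ∈ c.Ob N L Lk ∧ ∀ n ∈ T, evG n.1 κ = evG n.2 κ :=
  ⟨fun h => ⟨⟨fun j m => (mem_H0_union.1 (h.1 j m)).1, fun k z => (mem_H0_union.1 (h.2.1 k z)).1,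
    h.2.2⟩, fun n hn => Prod.ext (funext₂ fun j m => (mem_H0_union.1 (h.1 j m)).2 n hn)
      (funext₂ fun k z => (mem_H0_union.1 (h.2.1 k z)).2 n hn)⟩,
    fun h => ⟨fun j m => mem_H0_union.2 ⟨h.1.1 j m, fun n hn =>
      congrFun (congrFun (congrArg Prod.fst (h.2 n hn)) j) m⟩, fun k z => mem_H0_union.2
        ⟨h.1.2.1 k z, fun n hn => congrFun (congrFun (congrArg Prod.snd (h.2 n hn)) k) z⟩,
      h.1.2.2⟩⟩

variable [T2Space X] [CompactSpace X] [Finite K] [∀ j, FiniteDimensional ℂ (Θ j)]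
  [∀ j, FiniteDimensional ℂ (Θ' j)]

theorem range_jump [DecidableEq X] (hd : Disjoint N T) {A : LB R} (h1 : Cv.h1 (N ∪ T) A = 0) :
    LinearMap.range (jump T ∘ₗ (H0 N A).subtype) = ⊤ := by
  have a1 := LinearMap.finrank_range_add_finrank_ker (jump T ∘ₗ (H0 N A).subtype)
  have a2 : finrank ℂ ((LinearMap.ker (jump T ∘ₗ (H0 N A).subtype)).map (H0 N A).subtype) ≤
      finrank ℂ (H0 (N ∪ T) A) := Submodule.finrank_mono (by
    rintro _ ⟨s, hs, rfl⟩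
    exact mem_H0_union.2 ⟨s.2, fun n hn => sub_eq_zero.1 (congrFun hs ⟨n, hn⟩)⟩)
  rw [Submodule.finrank_map_subtype_eq] at a2
  have a3 := h1_nonneg N A
  rw [h1_eq] at a3 h1
  rw [Finset.card_union_of_disjoint hd] at h1
  refine Submodule.eq_top_of_finrank_eq (le_antisymm (Submodule.finrank_le _) ?_)
  rw [finrank_fintype_fun_eq_card, Fintype.card_coe]
  push_cast at h1
  omega

theorem exists_jump [DecidableEq X] (hd : Disjoint N T) {A : LB R} (h1 : Cv.h1 (N ∪ T) A = 0)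
    (w : X × X → ℂ) : ∃ s ∈ H0 N A, ∀ n ∈ T, s n.1 - s n.2 = w n :=
  let ⟨s, e⟩ := LinearMap.range_eq_top.1 (range_jump hd h1) fun n => w n
  ⟨s.1, s.2, fun n hn => congrFun e ⟨n, hn⟩⟩

theorem Ok.exists_jump [DecidableEq X] (hd : Disjoint N T) (h : c.Ok (N ∪ T) L Lk G)
    (h1 : ∀ j ∈ c.mov, Cv.h1 (N ∪ T) (L j * c.B j) = 0) {w : X × X → Fib Θ K Z}
    (hw : ∀ n ∈ T, w n ∈ c.Im n.1) :
    ∃ Y ∈ c.Fld N L, ∀ n ∈ T, evG n.1 (c.dG Y) - evG n.2 (c.dG Y) = w n := by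
  choose W a e using fun n : T => PD.mem_Im.1 (hw n n.2)
  have : ∀ j, ∃ Y : Θ j →ₗ[ℂ] X → ℂ, (j ∉ c.mov → Y = 0) ∧ (∀ m, Y m ∈ H0 N (L j * c.B j)) ∧
      ∀ (n : T) m, Y m n.1.1 - Y m n.1.2 = W n j m := fun j => by
    by_cases hj : j ∈ c.mov
    · obtain ⟨ρ, hρ⟩ := LinearMap.exists_rightInverse_of_surjective _ (range_jump hd (h1 j hj))
      exact ⟨(H0 N (L j * c.B j)).subtype ∘ₗ ρ ∘ₗ LinearMap.pi fun n => W n j,
        fun b => absurd hj b, fun m => (ρ _).2, fun n m =>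
          congrFun (LinearMap.congr_fun hρ fun n => W n j m) n⟩
    · exact ⟨0, fun _ => rfl, fun _ => zero_mem _, fun n m => by simp [a n j hj]⟩
  choose Y b d f using this
  refine ⟨Y, ⟨b, d⟩, fun n hn => ?_⟩
  have m := Finset.mem_union_right N hn
  rw [evG_dG, evG_dG, ← PD.dEq_congr (d := c.pt n.1) (d' := c.pt n.2) (mov := c.mov)
    (fun j hj => LinearMap.ext fun t => (h.tv_mem j hj t).2 n m)
    (fun k z j hj => (h.D_mem k z j hj).2 n m)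
    (fun j hj => LinearMap.ext fun t => by simp [b j hj]), ← map_sub, ← e ⟨n, hn⟩]
  exact congrArg _ (funext fun j => LinearMap.ext fun t => f j ⟨n, hn⟩ t)

end CD

end Vale.Agent.P269.Vir
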