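import Vale.Agent.P287Q.G.Vir.Defs
import Vale.Agent.P269.Gen.Act

/-!
# Transport of the regularity data along a linear projection
-/

set_option linter.unusedSectionVars false

namespace Vale.Agent.P269

open Set Function Topology Filter Module

variable {S Λ R J K S' Λ' R' J' K' : Type} [Fintype S] [Fintype Λ] [Fintype R] [Fintype J]
  [Fintype K] [Fintype S'] [Fintype Λ'] [Fintype R'] [Fintype J'] [Fintype K']

namespace RP

variable {n : ℕ} {V : Submodule ℂ (J → ℂ)} {V' : Submodule ℂ (J' → ℂ)} {q : (Fin n → J) → ℂ}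
  {Ψ Ψ' : (J → ℂ) →ₗ[ℂ] J' → ℂ}

/-- `q` are the coordinates of a generator of the top exterior power of `V` -/
def IsMV (V : Submodule ℂ (J → ℂ)) (q : (Fin n → J) → ℂ) : Prop :=
  ∃ (c : ℂ) (v : Basis (Fin n) ℂ V), c ≠ 0 ∧ ∀ s, q s = c * (Matrix.of fun i k => (v i).1 (s k)).det

open Classical in
/-- the image of a tensor under a linear map -/
noncomputable def push (Ψ : (J → ℂ) →ₗ[ℂ] J' → ℂ) (q : (Fin n → J) → ℂ) (s : Fin n → J') : ℂ :=
  ∑ σ : Fin n → J, (∏ k, Ψ (Pi.single (σ k) 1) (s k)) * q σ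

theorem push_eq {c : ℂ} {v : Fin n → J → ℂ}
    (h : ∀ s, q s = c * (Matrix.of fun i k => v i (s k)).det) (s : Fin n → J') :
    push Ψ q s = c * (Matrix.of fun i k => Ψ (v i) (s k)).det := by
  classical
  have e : (Matrix.of fun i k => Ψ (v i) (s k)).transpose =
      fun k => ∑ j, Ψ (Pi.single j 1) (s k) • fun i => v i j := by
    funext k i
    conv_lhs => rw [Matrix.transpose_apply, Matrix.of_apply, pi_eq_sum_univ' (v i)]
    simp [mul_comm]
  rw [← Matrix.det_transpose, e]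
  change _ = c * (Matrix.detRowAlternating (R := ℂ) (n := Fin n)).toMultilinearMap _
  rw [MultilinearMap.map_sum, Finset.mul_sum, push]
  refine Finset.sum_congr rfl fun σ _ => ?_
  rw [MultilinearMap.map_smul_univ, h, ← Matrix.det_transpose, smul_eq_mul, mul_left_comm]
  rfl

theorem IsMV.push (h : IsMV V q) (b : BijOn Ψ V V') : IsMV V' (push Ψ q) :=
  let ⟨c, v, hc, e⟩ := h
  ⟨c, v.map (LinearEquiv.ofBijective (Ψ.restrict b.mapsTo) b.bijective), hc, push_eq e⟩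

theorem IsMV.congr (h : IsMV V q) (b : ∀ η ∈ V, Ψ η = Ψ' η) : RP.push Ψ q = RP.push Ψ' q :=
  let ⟨_, v, _, e⟩ := h
  funext fun s => by simp only [push_eq e, b _ (v _).2]

theorem exists_inv {P : (J' → ℂ) →ₗ[ℂ] J → ℂ} (h : InjOn P V') :
    ∃ Ψ : (J → ℂ) →ₗ[ℂ] J' → ℂ, ∀ η ∈ V', Ψ (P η) = η :=
  let ⟨g, e⟩ := (P ∘ₗ V'.subtype).exists_leftInverse_of_injective
    (LinearMap.ker_eq_bot.2 fun a b c => Subtype.ext (h a.2 b.2 c))
  ⟨V'.subtype ∘ₗ g, fun η a => congrArg Subtype.val (LinearMap.congr_fun e ⟨η, a⟩)⟩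

theorem bijOn_inv {P : (J' → ℂ) →ₗ[ℂ] J → ℂ} (h : BijOn P V' V) (e : ∀ η ∈ V', Ψ (P η) = η) :
    BijOn Ψ V V' :=
  h.symm ⟨fun η a => by obtain ⟨x, b, rfl⟩ := h.surjOn a; rw [e x b], e⟩

variable {F : Fam S Λ R J K}

theorem mem_vert {z : (Λ → ℂ) × (J → ℂ)} {η : J → ℂ} :
    η ∈ F.vert z ↔ (∀ j ∉ F.mov, η j = 0) ∧ ∀ k, ∑ j, F.jac z k j * η j = 0 := by
  simp only [Fam.vert, Submodule.mem_inf, Submodule.mem_iInf, LinearMap.mem_ker,
    LinearMap.proj_apply, mem_compl_iff, LinearMap.sum_apply, LinearMap.smul_apply, smul_eq_mul,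
    Fam.jac]

theorem vert_act (hF : F.Inv) {t : (S → ℂ) × (R → ℂ)} (ht : IsUnit t) {z : (Λ → ℂ) × (J → ℂ)}
    {η : J → ℂ} (h : η ∈ F.vert z) : (F.actT t (z.1, η)).2 ∈ F.vert (F.actT t z) := by
  obtain ⟨a, b⟩ := mem_vert.1 h
  refine mem_vert.2 ⟨fun j hj => by simp only [Wt.actT, a j hj, mul_zero], fun k => ?_⟩
  have h1 := Vir.hasDerivAt_eval ((F.fib (F.actT t z).1).F k) (F.actT t z).2 (F.actT t (z.1, η)).2
  have h2 := (Vir.hasDerivAt_eval ((F.fib z.1).F k) z.2 η).const_mul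
    ((∏ i, t.1 i ^ F.wk k i) * ∏ i, t.2 i ^ F.χ k i)
  refine (h1.unique (h2.congr_of_eventuallyEq (.of_forall fun ε => ?_))).trans
    (mul_eq_zero_of_right _ (b k))
  refine Eq.trans ?_ (hF.eval_act ht (z.1, fun j => z.2 j + ε * η j) k)
  exact congrArg (MvPolynomial.eval · _) (funext fun j => by simp only [Wt.actT]; ring)

/-- an analytic family of left inverses -/
theorem exists_an {l : Λ → ℂ} {y₀ : J → ℂ} {P : (J → ℂ) →ₗ[ℂ] J' → ℂ}
    (h : InjOn P (F.vert (l, y₀))) : ∃ Ψ : (J → ℂ) → (J' → ℂ) →L[ℂ] J → ℂ, AnalyticAt ℂ Ψ y₀ ∧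
      ∀ᶠ y in 𝓝 y₀, ∀ η ∈ F.vert (l, y), Ψ y (P η) = η := by
  classical
  let W := (J' → ℂ) × (K → ℂ) × (J → ℂ)
  let L : (J → ℂ) → (J → ℂ) →L[ℂ] W := fun y => P.toContinuousLinearMap.prod
    ((0 : (J → ℂ) →L[ℂ] K → ℂ).prod (.pi fun j => if j ∈ F.mov then 0 else .proj j)) +
    ∑ k, ∑ j, F.jac (l, y) k j • (0 : (J → ℂ) →L[ℂ] J' → ℂ).prod
      (((ContinuousLinearMap.proj j : (J → ℂ) →L[ℂ] ℂ).smulRight (Pi.single k 1 : K → ℂ)).prod 0)
  have eL : ∀ y η, L y η = (P η, fun k => ∑ j, F.jac (l, y) k j * η j,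
      fun j => if j ∈ F.mov then 0 else η j) := fun y η => by
    refine Prod.ext ?_ (Prod.ext (funext fun k => ?_) (funext fun j => ?_))
    · simp [L, W, Prod.fst_sum]
    · simp [L, W, Prod.fst_sum, Prod.snd_sum, Finset.sum_apply, Pi.single_apply]
    · by_cases a : j ∈ F.mov <;> simp [L, W, Prod.snd_sum, a]
  have aL : AnalyticAt ℂ L y₀ := analyticAt_const.add (Finset.analyticAt_fun_sum _ fun k _ =>
    Finset.analyticAt_fun_sum _ fun j _ =>
      (show AnalyticAt ℂ (fun y => F.jac (l, y) k j) y₀ from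
        AnalyticOnNhd.eval_mvPolynomial (MvPolynomial.pderiv j ((F.fib l).F k)) y₀ trivial).fun_smul
          analyticAt_const)
  have hv : ∀ y η, η ∈ F.vert (l, y) ↔ (L y η).2 = 0 := fun y η => by
    rw [mem_vert, eL, Prod.mk_eq_zero, and_comm]
    exact and_congr funext_iff.symm ⟨fun a => funext fun j => by
      split_ifs with b; exacts [rfl, a j b], fun a j b => (if_neg b).symm.trans (congrFun a j)⟩
  obtain ⟨A, hA⟩ := (L y₀).toLinearMap.exists_leftInverse_of_injective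
    (LinearMap.ker_eq_bot'.2 fun η a => h ((hv _ _).2 (congrArg Prod.snd a)) (zero_mem _)
      (((congrArg Prod.fst (eL y₀ η)).symm.trans (congrArg Prod.fst a)).trans (map_zero P).symm))
  let N : (J → ℂ) → (J → ℂ) →L[ℂ] J → ℂ := fun y => A.toContinuousLinearMap ∘L L y
  have n0 : N y₀ = (1 : ((J → ℂ) →L[ℂ] J → ℂ)ˣ) :=
    ContinuousLinearMap.ext fun η => LinearMap.congr_fun hA η
  have aN : AnalyticAt ℂ N y₀ :=
    ((ContinuousLinearMap.compL ℂ (J → ℂ) W (J → ℂ) A.toContinuousLinearMap).analyticAt _).comp aL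
  refine ⟨fun y => Ring.inverse (N y) ∘L A.toContinuousLinearMap ∘L .inl ℂ _ _,
    (((ContinuousLinearMap.compL ℂ (J' → ℂ) (J → ℂ) (J → ℂ)).flip
      (A.toContinuousLinearMap ∘L .inl ℂ _ _)).analyticAt _).comp
      ((n0 ▸ analyticAt_inverse 1 : AnalyticAt ℂ Ring.inverse (N y₀)).comp aN),
    (aN.continuousAt.eventually (Units.isOpen.mem_nhds ⟨1, n0.symm⟩)).mono fun y a η b => ?_⟩
  have c : ((P η, 0) : W) = L y η :=
    Prod.ext (congrArg Prod.fst (eL y η)).symm ((hv _ _).1 b).symm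
  change Ring.inverse (N y) (A (P η, 0)) = η
  rw [c]
  exact DFunLike.congr_fun (Ring.inverse_mul_cancel _ a) η

end RP

open RP

/-- the data after a change of the torus -/
@[reducible] def RD.up (K₀ : RD R) (c : R → R' → ℤ) : RD R' := ⟨K₀.n, fun r' => ∑ r, K₀.γ r * c r r'⟩

theorem RD.up_id [DecidableEq R] (K₀ : RD R) : (K₀.up fun r => Pi.single r 1) = K₀ := by
  simp [RD.up, Pi.single_apply]

/-- **Transport of the regularity data.** -/
theorem Fam.Reg.of_proj {F : Fam S Λ R J K} {F' : Fam S' Λ' R' J' K'} {K₀ : RD R} (hR : F.Reg K₀)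
    (hF' : F'.Inv) (c : R → R' → ℤ) (π : (Λ' → ℂ) → Λ → ℂ) (P : (J' → ℂ) →ₗ[ℂ] J → ℂ)
    (loc : ∀ z ∈ F'.cone, ∃ K₁, F'.RegAt K₁ z) (hc : ∀ z ∈ F'.cone, (π z.1, P z.2) ∈ F.cone)
    (hv : ∀ z ∈ F'.cone, BijOn P (F'.vert z) (F.vert (π z.1, P z.2)))
    (he : ∀ t : R' → ℂ, IsUnit t → ∀ y j, P (fun j' => (∏ r', t r' ^ F'.w j' r') * y j') j =
      (∏ r', t r' ^ ∑ r, F.w j r * c r r') * P y j) : F'.Reg (K₀.up c) := by
  classical
  refine ⟨loc, fun z hz => (LinearEquiv.ofBijective (P.restrict (hv z hz).mapsTo)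
    (hv z hz).bijective).finrank_eq.trans (hR.dim _ (hc z hz)), fun l _ => ?_⟩
  by_cases h0 : ∃ y, (l, y) ∈ F'.cone
  swap
  · exact ⟨0, fun y a => (h0 ⟨y, a⟩).elim, fun _ y a => (h0 ⟨y, a⟩).elim,
      fun _ _ y a => (h0 ⟨y, a⟩).elim⟩
  obtain ⟨q, q1, q2, q3⟩ := hR.det (π l) (hc _ h0.choose_spec).1
  have : ∀ y, ∃ Ψ : (J → ℂ) →ₗ[ℂ] J' → ℂ, (l, y) ∈ F'.cone →
      ∀ η ∈ F'.vert (l, y), Ψ (P η) = η := fun y => by
    by_cases a : (l, y) ∈ F'.cone
    exacts [(exists_inv (hv _ a).injOn).imp fun _ b _ => b, ⟨0, fun b => (a b).elim⟩]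
  choose Ψ hΨ using this
  have mv : ∀ y, (l, y) ∈ F'.cone → IsMV (F.vert (π l, P y)) (q (P y)) := fun y a => q1 _ (hc _ a)
  have cg : ∀ y, (l, y) ∈ F'.cone → ∀ Ψ' : (J → ℂ) →ₗ[ℂ] J' → ℂ,
      (∀ η ∈ F'.vert (l, y), Ψ' (P η) = η) → push (Ψ y) (q (P y)) = push Ψ' (q (P y)) :=
    fun y a Ψ' b => (mv y a).congr fun η d => by
      obtain ⟨x, e, rfl⟩ := (hv _ a).surjOn d
      rw [hΨ y a x e, b x e]
  refine ⟨fun y => push (Ψ y) (q (P y)), fun y a => (mv y a).push (bijOn_inv (hv _ a) (hΨ y a)),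
    fun s y a => ?_, fun t ht y a s => ?_⟩
  · obtain ⟨Φ, b, d⟩ := exists_an (hv _ a).injOn
    choose f f1 f2 using fun σ => q2 σ _ (hc _ a)
    have aP : AnalyticAt ℂ P y := P.toContinuousLinearMap.analyticAt y
    refine ⟨fun x => ∑ σ : Fin K₀.n → J, (∏ k, Φ x (Pi.single (σ k) 1) (s k)) * f σ (P x),
      Finset.analyticAt_fun_sum _ fun σ _ => (Finset.analyticAt_fun_prod _ fun k _ =>
        (((ContinuousLinearMap.proj (R := ℂ) (φ := fun _ : J' => ℂ) (s k)) ∘L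
          ContinuousLinearMap.apply ℂ (J' → ℂ) (Pi.single (σ k) 1)).analyticAt _).comp b).mul
            ((f1 σ).comp aP), ?_⟩
    filter_upwards [d, aP.continuousAt.eventually (eventually_all.2 f2)] with x e g i
    exact (congrFun (cg x i (Φ x).toLinearMap e) s).trans
      (Finset.sum_congr rfl fun σ _ => congrArg (_ * ·) (g σ (hc _ i)))
  · have t0 := isUnit_pi_iff.1 ht
    let u : R → ℂ := fun r => ∏ r', t r' ^ c r r'
    have hu : IsUnit u := isUnit_pi_iff.2 fun r => prod_zpow_ne t0 _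
    have eu : ∀ w : R → ℤ, ∏ r, u r ^ w r = ∏ r', t r' ^ ∑ r, w r * c r r' := fun w => by
      simp only [u, ← Finset.prod_zpow, ← zpow_mul, zpow_sum_ne (t0 _), mul_comm (w _)]
      exact Finset.prod_comm
    have a1 : ∀ (t : R' → ℂ) η, (F'.actT (1, t) (l, η)) =
        (l, fun j => (∏ r, t r ^ F'.w j r) * η j) := fun t η =>
      Prod.ext (F'.actL_one l) (funext fun j => by simp [Wt.actT])
    have a2 : P (F'.actT (1, t) (l, y)).2 = (F.actT (1, u) (π l, P y)).2 := funext fun j => by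
      rw [a1, he t ht, ← eu]
      simp [Wt.actT]
    have h1 : IsUnit ((1, t) : (S' → ℂ) × (R' → ℂ)) := Prod.isUnit_iff.2 ⟨isUnit_one, ht⟩
    have a3 : (l, (F'.actT (1, t) (l, y)).2) ∈ F'.cone := by
      have := hF'.cone_act h1 a
      rwa [a1] at this ⊢
    let D : (J' → ℂ) →ₗ[ℂ] J' → ℂ := .pi fun j => (∏ r, t r ^ F'.w j r) • .proj j
    let D' : (J → ℂ) →ₗ[ℂ] J → ℂ := .pi fun j => (∏ r, u r ^ F.w j r)⁻¹ • .proj j
    have hi : IsUnit t⁻¹ := isUnit_pi_iff.2 fun r => inv_ne_zero (t0 r)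
    beta_reduce
    rw [cg _ a3 (D ∘ₗ Ψ y ∘ₗ D') fun η b => ?_, push, push, Finset.sum_mul, Finset.mul_sum]
    · refine Finset.sum_congr rfl fun σ _ => ?_
      have e : ∀ k, D' (Pi.single (σ k) 1) = (∏ r, u r ^ F.w (σ k) r)⁻¹ • Pi.single (σ k) 1 :=
        fun k => funext fun j => by
          by_cases b : j = σ k <;> simp [D', b]
      have g := q3 u hu _ (hc _ a) σ
      change _ * ∏ r', t r' ^ ∑ r, K₀.γ r * c r r' = _
      rw [mul_assoc, a2, ← eu, g]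
      simp only [LinearMap.comp_apply, e, map_smul, D, LinearMap.pi_apply, LinearMap.smul_apply,
        LinearMap.proj_apply, smul_eq_mul, Finset.prod_mul_distrib,
        Finset.prod_inv_distrib]
      have : ∏ k, ∏ r, u r ^ F.w (σ k) r ≠ 0 :=
        Finset.prod_ne_zero_iff.2 fun k _ => prod_zpow_ne (isUnit_pi_iff.1 hu) _
      field_simp
    · have b1 := vert_act hF' (t := (1, t⁻¹)) (Prod.isUnit_iff.2 ⟨isUnit_one, hi⟩) b
      have b2 : ∀ (w : R' → ℤ) (x : ℂ), (∏ r, t⁻¹ r ^ w r) * x = (∏ r, t r ^ w r)⁻¹ * x :=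
        fun w x => by simp only [Pi.inv_apply, inv_zpow, Finset.prod_inv_distrib]
      simp only [a1, b2, inv_mul_cancel_left₀ (prod_zpow_ne t0 _)] at b1
      have b3 : D' (P η) = P fun j => (∏ r, t r ^ F'.w j r)⁻¹ * η j := funext fun j => by
        have := he t⁻¹ hi η j
        simp only [b2] at this
        rw [this, ← eu]
        rfl
      rw [LinearMap.comp_apply, LinearMap.comp_apply, b3, hΨ y a _ b1]
      exact funext fun j => mul_inv_cancel_left₀ (prod_zpow_ne t0 _) _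

/-- The same without a change of the torus. -/
theorem Fam.Reg.of_proj' {F : Fam S Λ R J K} {F' : Fam S' Λ' R J' K'} {K₀ : RD R} (hR : F.Reg K₀)
    (hF' : F'.Inv) (π : (Λ' → ℂ) → Λ → ℂ) (P : (J' → ℂ) →ₗ[ℂ] J → ℂ)
    (loc : ∀ z ∈ F'.cone, ∃ K₁, F'.RegAt K₁ z) (hc : ∀ z ∈ F'.cone, (π z.1, P z.2) ∈ F.cone)
    (hv : ∀ z ∈ F'.cone, BijOn P (F'.vert z) (F.vert (π z.1, P z.2)))
    (he : ∀ t : R → ℂ, IsUnit t → ∀ y j, P (fun j' => (∏ r, t r ^ F'.w j' r) * y j') j =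
      (∏ r, t r ^ F.w j r) * P y j) : F'.Reg K₀ := by
  classical
  exact K₀.up_id ▸ hR.of_proj hF' _ π P loc hc hv (by simpa [Pi.single_apply] using he)

/-- The same fields with the same weights: no invariance is needed. -/
theorem Fam.Reg.of_eq {F : Fam S Λ R J K} {F' : Fam S' Λ' R J K'} {K₀ : RD R} (hR : F.Reg K₀)
    (hw : F'.w = F.w) (π : (Λ' → ℂ) → Λ → ℂ) (loc : ∀ z ∈ F'.cone, ∃ K₁, F'.RegAt K₁ z)
    (hc : ∀ z ∈ F'.cone, (π z.1, z.2) ∈ F.cone)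
    (hv : ∀ z ∈ F'.cone, F'.vert z = F.vert (π z.1, z.2)) : F'.Reg K₀ := by
  refine ⟨loc, fun z hz => hv z hz ▸ hR.dim _ (hc z hz), fun l _ => ?_⟩
  by_cases h0 : ∃ y, (l, y) ∈ F'.cone
  swap
  · exact ⟨0, fun y a => (h0 ⟨y, a⟩).elim, fun _ y a => (h0 ⟨y, a⟩).elim,
      fun _ _ y a => (h0 ⟨y, a⟩).elim⟩
  obtain ⟨q, q1, q2, q3⟩ := hR.det (π l) (hc _ h0.choose_spec).1
  refine ⟨q, fun y a => ?_, fun s y a => (q2 s y (hc _ a)).imp fun f b =>
    ⟨b.1, b.2.mono fun _ d e => d (hc _ e)⟩, fun t ht y a s => ?_⟩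
  · rw [hv _ a]
    exact q1 y (hc _ a)
  · have := q3 t ht y (hc _ a) s
    simpa only [Wt.actT, hw, Pi.one_apply, one_zpow, Finset.prod_const_one] using this

end Vale.Agent.P269
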