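import Vale.Agent.P287Q.G.Vir.RD

/-!
# Complete intersections
-/

set_option linter.unusedSectionVars false

namespace Vale.Agent.P269.Fam

open Set

variable {S Λ R J K : Type} [Fintype S] [Fintype Λ] [Fintype R] [Fintype J] [Fintype K]

/-- all equations have independent differentials along the cone -/
def CI (F : Fam S Λ R J K) : Prop := ∀ z ∈ F.cone, F.RegAt univ z

variable {F : Fam S Λ R J K}

theorem ci_of (h : ∀ z ∈ F.cone, ∀ c : K → ℂ, ∃ η : J → ℂ,
    (∀ j ∉ F.mov, η j = 0) ∧ ∀ k, ∑ j, F.jac z k j * η j = c k) : F.CI :=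
  fun z hz => regAt_univ (h z hz)

theorem CI.ind (h : F.CI) (z) (hz : z ∈ F.cone) (c : K → ℂ) : ∃ η : J → ℂ,
    (∀ j ∉ F.mov, η j = 0) ∧ ∀ k ∈ univ, ∑ j, F.jac z k j * η j = c k := (h z hz).ind c

theorem CI.reg (h : F.CI) (hF : F.Inv) : F.Reg (F.rd univ) := reg_fix hF h

theorem ci_empty [IsEmpty K] : F.CI := fun z _ => regAt_empty z

theorem CI.n_add (h : F.CI) (hF : F.Inv) {K₀ : RD R} (hR : F.Reg K₀) {z} (hz : z ∈ F.cone) :
    K₀.n + Fintype.card K = F.mov.ncard := by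
  simpa [Set.ncard_univ] using hR.n_add hF (h z hz) hz

theorem Reg.ci (h : F.Reg (F.rd univ)) (hF : F.Inv) (hn : Fintype.card K ≤ F.mov.ncard) : F.CI :=
  fun z hz => by
    obtain ⟨K₁, a⟩ := h.loc z hz
    have b := h.n_add hF a hz
    simp only [rd, Set.ncard_univ, Nat.card_eq_fintype_card] at b
    rwa [← Set.eq_of_subset_of_ncard_le (subset_univ K₁) (by
      rw [Set.ncard_univ, Nat.card_eq_fintype_card]; omega)]

end Vale.Agent.P269.Fam
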