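import Vale.Agent.P287Q.G.Vir.Rk
import Vale.Agent.P287Q.G.Vir.Ker0

/-!
# Obstruction spaces: sub-tests
-/

set_option linter.unusedSectionVars false

namespace Vale.Agent.P269.Vir

open Set Function Topology Filter Module Cv

variable {J K Z Z' : Type} [Fintype J] {Θ Θ' : J → Type} [∀ j, AddCommGroup (Θ j)]
  [∀ j, Module ℂ (Θ j)] [∀ j, AddCommGroup (Θ' j)] [∀ j, Module ℂ (Θ' j)]
  {X : Type} [TopologicalSpace X] {R : RS X} {N T : Finset (X × X)} {c : CD R K Z Θ}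
  {L : J → LB R} {Lk : K → LB R} {G : LB R}
  {i : ∀ j, Θ' j →ₗ[ℂ] Θ j} {ζ : Z' → Z} {pw' : Z' → ∀ j, Θ' j}

namespace CD

variable [T2Space X] [CompactSpace X] [Finite K] [∀ j, FiniteDimensional ℂ (Θ j)]
  [∀ j, FiniteDimensional ℂ (Θ' j)]

theorem Ok.exists_resG (hN : Nd N) (h : c.Ok N L Lk G) (h' : (c.sub i ζ pw').Ok N L Lk G)
    (hpw : ∀ z, ∀ j ∈ c.mov, c.pw (ζ z) j = i j (pw' z j)) (hi : ∀ j ∈ c.mov, Injective (i j))
    (h1 : ∀ j ∈ c.mov, Cv.h1 N (L j * c.B j) = 0) {κ' : Gl X Θ' K Z'}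
    (hκ : κ' ∈ (c.sub i ζ pw').Ob N L Lk) : ∃ κ ∈ c.Ob N L Lk, resG i ζ κ = κ' := by
  let i1 : Fintype c.mov := Fintype.ofFinite _
  let i3 : Fintype (c.sub i ζ pw').mov := i1
  have := h.fin_Ob hN
  have := h'.fin_Ob hN
  have := fin_Fld (c := c) (N := N) (L := L)
  have := fin_Fld (c := c.sub i ζ pw') (N := N) (L := L)
  have e1 := h.finrank_Ob hN h1
  have e2 : (finrank ℂ ((c.sub i ζ pw').Ob N L Lk) : ℤ) =
      ∑ j : c.mov, finrank ℂ (Θ' j) * chiN N (L j * c.B j) - (c.n * (1 - gen R N) + deg G) :=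
    h'.finrank_Ob hN h1
  have e3 : (finrank ℂ (c.Fld N L) : ℤ) =
      ∑ j : c.mov, finrank ℂ (Θ j) * chiN N (L j * c.B j) := by
    rw [finrank_Fld]
    push_cast
    exact Finset.sum_congr rfl fun j _ => by rw [finrank_H0 (h1 j j.2), chiN]
  have e4 : (finrank ℂ ((c.sub i ζ pw').Fld N L) : ℤ) =
      ∑ j : c.mov, finrank ℂ (Θ' j) * chiN N (L j * c.B j) := by
    rw [finrank_Fld]
    push_cast
    exact Finset.sum_congr rfl fun j _ => congrArg _ (finrank_H0 (h1 j j.2))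
  let p : c.Fld N L →ₗ[ℂ] (c.sub i ζ pw').Fld N L :=
    { toFun := fun Y => ⟨fun j => Y.1 j ∘ₗ i j, fun j hj => by
        simp only [Y.2.1 j hj, LinearMap.zero_comp], fun j m => Y.2.2 j _⟩
      map_add' := fun _ _ => rfl
      map_smul' := fun _ _ => rfl }
  have hp : Surjective p := by
    have : ∀ j, ∃ l : Θ j →ₗ[ℂ] Θ' j, j ∈ c.mov → l ∘ₗ i j = LinearMap.id := fun j => by
      by_cases hj : j ∈ c.mov
      · exact ((i j).exists_leftInverse_of_injective (LinearMap.ker_eq_bot.2 (hi j hj))).imp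
          fun _ a _ => a
      · exact ⟨0, fun a => absurd a hj⟩
    choose l hl using this
    refine fun Y => ⟨⟨fun j => Y.1 j ∘ₗ l j, fun j hj => by
      simp only [Y.2.1 j hj, LinearMap.zero_comp], fun j m => Y.2.2 j _⟩, Subtype.ext (funext fun j => ?_)⟩
    change (Y.1 j ∘ₗ l j) ∘ₗ i j = Y.1 j
    by_cases hj : j ∈ c.mov
    · rw [LinearMap.comp_assoc, hl j hj, LinearMap.comp_id]
    · rw [Y.2.1 j hj, LinearMap.zero_comp, LinearMap.zero_comp]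
  let r : c.Ob N L Lk →ₗ[ℂ] (c.sub i ζ pw').Ob N L Lk :=
    (resG i ζ).restrict fun _ a => resG_mem hpw a
  let d : c.Fld N L →ₗ[ℂ] c.Ob N L Lk := c.dG.restrict fun _ a => h.dG_mem a
  obtain ⟨κ, e⟩ := surj_of_rank (F := c.Fld N L) (F' := (c.sub i ζ pw').Fld N L) p d r hp
    (fun κ a => by
      obtain ⟨Y, b, e, f⟩ := (h.resG_eq_zero h' hpw κ.2).1 (congrArg Subtype.val a)
      exact ⟨⟨Y, b⟩, Subtype.ext (funext e), Subtype.ext f⟩) (by omega) ⟨κ', hκ⟩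
  exact ⟨κ.1, κ.2, congrArg Subtype.val e⟩

end CD

end Vale.Agent.P269.Vir
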