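import Vale.Agent.P287Q.G.Vir.RD
import Vale.Agent.P269.Base.Mfd

/-!
# The empty curve
-/

namespace Vale.Agent.P269.Ch

open Set Module Base

variable {S Λ R J K ι ν κ : Type} [Fintype S] [Fintype Λ] [Fintype R] [Fintype J] [Fintype K]
  [Fintype ι] [DecidableEq ι] [Fintype ν] [Fintype κ] {ch : Ch ι J} {F : Fam S Λ R J K}

theorem crv_or {ν' : Type} [Fintype ν'] {x : ch.W ν'} (hx : x ∈ ch.base ν') :
    (crv x).Nonempty ∨ ch.g = 1 ∧ ∀ i, ch.m i = 0 := by
  refine (crv x).eq_empty_or_nonempty.symm.imp_right fun hn => ?_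
  have h0 : IsEmpty (crv x) := by rw [hn]; infer_instance
  have h1 : ∀ a : ι → ℕ, a ≠ 0 → dg ch.m a + 1 - ch.g = 0 := fun a ha => by
    rw [← hx.2.2.1.finrank_Hs ha, finrank_zero_of_subsingleton, Nat.cast_zero]
  have h2 : ∀ i, ch.m i = 0 ∧ ch.g = 1 := fun i => by
    have k1 := h1 (Pi.single i 1) (by simp)
    have k2 := h1 (2 • Pi.single i 1) fun e => by simpa using congrFun e i
    rw [dg_smul] at k2
    rw [dg_single] at k1 k2
    omega
  exact ⟨(h2 ch.o).2, fun i => (h2 i).1⟩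

theorem cone_or' {x : ch.WF ν κ Λ} (hx : x ∈ ch.solF ν κ F) :
    (∃ y, (x.1, y) ∈ F.cone) ∨ ch.g = 1 ∧ ∀ i, ch.m i = 0 :=
  (crv_or hx.1.2.1).imp_left fun ⟨_, _, a, _⟩ => (exists_cone hx a).imp fun _ b => b.1

/-- if there is a solution then the cone is not empty or the curve is empty -/
theorem cone_or {x : ch.WF ν κ Λ} (hx : x ∈ ch.solF ν κ F) : F.cone.Nonempty ∨ ch.g = 1 :=
  (cone_or' hx).imp (fun a => ⟨_, a.choose_spec⟩) And.left

end Vale.Agent.P269.Ch
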