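import Vale.Agent.P269.Cv.Nod

/-!
# Riemann-Roch for a subbundle of a sum of line bundles on a nodal curve
-/

set_option linter.unusedSectionVars false

namespace Vale.Agent.P269.Vir

open Set Function Topology Filter Module Cv Submodule

namespace Sb

section Rows

variable {X Λ : Type} [AddCommGroup Λ] [Module ℂ Λ] {r : ℕ} {ρ : X → Λ →ₗ[ℂ] Fin r → ℂ}

theorem exists_avoid (hρ : ∀ x, Surjective (ρ x)) {T : Set X} (hT : T.Finite)
    {S : X → Submodule ℂ (Fin r → ℂ)} (hS : ∀ x ∈ T, S x ≠ ⊤) : ∃ l, ∀ x ∈ T, ρ x l ∉ S x := by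
  by_contra! h
  have := hT.to_subtype
  obtain ⟨x, hx⟩ := Subspace.exists_eq_top_of_iUnion_eq_univ
    (p := fun x : T => (S x).comap (ρ x)) (eq_univ_of_forall fun l =>
      let ⟨x, a, b⟩ := h l; mem_iUnion.2 ⟨⟨x, a⟩, b⟩)
  exact hS x x.2 (eq_top_iff.2 fun v _ => let ⟨l, e⟩ := hρ x v; e ▸ (hx.ge mem_top : ρ x l ∈ S x))

theorem span_ne_top {i : ℕ} {f : Fin i → Fin r → ℂ} (h : finrank ℂ (span ℂ (range f)) < r) :
    span ℂ (range f) ≠ ⊤ := fun e => by
  rw [e, finrank_top, finrank_fintype_fun_eq_card, Fintype.card_fin] at h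
  exact h.false

theorem rank_le {i : ℕ} (f : Fin i → Fin r → ℂ) : finrank ℂ (span ℂ (range f)) ≤ i :=
  (finrank_range_le_card f).trans (Fintype.card_fin i).le

theorem li_iff {i : ℕ} {f : Fin i → Fin r → ℂ} :
    LinearIndependent ℂ f ↔ i = finrank ℂ (span ℂ (range f)) :=
  linearIndependent_iff_card_eq_finrank_span.trans (by rw [Fintype.card_fin]; rfl)

theorem comp_cons {i : ℕ} (x : X) (l : Λ) (μ : Fin i → Λ) :
    (ρ x ∘ (Fin.cons l μ : Fin (i + 1) → Λ)) = Fin.cons (ρ x l) (ρ x ∘ μ) := Fin.comp_cons _ _ _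

theorem span_le_cons {i : ℕ} (v : Fin r → ℂ) (f : Fin i → Fin r → ℂ) :
    span ℂ (range f) ≤ span ℂ (range (Fin.cons v f : Fin (i + 1) → Fin r → ℂ)) :=
  span_mono (by rintro _ ⟨a, rfl⟩; exact ⟨a.succ, rfl⟩)

theorem rank_lt_cons {i : ℕ} {v : Fin r → ℂ} {f : Fin i → Fin r → ℂ} (h : v ∉ span ℂ (range f)) :
    finrank ℂ (span ℂ (range f)) < finrank ℂ (span ℂ (range (Fin.cons v f : Fin (i + 1) → _))) :=
  finrank_lt_finrank_of_lt (lt_of_le_of_ne (span_le_cons v f) fun e =>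
    h (e ▸ subset_span ⟨0, rfl⟩))

/-- `r + 1` rows which span at every point -/
theorem exists_rows (hρ : ∀ x, Surjective (ρ x)) {T : Set X} (hT : T.Finite)
    (hf : ∀ μ : Fin r → Λ, (∀ x ∈ T, LinearIndependent ℂ (ρ x ∘ μ)) →
      {x | ¬LinearIndependent ℂ (ρ x ∘ μ)}.Finite) :
    ∃ μ : Fin (r + 1) → Λ, ∀ x, span ℂ (range (ρ x ∘ μ)) = ⊤ := by
  have F : ∀ j i, i + j = r → ∀ μ : Fin i → Λ, (∀ x ∈ T, LinearIndependent ℂ (ρ x ∘ μ)) →
      {x | ¬LinearIndependent ℂ (ρ x ∘ μ)}.Finite := fun j => by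
    induction j with
    | zero => rintro i rfl; exact hf
    | succ j ih =>
      intro i e μ h
      obtain ⟨l, hl⟩ := exists_avoid hρ hT (S := fun x => span ℂ (range (ρ x ∘ μ)))
        fun x _ => span_ne_top ((rank_le _).trans_lt (by omega))
      refine (ih (i + 1) (by omega) (Fin.cons l μ) fun x hx => ?_).subset fun x hx a => hx ?_
      · rw [comp_cons]
        exact linearIndependent_finCons.2 ⟨h x hx, hl x hx⟩
      · rw [comp_cons] at a
        exact (linearIndependent_finCons.1 a).1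
  have P : ∀ i ≤ r, ∃ μ : Fin i → Λ, (∀ x, i ≤ finrank ℂ (span ℂ (range (ρ x ∘ μ))) + 1) ∧
      ∀ x ∈ T, LinearIndependent ℂ (ρ x ∘ μ) := fun i => by
    induction i with
    | zero => exact fun _ => ⟨Fin.elim0, fun _ => Nat.zero_le _, fun _ _ =>
        linearIndependent_empty_type⟩
    | succ i ih =>
      intro e
      obtain ⟨μ, a, b⟩ := ih (by omega)
      obtain ⟨l, hl⟩ := exists_avoid hρ ((F (r - i) i (by omega) μ b).union hT)
        (S := fun x => span ℂ (range (ρ x ∘ μ)))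
        fun x _ => span_ne_top ((rank_le _).trans_lt (by omega))
      refine ⟨Fin.cons l μ, fun x => ?_, fun x hx => ?_⟩
      · rw [comp_cons]
        by_cases d : LinearIndependent ℂ (ρ x ∘ μ)
        · exact Nat.succ_le_succ ((li_iff.1 d).le.trans (finrank_mono (span_le_cons _ _)))
        · have := rank_lt_cons (hl x (.inl d))
          have := a x
          omega
      · rw [comp_cons]
        exact linearIndependent_finCons.2 ⟨b x hx, hl x (.inr hx)⟩
  obtain ⟨μ, a, b⟩ := P r le_rfl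
  obtain ⟨l, hl⟩ := exists_avoid hρ (hf μ b) (S := fun x => span ℂ (range (ρ x ∘ μ)))
    fun x hx => span_ne_top (lt_of_le_of_ne (rank_le _) fun e => hx (li_iff.2 e.symm))
  refine ⟨Fin.cons l μ, fun x => eq_top_of_finrank_eq (le_antisymm (finrank_le _) ?_)⟩
  rw [comp_cons, finrank_fintype_fun_eq_card, Fintype.card_fin]
  by_cases d : LinearIndependent ℂ (ρ x ∘ μ)
  · exact (li_iff.1 d).le.trans (finrank_mono (span_le_cons _ _))
  · have := rank_lt_cons (hl x d)
    have := a x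
    omega

end Rows

section Det

variable {K : Type} [Fintype K] {r : ℕ}

/-- expansion of a determinant of a product -/
theorem det_sum (a : Fin r → K → ℂ) (w : Fin r → K → ℂ) :
    (Matrix.of fun l i => ∑ k, a l k * w i k).det =
      ∑ σ : Fin r → K, (∏ l, a l (σ l)) * (Matrix.of fun i l => w i (σ l)).det := by
  classical
  have e : (Matrix.of fun l i => ∑ k, a l k * w i k) = fun l => ∑ k, a l k • fun i => w i k := by
    funext l i
    simp
  rw [e]
  refine ((Matrix.detRowAlternating (n := Fin r) (R := ℂ)).toMultilinearMap.map_sum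
    fun l k => a l k • fun i => w i k).trans (Finset.sum_congr rfl fun σ _ => ?_)
  rw [MultilinearMap.map_smul_univ, ← Matrix.det_transpose]
  rfl

theorem exists_det_ne {w : Fin r → K → ℂ} (h : LinearIndependent ℂ w) :
    ∃ σ : Fin r → K, (Matrix.of fun i l => w i (σ l)).det ≠ 0 := by
  classical
  obtain ⟨g, hg⟩ := (Fintype.linearCombination ℂ w).exists_leftInverse_of_injective
    (LinearMap.ker_eq_bot.2 (linearIndependent_iff_injective_fintypeLinearCombination.1 h))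
  have e := det_sum (fun l k => g (fun j => if k = j then 1 else 0) l) w
  rw [show (Matrix.of fun l i => ∑ k, g (fun j => if k = j then 1 else 0) l * w i k) = 1 from
    Matrix.ext fun l i => ?_, Matrix.det_one] at e
  · obtain ⟨σ, -, a⟩ := Finset.exists_ne_zero_of_sum_ne_zero (e ▸ one_ne_zero)
    exact ⟨σ, right_ne_zero_of_mul a⟩
  · have a := congrFun (LinearMap.congr_fun hg (Pi.single i 1)) l
    rw [LinearMap.comp_apply, Fintype.linearCombination_apply_single, one_smul,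
      LinearMap.pi_apply_eq_sum_univ] at a
    simp only [Finset.sum_apply, Pi.smul_apply, smul_eq_mul, LinearMap.id_apply] at a
    rw [Matrix.of_apply, Matrix.one_apply, ← Pi.single_apply i 1 l, ← a]
    exact Finset.sum_congr rfl fun k _ => mul_comm _ _

/-- `p` are Pluecker coordinates of `W` -/
def Plu (W : Submodule ℂ (K → ℂ)) (p : (Fin r → K) → ℂ) : Prop :=
  ∃ (w : Basis (Fin r) ℂ W) (c : ℂ), c ≠ 0 ∧
    ∀ σ, p σ = c * (Matrix.of fun i l => (w i).1 (σ l)).det

variable {B : Fin (r + 1) → Fin r → ℂ} {s : Fin (r + 1) → ℂ}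

theorem eq_zero_of_span {ι : Type} {B : ι → Fin r → ℂ} (hB : span ℂ (range B) = ⊤) {c : Fin r → ℂ}
    (h : ∀ l, ∑ i, B l i * c i = 0) : c = 0 := funext fun i => by
  have : span ℂ (range B) ≤ LinearMap.ker (Fintype.linearCombination ℂ c) :=
    span_le.2 (by rintro _ ⟨l, rfl⟩; exact h l)
  simpa using this (hB.ge (mem_top : Pi.single i 1 ∈ _))

theorem lap (s : Fin (r + 1) → ℂ) (B : Fin (r + 1) → Fin r → ℂ) :
    ∑ l : Fin (r + 1), (-1) ^ (l : ℕ) * s l * (Matrix.of fun a => B (l.succAbove a)).det =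
      (Matrix.of fun l => (Fin.cons (s l) (B l) : Fin (r + 1) → ℂ)).det := by
  rw [Matrix.det_succ_column_zero]
  exact Finset.sum_congr rfl fun l _ => congrArg₂ (· * ·) rfl
    (congrArg Matrix.det (Matrix.ext fun _ _ => rfl))

theorem lap_zero {c : Fin r → ℂ} (h : ∀ l, s l = ∑ i, B l i * c i) :
    ∑ l : Fin (r + 1), (-1) ^ (l : ℕ) * s l * (Matrix.of fun a => B (l.succAbove a)).det = 0 := by
  rw [lap]
  refine Matrix.exists_mulVec_eq_zero_iff.1 ⟨Fin.cons (-1) c, fun e => ?_, funext fun l => ?_⟩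
  · simpa using congrFun e 0
  · simp [Matrix.mulVec, dotProduct, Fin.sum_univ_succ, h l]

theorem exists_of_lap (hB : span ℂ (range B) = ⊤) (h : ∑ l : Fin (r + 1), (-1) ^ (l : ℕ) * s l *
    (Matrix.of fun a => B (l.succAbove a)).det = 0) : ∃ c : Fin r → ℂ, ∀ l, s l = ∑ i, B l i * c i := by
  rw [lap] at h
  obtain ⟨v, a, b⟩ := Matrix.exists_mulVec_eq_zero_iff.2 h
  have e : ∀ l, s l * v 0 + ∑ i, B l i * v i.succ = 0 := fun l => by
    simpa [Matrix.mulVec, dotProduct, Fin.sum_univ_succ] using congrFun b l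
  have v0 : v 0 ≠ 0 := fun d => a (funext (Fin.cases d (congrFun (eq_zero_of_span hB
    (c := fun i => v i.succ) fun l => by simpa [d] using e l))))
  refine ⟨fun i => -v i.succ / v 0, fun l => ?_⟩
  simp only [← mul_div_assoc, ← Finset.sum_div, mul_neg, Finset.sum_neg_distrib]
  rw [eq_div_iff v0]
  linear_combination e l

theorem exists_minor (hB : span ℂ (range B) = ⊤) :
    ∃ l : Fin (r + 1), (Matrix.of fun a => B (l.succAbove a)).det ≠ 0 := by
  by_contra! h
  have : LinearMap.range (Matrix.of B).mulVecLin = ⊤ := eq_top_iff.2 fun s _ =>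
    let ⟨c, e⟩ := exists_of_lap hB (s := s) (by simp [h]); ⟨c, funext fun l => (e l).symm⟩
  have a := LinearMap.finrank_range_le (Matrix.of B).mulVecLin
  rw [this] at a
  simp at a

end Det

end Sb

variable {X : Type} [TopologicalSpace X] {R : RS X} {N : Finset (X × X)}

/-- division by a base point free family of sections of several bundles -/
theorem mem_of_bpf' {A : LB R} {α : Type} {B : α → LB R} {t : α → X → ℂ} {f : X → ℂ}
    (ht : ∀ a, t a ∈ H0 N (B a)) (h0 : ∀ x, ∃ a, t a x ≠ 0) (h : ∀ a, f * t a ∈ H0 N (A * B a)) :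
    f ∈ H0 N A := by
  refine ⟨fun x => ?_, fun n hn => ?_⟩
  · obtain ⟨a, ha⟩ := h0 x
    have := ((h a).1 x).div ((ht a).1 x) ha
    rw [mul_div_cancel_right] at this
    exact this.congr ((((ht a).1 x).ev_ne ha).mono fun y hy => mul_div_cancel_right₀ _ hy)
  · obtain ⟨a, ha⟩ := h0 n.1
    have := (h a).2 n hn
    rw [Pi.mul_apply, Pi.mul_apply, ← (ht a).2 n hn] at this
    exact mul_right_cancel₀ ha this

/-- division by a base point free family of sections -/
theorem mem_of_bpf {A B : LB R} {α : Type} {t : α → X → ℂ} {f : X → ℂ}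
    (ht : ∀ a, t a ∈ H0 N B) (h0 : ∀ x, ∃ a, t a x ≠ 0) (h : ∀ a, f * t a ∈ H0 N (A * B)) :
    f ∈ H0 N A := mem_of_bpf' ht h0 h

namespace Rk

variable [T2Space X] [CompactSpace X]

theorem ev_sm' (N : Finset (X × X)) (y : X) : ∀ᶠ z in 𝓝[≠] y, Sm N z := by
  have a : ∀ p : X, ∀ᶠ z in 𝓝[≠] y, p ≠ z := fun p => by
    by_cases h : y = p
    · exact h ▸ eventually_mem_nhdsWithin.mono fun z hz => Ne.symm hz
    · exact ((eventually_ne_nhds h).filter_mono nhdsWithin_le_nhds).mono fun z hz => hz.symm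
  exact N.eventually_all.2 fun n _ => (a n.1).and (a n.2)

theorem exists_twist (N : Finset (X × X)) (n : ℕ) :
    ∃ T ∈ Submonoid.closure (R.pt '' {p | Sm N p}), Ge T n := by
  have : ∀ x : X, ∃ W ∈ 𝓝 x, IsPreconnected W ∧ ∃ y ∈ W, Sm N y := fun x => by
    obtain ⟨r, hr, h⟩ := Metric.mem_nhds_iff.1 (R.tgt_nhds x)
    have m : R.i x '' Metric.ball 0 r ∈ 𝓝 x := R.map_i x ▸ image_mem_map (Metric.ball_mem_nhds _ hr)
    have := R.neBot x
    exact ⟨_, m, (convex_ball _ _).isPreconnected.image _ fun t ht =>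
      (R.contAt_i (h ht)).continuousWithinAt,
      (Eventually.and (nhdsWithin_le_nhds m) (ev_sm' N x)).exists⟩
  choose W a b y y1 y2 using this
  obtain ⟨T, hT⟩ := CompactSpace.elim_nhds_subcover W a
  have g : Ge (∏ x ∈ T, R.pt (y x)) 1 := fun U u ⟨z, hz⟩ => by
    obtain ⟨x, d, e⟩ := mem_iUnion₂.1 (hT.ge (mem_univ z))
    rw [degOn_prod]
    refine le_trans ?_ (Finset.single_le_sum (f := fun x => degOn (R.pt (y x)) U)
      (fun x _ => (eff_pt (y x)).ge U u ⟨z, hz⟩) d)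
    rw [degOn_pt u, if_pos ((b x).subset_isClopen u ⟨z, e, hz⟩ (y1 x))]
  exact ⟨_, pow_mem (prod_mem fun x _ => Submonoid.subset_closure (mem_image_of_mem _ (y2 x))) n,
    (g.pow n).mono (mul_one _).ge⟩

theorem ge_neg (A : LB R) : ∃ n : ℕ, Ge A (-n) := by
  obtain ⟨E, ⟨s, a, a'⟩, b⟩ := exists_eff A
  refine ⟨(deg E).toNat, fun U u d => ?_⟩
  have := b.ge U u d
  have := card_le_degOn u.compl (fun x _ => a x) (a' ▸ subset_univ _) (T := ∅) (by simp)
  have := degOn_add_compl (L := E) u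
  rw [degOn_mul] at *
  omega

theorem exists_ge (N : Finset (X × X)) {α : Type} [Finite α] (A : α → LB R) (k : ℕ) :
    ∃ T ∈ Submonoid.closure (R.pt '' {p | Sm N p}), ∀ a, Ge (A a * T / omega R N ∅) k := by
  choose n hn using fun a => ge_neg (A a / omega R N ∅)
  obtain ⟨m, hm⟩ := (finite_range n).bddAbove
  obtain ⟨T, h1, h2⟩ := exists_twist (R := R) N (m + k)
  refine ⟨T, h1, fun a => ?_⟩
  rw [mul_div_right_comm]
  exact ((hn a).mul h2).mono (by have := hm ⟨a, rfl⟩; omega)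

theorem exists_big (hN : Nd N) {α : Type} [Finite α] (A : α → LB R) :
    ∃ T ∈ Submonoid.closure (R.pt '' {p | Sm N p}), ∀ a, h1 N (A a * T) = 0 :=
  let ⟨T, a, b⟩ := exists_ge N A 1
  ⟨T, a, fun x => h1_eq_zero hN (b x)⟩

end Rk

namespace Sb

variable {K : Type} {r : ℕ} {A : K → LB R} {D : LB R} {W : X → Submodule ℂ (K → ℂ)}
  {p : (Fin r → K) → X → ℂ}

variable (N A W) in
/-- the sections with values in the subspaces `W x` -/
def Sc : Submodule ℂ (K → X → ℂ) where
  carrier := {a | (∀ k, a k ∈ H0 N (A k)) ∧ ∀ x, (fun k => a k x) ∈ W x}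
  add_mem' a b := ⟨fun k => add_mem (a.1 k) (b.1 k), fun x => add_mem (a.2 x) (b.2 x)⟩
  zero_mem' := ⟨fun _ => zero_mem _, fun _ => zero_mem _⟩
  smul_mem' _ _ a := ⟨fun k => smul_mem _ _ (a.1 k), fun x => smul_mem _ _ (a.2 x)⟩

variable [Fintype K]

variable (p) in
/-- the determinant of `r` rows on the subbundle -/
noncomputable def dt (ν : Fin r → K → X → ℂ) : X → ℂ := ∑ σ : Fin r → K, (∏ l, ν l (σ l)) * p σ

theorem dt_mem (hp : ∀ σ, p σ ∈ H0 N ((∏ l, A (σ l)) / D)) {B : Fin r → LB R}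
    {ν : Fin r → K → X → ℂ} (hν : ∀ l k, ν l k ∈ H0 N (B l / A k)) :
    dt p ν ∈ H0 N ((∏ l, B l) / D) := sum_mem fun σ _ => by
  have := H0.mul_mem (H0.prod_mem (T := Finset.univ) fun l _ => hν l (σ l)) (hp σ)
  rwa [Finset.prod_div_distrib, div_mul_div_cancel] at this

theorem dt_apply {w : Fin r → K → ℂ} {c : ℂ} {x : X}
    (e : ∀ σ, p σ x = c * (Matrix.of fun i l => w i (σ l)).det) (ν : Fin r → K → X → ℂ) :
    dt p ν x = c * (Matrix.of fun l i => ∑ k, ν l k x * w i k).det := by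
  rw [det_sum, Finset.mul_sum, dt, Finset.sum_apply]
  exact Finset.sum_congr rfl fun σ _ => by rw [Pi.mul_apply, Finset.prod_apply, e, mul_left_comm]

variable [T2Space X] [CompactSpace X]

theorem exists_rows_sec (hN : Nd N) (hp : ∀ σ, p σ ∈ H0 N ((∏ l, A (σ l)) / D))
    {w : X → Fin r → K → ℂ} {c : X → ℂ} (hw : ∀ x, LinearIndependent ℂ (w x)) (hc : ∀ x, c x ≠ 0)
    (e : ∀ x σ, p σ x = c x * (Matrix.of fun i l => w x i (σ l)).det) :
    ∃ (M : LB R) (μ : Fin (r + 1) → K → X → ℂ), (∀ l k, μ l k ∈ H0 N (M / A k)) ∧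
      ∀ x, span ℂ (range fun l i => ∑ k, μ l k x * w x i k) = ⊤ := by
  classical
  obtain ⟨M, -, hM⟩ := Rk.exists_ge N (fun k => (A k)⁻¹) 2
  simp only [← div_eq_inv_mul] at hM
  let ρ : X → (∀ k, H0 N (M / A k)) →ₗ[ℂ] Fin r → ℂ := fun x =>
    { toFun := fun l i => ∑ k, (l k).1 x * w x i k
      map_add' := fun _ _ => funext fun i => by simp [add_mul, Finset.sum_add_distrib]
      map_smul' := fun _ _ => funext fun i => by simp [Finset.mul_sum, mul_assoc] }
  obtain ⟨T, t1, t2⟩ := exists_finite_meets R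
  refine (exists_rows (ρ := ρ) (fun x v => ?_) t1 fun μ h => ?_).elim fun μ hμ =>
    ⟨M, fun l k => (μ l k).1, fun l k => (μ l k).2, hμ⟩
  · choose s s1 s2 using fun k => exists_ne hN (hM k) x
    obtain ⟨σ, hσ⟩ := exists_det_ne (hw x)
    obtain ⟨a, ha⟩ := Matrix.mulVec_surjective_iff_isUnit.2
      ((Matrix.isUnit_iff_isUnit_det _).2 hσ.isUnit) v
    refine ⟨∑ l, (a l / s (σ l) x) • Pi.single (σ l) ⟨_, s1 (σ l)⟩, ?_⟩
    rw [← ha, map_sum]
    funext i
    rw [Finset.sum_apply]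
    refine Finset.sum_congr rfl fun l _ => ?_
    rw [map_smul]
    change a l / s (σ l) x * ∑ k, _ = w x i (σ l) * a l
    rw [Finset.sum_eq_single (σ l) (fun k _ hk => by simp [Pi.single_eq_of_ne hk]) (by simp)]
    simp only [Pi.single_eq_same]
    field_simp [s2 (σ l)]
  · have m := dt_mem hp (B := fun _ => M) fun l k => (μ l k).2
    have d : ∀ x, dt p (fun l k => (μ l k).1) x = c x * (Matrix.of (ρ x ∘ μ)).det := fun x =>
      dt_apply (e x) _
    refine (LB.finite_zeros m.1 (by_contra fun a => ?_)).subset fun x hx => ?_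
    · obtain ⟨x, f, g⟩ := t2 _ (isClopen_gen m.1).compl (nonempty_compl.2 a)
      refine g ((m.1 x).mem_gen ?_)
      rw [d]
      exact mul_ne_zero (hc x) ((Matrix.isUnit_iff_isUnit_det _).1
        (Matrix.linearIndependent_rows_iff_isUnit.1 (h x f))).ne_zero
    · exact (d x).trans (mul_eq_zero_of_right _
        (Matrix.det_eq_zero_of_not_linearIndependent_rows hx))

section

variable {w : X → Fin r → K → ℂ} {c : X → ℂ} {M T : LB R} {μ : Fin (r + 1) → K → X → ℂ}

theorem sum_comb (w : Fin r → K → ℂ) (y : Fin r → ℂ) (ν : K → ℂ) :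
    ∑ k, ν k * ∑ i, w i k * y i = ∑ i, (∑ k, ν k * w i k) * y i := by
  simp only [Finset.mul_sum, Finset.sum_mul, mul_assoc]
  exact Finset.sum_comm

theorem dt_lap (e : ∀ x σ, p σ x = c x * (Matrix.of fun i l => w x i (σ l)).det) (x : X)
    (ν : Fin (r + 1) → K → X → ℂ) (y : Fin r → ℂ) : ∑ l : Fin (r + 1), (-1) ^ (l : ℕ) *
      (∑ k, ν l k x * ∑ i, w x i k * y i) * dt p (fun a => ν (l.succAbove a)) x = 0 := by
  have := lap_zero (B := fun l i => ∑ k, ν l k x * w x i k) fun l => sum_comb (w x) y (ν l · x)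
  simp only [dt_apply (e x), mul_left_comm _ (c x), ← Finset.mul_sum]
  exact mul_eq_zero_of_right _ this

theorem comb_mul_mem (hp : ∀ σ, p σ ∈ H0 N ((∏ l, A (σ l)) / D))
    (e : ∀ x σ, p σ x = c x * (Matrix.of fun i l => w x i (σ l)).det)
    (m1 : ∀ l k, μ l k ∈ H0 N (M / A k)) {s : Fin (r + 1) → X → ℂ} (hs : ∀ l, s l ∈ H0 N (M * T))
    {y : X → Fin r → ℂ} (hy : ∀ x l, s l x = ∑ k, μ l k x * ∑ i, w x i k * y x i) (k : K)
    (l : Fin (r + 1)) : (fun x => ∑ i, w x i k * y x i) * dt p (fun a => μ (l.succAbove a)) ∈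
      H0 N (A k * T * (M ^ r / D)) := by
  classical
  let ν : Fin (r + 1) → K → X → ℂ := Fin.cons (Pi.single k 1) fun a => μ (l.succAbove a)
  let B : Fin (r + 1) → LB R := Fin.cons (A k) fun _ => M
  have n1 : ∀ a k', ν a k' ∈ H0 N (B a / A k') := Fin.cases (fun k' => by
    by_cases h : k' = k
    · subst h
      simpa [ν, B] using H0.one_mem
    · simp [ν, h]) fun a k' => m1 _ k'
  have n2 : (fun x => ∑ i, w x i k * y x i) * dt p (fun a => μ (l.succAbove a)) = -∑ a : Fin r,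
      ((-1 : ℂ) ^ (a.succ : ℕ)) • (s (l.succAbove a) * dt p fun b => ν (a.succ.succAbove b)) :=
    funext fun x => by
      have := dt_lap e x ν (y x)
      rw [Fin.sum_univ_succ, Finset.sum_eq_single k (fun k' _ h => by simp [ν, h]) (by simp)]
        at this
      simp only [Pi.neg_apply, Finset.sum_apply, Pi.smul_apply, Pi.mul_apply, smul_eq_mul, hy,
        ← mul_assoc]
      refine eq_neg_of_add_eq_zero_left (Eq.trans (congrArg₂ (· + ·) ?_ rfl) this)
      simp [ν]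
  rw [n2]
  refine neg_mem (sum_mem fun a _ => smul_mem _ _ ?_)
  have := H0.mul_mem (hs (l.succAbove a)) (dt_mem hp fun b => n1 (a.succ.succAbove b))
  have b1 : M * ∏ b, B (a.succ.succAbove b) = A k * M ^ r :=
    (Fin.prod_univ_succAbove B a.succ).symm.trans ((Fin.prod_univ_succ B).trans
      (congrArg _ (Fin.prod_const r M)))
  rwa [mul_right_comm, ← mul_div_assoc, b1, mul_div_assoc, mul_right_comm] at this

/-- the rows applied to a section -/
noncomputable def phiS (m1 : ∀ l k, μ l k ∈ H0 N (M / A k)) :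
    Sc N (fun k => A k * T) W →ₗ[ℂ] Fin (r + 1) → H0 N (M * T) where
  toFun a l := ⟨∑ k, μ l k * a.1 k, sum_mem fun k _ => by
    simpa only [← mul_assoc, div_mul_cancel] using H0.mul_mem (m1 l k) (a.2.1 k)⟩
  map_add' _ _ := funext fun l => Subtype.ext (by simp [mul_add, Finset.sum_add_distrib])
  map_smul' _ _ := funext fun l => Subtype.ext (by simp [Finset.smul_sum])

/-- the pairing with the minors -/
noncomputable def psiS {F P : LB R} {Δ : Fin (r + 1) → X → ℂ} (d1 : ∀ l, Δ l ∈ H0 N P) :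
    (Fin (r + 1) → H0 N F) →ₗ[ℂ] H0 N (F * P) where
  toFun s := ⟨∑ l : Fin (r + 1), ((-1 : ℂ) ^ (l : ℕ)) • ((s l).1 * Δ l), sum_mem fun l _ =>
    smul_mem _ _ (H0.mul_mem (s l).2 (d1 l))⟩
  map_add' _ _ := Subtype.ext (by simp [add_mul, Finset.sum_add_distrib])
  map_smul' t _ := Subtype.ext (by simp [Finset.smul_sum, smul_comm t])

theorem phiS_apply (m1 : ∀ l k, μ l k ∈ H0 N (M / A k)) (a : Sc N (fun k => A k * T) W)
    (l : Fin (r + 1)) (x : X) : (phiS m1 a l).1 x = ∑ k, μ l k x * a.1 k x :=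
  Finset.sum_apply _ _ _

theorem psiS_apply {F P : LB R} {Δ : Fin (r + 1) → X → ℂ} (d1 : ∀ l, Δ l ∈ H0 N P)
    (s : Fin (r + 1) → H0 N F) (x : X) :
    (psiS d1 s).1 x = ∑ l : Fin (r + 1), (-1) ^ (l : ℕ) * (s l).1 x * Δ l x := by
  simp only [mul_assoc]
  exact Finset.sum_apply x Finset.univ fun l : Fin (r + 1) => ((-1 : ℂ) ^ (l : ℕ)) • ((s l).1 * Δ l)

theorem range_psiS {F P : LB R} {Δ : Fin (r + 1) → X → ℂ} (d1 : ∀ l, Δ l ∈ H0 N P)
    (d2 : ∀ x, ∃ l, Δ l x ≠ 0) (h : h1 N (F / P) = 0) :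
    LinearMap.range (psiS (F := F) d1) = ⊤ := eq_top_iff.2 fun t _ => by
  have : H0 N F * span ℂ (range Δ) ≤ (LinearMap.range (psiS d1)).map (Submodule.subtype _) :=
    Submodule.mul_le.2 fun f hf g hg => by
      obtain ⟨u, rfl⟩ := (mem_span_range_iff_exists_fun ℂ).1 hg
      refine ⟨_, ⟨fun l => ((-1 : ℂ) ^ (l : ℕ) * u l) • ⟨f, hf⟩, rfl⟩, funext fun x => ?_⟩
      refine (psiS_apply d1 _ x).trans ?_
      simp only [Pi.mul_apply, Finset.sum_apply, Finset.mul_sum, coe_smul, Pi.smul_apply,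
        smul_eq_mul]
      refine Finset.sum_congr rfl fun l _ => ?_
      rw [← mul_assoc, ← mul_assoc, ← mul_pow]
      simp [mul_left_comm, mul_assoc]
  obtain ⟨t', a, b⟩ := this (H0_le_mul (span_le.2 (range_subset_iff.2 d1))
    (fun x => let ⟨l, a⟩ := d2 x; ⟨_, subset_span ⟨l, rfl⟩, a⟩) h t.2)
  exact (Subtype.ext b : t' = t) ▸ a

theorem phiS_injective (m1 : ∀ l k, μ l k ∈ H0 N (M / A k))
    (m2 : ∀ x, span ℂ (range fun l i => ∑ k, μ l k x * w x i k) = ⊤)
    (w1 : ∀ x v, v ∈ W x ↔ ∃ y : Fin r → ℂ, ∀ k, v k = ∑ i, w x i k * y i) :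
    Injective (phiS (T := T) (W := W) m1) := (injective_iff_map_eq_zero _).2 fun a h =>
  Subtype.ext (funext₂ fun k x => by
    obtain ⟨y, hy⟩ := (w1 x _).1 (a.2.2 x)
    have z : y = 0 := eq_zero_of_span (m2 x) fun l => by
      have := (phiS_apply m1 a l x).symm.trans (congrFun (congrArg Subtype.val (congrFun h l)) x)
      simp only [hy] at this
      rwa [sum_comb] at this
    exact (hy k).trans (by simp [z]))

theorem ker_psiS (hp : ∀ σ, p σ ∈ H0 N ((∏ l, A (σ l)) / D))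
    (e : ∀ x σ, p σ x = c x * (Matrix.of fun i l => w x i (σ l)).det) (hc : ∀ x, c x ≠ 0)
    (m1 : ∀ l k, μ l k ∈ H0 N (M / A k))
    (m2 : ∀ x, span ℂ (range fun l i => ∑ k, μ l k x * w x i k) = ⊤)
    (w1 : ∀ x v, v ∈ W x ↔ ∃ y : Fin r → ℂ, ∀ k, v k = ∑ i, w x i k * y i)
    (d1 : ∀ l : Fin (r + 1), dt p (fun a => μ (l.succAbove a)) ∈ H0 N (M ^ r / D))
    (d2 : ∀ x, ∃ l : Fin (r + 1), dt p (fun a => μ (l.succAbove a)) x ≠ 0) :
    LinearMap.ker (psiS d1) = LinearMap.range (phiS (T := T) (W := W) m1) := by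
  refine le_antisymm (fun s hs => ?_) ?_
  · have : ∀ x, ∃ y : Fin r → ℂ, ∀ l, (s l).1 x = ∑ k, μ l k x * ∑ i, w x i k * y i :=
      fun x => by
        have a : _ = (0 : ℂ) :=
          (psiS_apply d1 s x).symm.trans (congrFun (congrArg Subtype.val hs) x)
        simp only [dt_apply (e x), mul_left_comm _ (c x), ← Finset.mul_sum] at a
        exact (exists_of_lap (m2 x) ((mul_eq_zero.1 a).resolve_left (hc x))).imp fun y b l =>
          (b l).trans (sum_comb (w x) y (μ l · x)).symm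
    choose y hy using this
    exact ⟨⟨fun k x => ∑ i, w x i k * y x i, fun k => mem_of_bpf d1 d2
      (comb_mul_mem hp e m1 (fun l => (s l).2) hy k), fun x => (w1 x _).2 ⟨y x, fun _ => rfl⟩⟩,
      funext fun l => Subtype.ext (funext fun x => (phiS_apply m1 _ l x).trans (hy x l).symm)⟩
  · rintro _ ⟨a, rfl⟩
    refine Subtype.ext (funext fun x => (psiS_apply d1 _ x).trans ?_)
    obtain ⟨y, hy⟩ := (w1 x _).1 (a.2.2 x)
    simp only [phiS_apply, hy]
    exact dt_lap e x μ y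

end

theorem Plu.exists {W : Submodule ℂ (K → ℂ)} {p : (Fin r → K) → ℂ} (h : Plu W p) :
    ∃ (w : Fin r → K → ℂ) (c : ℂ), LinearIndependent ℂ w ∧ c ≠ 0 ∧
      (∀ σ, p σ = c * (Matrix.of fun i l => w i (σ l)).det) ∧
      ∀ v, v ∈ W ↔ ∃ y : Fin r → ℂ, ∀ k, v k = ∑ i, w i k * y i := by
  obtain ⟨b, c, hc, e⟩ := h
  have li : LinearIndependent ℂ (W.subtype ∘ b) := b.linearIndependent.map' _ (ker_subtype _)
  refine ⟨fun i => (b i).1, c, li, hc, e, fun v => ?_⟩
  have : ∀ (y : Fin r → ℂ) k, (∑ i, y i • b i).1 k = ∑ i, (b i).1 k * y i := fun y k => by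
    simp [mul_comm]
  refine ⟨fun h => ⟨b.repr ⟨v, h⟩, fun k => ?_⟩, fun ⟨y, h⟩ => ?_⟩
  · rw [← this, b.sum_repr]
  · rw [show v = (∑ i, y i • b i).1 from funext fun k => (h k).trans (this y k).symm]
    exact Subtype.property _

/-- **Riemann-Roch for a subbundle** after a sufficiently positive twist -/
theorem finrank_Sc (hN : Nd N) (hp : ∀ σ, p σ ∈ H0 N ((∏ l, A (σ l)) / D))
    (hW : ∀ x, Plu (W x) fun σ => p σ x) : ∃ P : LB R, ∀ T, h1 N (P * T) = 0 →
      FiniteDimensional ℂ (Sc N (fun k => A k * T) W) ∧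
        (finrank ℂ (Sc N (fun k => A k * T) W) : ℤ) = r * (deg T + 1 - gen R N) + deg D := by
  choose w c hw hc e w1 using fun x => (hW x).exists
  obtain ⟨M, μ, m1, m2⟩ := exists_rows_sec hN hp hw hc e
  refine ⟨M / (M ^ r / D), fun T hT => ?_⟩
  rw [div_mul_eq_mul_div] at hT
  have d1 : ∀ l : Fin (r + 1), dt p (fun a => μ (l.succAbove a)) ∈ H0 N (M ^ r / D) := fun l => by
    simpa using dt_mem hp (B := fun _ => M) fun a k => m1 (l.succAbove a) k
  have d2 : ∀ x, ∃ l : Fin (r + 1), dt p (fun a => μ (l.succAbove a)) x ≠ 0 := fun x =>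
    (exists_minor (m2 x)).imp fun l a => by
      rw [dt_apply (e x)]
      exact mul_ne_zero (hc x) a
  have i := phiS_injective (T := T) m1 m2 w1
  have k := ker_psiS (T := T) hp e hc m1 m2 w1 d1 d2
  have mo := h1_mul_le_of_bpf (N := N) (L' := M ^ r / D) fun x => (d2 x).elim fun l a => ⟨_, d1 l, a⟩
  have z1 : h1 N (M * T) = 0 := le_antisymm (by
    simpa only [div_mul_cancel, hT] using mo (M * T / (M ^ r / D))) (h1_nonneg _ _)
  have z2 : h1 N (M * T * (M ^ r / D)) = 0 := le_antisymm ((mo _).trans z1.le) (h1_nonneg _ _)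
  refine ⟨.of_injective _ i, ?_⟩
  have a := congrArg (Nat.cast : ℕ → ℤ) (LinearMap.finrank_range_add_finrank_ker
    (psiS (F := M * T) d1))
  rw [range_psiS d1 d2 hT, k, finrank_top, LinearMap.finrank_range_of_inj i, finrank_pi_fintype,
    Fin.sum_const, smul_eq_mul] at a
  push_cast at a
  rw [finrank_H0 z1, finrank_H0 z2] at a
  simp only [deg_mul, deg_div, deg_pow] at a
  linear_combination a

end Sb

end Vale.Agent.P269.Vir
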