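import Vale.Agent.P269.Vir.Pt
import Vale.Agent.P287Q.G.Vir.Sub

/-!
# Obstruction spaces on an abstract nodal curve: definitions
-/

set_option linter.unusedSectionVars false

namespace Vale.Agent.P269.Vir

open Set Function Topology Filter Module Cv

variable {J K Z : Type} [Fintype J] {Θ : J → Type} [∀ j, AddCommGroup (Θ j)]
  [∀ j, Module ℂ (Θ j)]

/-- the kernel of the Jacobian matrix `g` on the movable directions -/
def Vt (g : K → J → ℂ) (mov : Set J) : Submodule ℂ (J → ℂ) where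
  carrier := {η | (∀ j ∉ mov, η j = 0) ∧ ∀ k, ∑ j, g k j * η j = 0}
  add_mem' a b := ⟨fun j h => by simp [a.1 j h, b.1 j h], fun k => by
    simp [mul_add, Finset.sum_add_distrib, a.2, b.2]⟩
  zero_mem' := ⟨fun _ _ => rfl, by simp⟩
  smul_mem' t _ a := ⟨fun j h => by simp [a.1 j h], fun k => by
    simp [mul_left_comm _ t, ← Finset.mul_sum, a.2]⟩

theorem mem_Vt {g : K → J → ℂ} {mov : Set J} {η : J → ℂ} :
    η ∈ Vt g mov ↔ (∀ j ∉ mov, η j = 0) ∧ ∀ k, ∑ j, g k j * η j = 0 := Iff.rfl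

theorem finrank_Wg_add (g : K → J → ℂ) (mov : Set J) [Fintype mov] :
    finrank ℂ (Wg g mov) + finrank ℂ (Vt g mov) = Fintype.card mov := by
  classical
  let ex : (mov → ℂ) →ₗ[ℂ] J → ℂ := LinearMap.pi fun j =>
    if hj : j ∈ mov then LinearMap.proj (⟨j, hj⟩ : mov) else 0
  have e0 : ∀ η, ∀ j ∉ mov, ex η j = 0 := fun η j hj => by simp [ex, hj]
  have e1 : ∀ η (j : mov), ex η j = η j := fun η j => by simp [ex, j.2]
  have e2 : ∀ η : J → ℂ, (∀ j ∉ mov, η j = 0) → ex (fun j => η j) = η := fun η h =>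
    funext fun j => by
      by_cases hj : j ∈ mov
      exacts [e1 _ ⟨j, hj⟩, (e0 _ j hj).trans (h j hj).symm]
  have i : Injective ex := fun η η' e => funext fun j => by rw [← e1 η, ← e1 η', e]
  have a := LinearMap.finrank_range_add_finrank_ker ((Matrix.of g).mulVecLin ∘ₗ ex)
  rw [show LinearMap.range ((Matrix.of g).mulVecLin ∘ₗ ex) = Wg g mov from Submodule.ext fun w =>
      ⟨fun ⟨η, e⟩ => ⟨ex η, e0 η, congrFun e⟩, fun ⟨η, b, e⟩ =>
        ⟨fun j => η j, (congrArg (Matrix.of g).mulVecLin (e2 η b)).trans (funext e)⟩⟩,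
    (Submodule.equivMapOfInjective ex i _).finrank_eq,
    show (LinearMap.ker ((Matrix.of g).mulVecLin ∘ₗ ex)).map ex = Vt g mov from
      Submodule.ext fun η => ⟨by rintro ⟨η, e, rfl⟩; exact ⟨e0 η, congrFun e⟩, fun b =>
        ⟨fun j => η j, (congrArg (Matrix.of g).mulVecLin (e2 η b.1)).trans (funext b.2),
          e2 η b.1⟩⟩,
    finrank_fintype_fun_eq_card] at a
  exact a

namespace PD

variable {d d' : PD K Z Θ} {pw : Z → ∀ j, Θ j} {mov : Set J} {g : K → J → ℂ}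

/-- only the movable components matter -/
theorem dEq_congr (h1 : ∀ j ∈ mov, d.tv j = d'.tv j) (h2 : ∀ k z, ∀ j ∈ mov, d.D k z j = d'.D k z j)
    {Y : ∀ j, Θ j →ₗ[ℂ] ℂ} (hY : ∀ j ∉ mov, Y j = 0) : d.dEq pw Y = d'.dEq pw Y :=
  Prod.ext (funext₂ fun j m => by
    by_cases hj : j ∈ mov
    · rw [dEq_fst, dEq_fst, h1 j hj]
    · simp [dEq_fst, hY j hj]) (funext₂ fun k z => Finset.sum_congr rfl fun j _ => by
    by_cases hj : j ∈ mov
    · rw [h2 k z j hj]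
    · simp [hY j hj])

theorem Im_congr (h1 : ∀ j ∈ mov, d.tv j = d'.tv j)
    (h2 : ∀ k z, ∀ j ∈ mov, d.D k z j = d'.D k z j) : d.Im pw mov = d'.Im pw mov :=
  Submodule.ext fun _ => exists_congr fun _ => and_congr_right fun a => by
    rw [dEq_congr h1 h2 a]

variable (d) in
/-- change of frames -/
noncomputable def sc (b l : J → ℂ) (e lk : K → ℂ) : PD K Z Θ where
  tv j := (b j)⁻¹ • d.tv j
  D k z j := d.D k z j / (lk k * e k / (l j * b j))
  tot k z := d.tot k z / e k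

/-- change of frames for the values of the equations -/
noncomputable def scF (b l : J → ℂ) (e lk : K → ℂ) (κ : Fib Θ K Z) : Fib Θ K Z :=
  (fun j m => κ.1 j m / (l j * b j * b j), fun k z => κ.2 k z / (lk k * e k))

variable {b l : J → ℂ} {e lk : K → ℂ}

theorem sc_dEq (hb : ∀ j, b j ≠ 0) (hl : ∀ j, l j ≠ 0) (Y : ∀ j, Θ j →ₗ[ℂ] ℂ) :
    (d.sc b l e lk).dEq pw (fun j => (l j * b j)⁻¹ • Y j) = scF b l e lk (d.dEq pw Y) :=
  Prod.ext (funext₂ fun j m => by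
    simp only [dEq_fst, kos, sc, scF, LinearMap.smul_apply, smul_eq_mul]
    field_simp [hb j, hl j]) (funext₂ fun k z => by
    simp only [dEq_snd, sc, scF, LinearMap.smul_apply, smul_eq_mul, Finset.sum_div]
    refine Finset.sum_congr rfl fun j _ => ?_
    rw [div_div_eq_mul_div, div_mul_eq_mul_div, mul_assoc,
      mul_inv_cancel_left₀ (mul_ne_zero (hl j) (hb j))])

theorem sc_mem (hb : ∀ j, b j ≠ 0) (hl : ∀ j, l j ≠ 0) {κ : Fib Θ K Z} (h : κ ∈ d.Im pw mov) :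
    scF b l e lk κ ∈ (d.sc b l e lk).Im pw mov := by
  obtain ⟨Y, a, rfl⟩ := mem_Im.1 h
  exact ⟨_, fun j hj => by simp [a j hj], sc_dEq hb hl Y⟩

theorem Rel.sc (h : d.Rel pw mov g) (hb : ∀ j, b j ≠ 0) (hl : ∀ j, l j ≠ 0) :
    (d.sc b l e lk).Rel pw mov fun k j => g k j * l j / lk k := fun k z j hj => by
  simp only [PD.sc, LinearMap.smul_apply, smul_eq_mul]
  rw [div_div_eq_mul_div, div_mul_eq_mul_div, div_mul_div_comm, mul_right_comm (g k j), ← h k z j hj]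
  field_simp [hb j, hl j]

theorem Reg.sc {K₀ : Set K} (h : d.Reg pw mov K₀ g) (hb : ∀ j, b j ≠ 0) (hl : ∀ j, l j ≠ 0)
    (he : ∀ k, e k ≠ 0) (hk : ∀ k, lk k ≠ 0) :
    (d.sc b l e lk).Reg pw mov K₀ fun k j => g k j * l j / lk k :=
  ⟨fun j hj => (h.tv_ne j hj).imp fun _ a => mul_ne_zero (inv_ne_zero (hb j)) a,
    fun k => (h.tot_ne k).imp fun _ a => div_ne_zero a (he k), h.rel.sc hb hl, h.jac.scale hk hl⟩

/-- the image of the linearised equations is a closed family if the rank does not jump -/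
theorem Tends.mem_Im' [Finite K] {α : Type} {l : Filter α} [l.NeBot] {d : α → PD K Z Θ}
    {d0 : PD K Z Θ} (t : Tends d l d0 mov) {K₀ : Set K} (h : d0.Reg pw mov K₀ g)
    {g' : α → K → J → ℂ} (hr : ∀ᶠ a in l, (d a).Rel pw mov (g' a) ∧
      finrank ℂ (Wg (g' a) mov) ≤ finrank ℂ (Wg g mov))
    (hg : ∀ k, ∀ j ∈ mov, Tendsto (fun a => g' a k j) l (𝓝 (g k j))) {κ : α → Fib Θ K Z}
    {κ0 : Fib Θ K Z} (h1 : ∀ᶠ a in l, κ a ∈ (d a).Im pw mov) (h2 : Tendsto κ l (𝓝 κ0)) :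
    κ0 ∈ d0.Im pw mov := by
  classical
  cases nonempty_fintype K
  choose m hm using h.tv_ne
  have h0 : ∀ j ∈ mov, d0.tv j (if hj : j ∈ mov then m j hj else 0) ≠ 0 := fun j hj => by
    rw [dif_pos hj]; exact hm j hj
  have h3 : ∀ᶠ a in l, ∀ j ∈ mov, (d a).tv j (if hj : j ∈ mov then m j hj else 0) ≠ 0 :=
    (eventually_all_finite (toFinite mov)).2 fun j hj => (t.tv j hj _).eventually_ne (h0 j hj)
  obtain ⟨Y, hY⟩ := ((hr.and (h1.and h3)).mono fun a ⟨b, c, e⟩ => b.1.exists_norm e c).choice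
  obtain ⟨c, hc⟩ := hY.choice
  obtain ⟨Y0, c0, a, -, b, rfl⟩ := t.exists_lim h0 h.tot_ne (hc.mono fun a b => ⟨b.1, b.2.1⟩)
    (h2.congr' (hc.mono fun a b => b.2.2.2))
  refine add_mem ⟨Y0, a, rfl⟩ (h.rel.nrm_mem (mem_of_tendsto_rank (hr.mono fun _ b => b.2)
    (fun w ⟨η, a, e⟩ => ⟨fun x k => ∑ j, g' x k j * η j, fun x => ⟨η, a, fun _ => rfl⟩,
      tendsto_pi_nhds.2 fun k => ?_⟩) (hc.mono fun _ b => b.2.2.1) b))
  rw [← e k]
  refine tendsto_finsetSum _ fun j _ => ?_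
  by_cases hj : j ∈ mov
  · exact (hg k j hj).mul_const _
  · simp [a j hj]

end PD

variable {X : Type} [TopologicalSpace X] {R : RS X} {N N' : Finset (X × X)}

/-- Test data on a curve: `tv j` are the test sections of `B j`, `tot k` those of `E k`; `D` are the
coefficients of the linearised equations, `g` is the Jacobian matrix, `pw z j` is the test of the
field `j` that is used in the equations tested with `z`; `mov` are the movable fields and `n` is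
the dimension of the kernel of the Jacobian matrix. -/
structure CD (R : RS X) (K Z : Type) (Θ : J → Type) [∀ j, AddCommGroup (Θ j)]
    [∀ j, Module ℂ (Θ j)] where
  B : J → LB R
  E : K → LB R
  tv : ∀ j, Θ j →ₗ[ℂ] X → ℂ
  D : K → Z → J → X → ℂ
  tot : K → Z → X → ℂ
  g : K → J → X → ℂ
  pw : Z → ∀ j, Θ j
  mov : Set J
  n : ℕ

/-- functions on the curve with values in `Fib` -/
abbrev Gl (X : Type) (Θ : J → Type) (K Z : Type) : Type :=
  (∀ j, Θ j × Θ j → X → ℂ) × (K → Z → X → ℂ)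

/-- evaluation at a point -/
def evG (x : X) : Gl X Θ K Z →ₗ[ℂ] Fib Θ K Z where
  toFun κ := (fun j m => κ.1 j m x, fun k z => κ.2 k z x)
  map_add' _ _ := rfl
  map_smul' _ _ := rfl

theorem ext_evG {κ κ' : Gl X Θ K Z} (h : ∀ x, evG x κ = evG x κ') : κ = κ' :=
  Prod.ext (funext₂ fun j m => funext fun x => congrFun (congrFun (congrArg Prod.fst (h x)) j) m)
    (funext₂ fun k z => funext fun x => congrFun (congrFun (congrArg Prod.snd (h x)) k) z)

/-- evaluation of thickened fields -/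
def evY (x : X) : (∀ j, Θ j →ₗ[ℂ] X → ℂ) →ₗ[ℂ] ∀ j, Θ j →ₗ[ℂ] ℂ where
  toFun Y j := LinearMap.proj x ∘ₗ Y j
  map_add' _ _ := rfl
  map_smul' _ _ := rfl

@[simp] theorem evY_apply (x : X) (Y : ∀ j, Θ j →ₗ[ℂ] X → ℂ) (j : J) (m : Θ j) :
    evY x Y j m = Y j m x := rfl

/-- the Euler characteristic on the nodal curve -/
noncomputable def chiN (N : Finset (X × X)) (L : LB R) : ℤ := deg L + 1 - gen R N

namespace CD

variable (c : CD R K Z Θ) (N : Finset (X × X)) (L : J → LB R) (Lk : K → LB R) (G : LB R)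

/-- the data at a point -/
def pt (x : X) : PD K Z Θ := ⟨evY x c.tv, fun k z j => c.D k z j x, fun k z => c.tot k z x⟩

/-- the fibre of the obstruction sheaf -/
def Im (x : X) : Submodule ℂ (Fib Θ K Z) := (c.pt x).Im c.pw c.mov

/-- The data are holomorphic and regular; the fields are sections of `L j` and the equations are
sections of `Lk k`; `G` is the determinant of the kernel of the Jacobian matrix. -/
structure Ok : Prop where
  tv_mem : ∀ j ∈ c.mov, ∀ m, c.tv j m ∈ H0 N (c.B j)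
  D_mem : ∀ k z, ∀ j ∈ c.mov, c.D k z j ∈ H0 N (Lk k * c.E k / (L j * c.B j))
  tot_mem : ∀ k z, c.tot k z ∈ H0 N (c.E k)
  reg : ∀ x, ∃ K₁, (c.pt x).Reg c.pw c.mov K₁ fun k j => c.g k j x
  det : ∃ q : (Fin c.n → J) → X → ℂ, (∀ s, q s ∈ H0 N ((∏ i, L (s i)) / G)) ∧
    ∀ x, Sb.Plu (Vt (fun k j => c.g k j x) c.mov) fun s => q s x

/-- the movable thickened fields -/
def Fld : Submodule ℂ (∀ j, Θ j →ₗ[ℂ] X → ℂ) where
  carrier := {Y | (∀ j ∉ c.mov, Y j = 0) ∧ ∀ j m, Y j m ∈ H0 N (L j * c.B j)}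
  add_mem' a b := ⟨fun j h => by simp [a.1 j h, b.1 j h], fun j m => add_mem (a.2 j m) (b.2 j m)⟩
  zero_mem' := ⟨fun _ _ => rfl, fun _ _ => zero_mem _⟩
  smul_mem' _ _ a := ⟨fun j h => by simp [a.1 j h], fun j m => Submodule.smul_mem _ _ (a.2 j m)⟩

/-- the obstruction space -/
def Ob : Submodule ℂ (Gl X Θ K Z) where
  carrier := {κ | (∀ j m, κ.1 j m ∈ H0 N (L j * c.B j * c.B j)) ∧
    (∀ k z, κ.2 k z ∈ H0 N (Lk k * c.E k)) ∧ ∀ x, evG x κ ∈ c.Im x}
  add_mem' a b := ⟨fun j m => add_mem (a.1 j m) (b.1 j m), fun k z => add_mem (a.2.1 k z) (b.2.1 k z),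
    fun x => add_mem (a.2.2 x) (b.2.2 x)⟩
  zero_mem' := ⟨fun _ _ => zero_mem _, fun _ _ => zero_mem _, fun _ => zero_mem _⟩
  smul_mem' _ _ a := ⟨fun j m => Submodule.smul_mem _ _ (a.1 j m),
    fun k z => Submodule.smul_mem _ _ (a.2.1 k z), fun x => Submodule.smul_mem _ _ (a.2.2 x)⟩

/-- the linearised equations -/
def dG : (∀ j, Θ j →ₗ[ℂ] X → ℂ) →ₗ[ℂ] Gl X Θ K Z where
  toFun Y := (fun j m => c.tv j m.2 * Y j m.1 - c.tv j m.1 * Y j m.2,
    fun k z => ∑ j, c.D k z j * Y j (c.pw z j))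
  map_add' Y Y' := Prod.ext (funext₂ fun j m => by
    simp only [Pi.add_apply, LinearMap.add_apply, Prod.fst_add]
    ring) (funext₂ fun k z => by simp [mul_add, Finset.sum_add_distrib])
  map_smul' a Y := Prod.ext (funext₂ fun j m => by simp [smul_sub]) (funext₂ fun k z => by
    simp [Finset.smul_sum])

/-- multiples of the test factors -/
def nG : (K → X → ℂ) →ₗ[ℂ] Gl X Θ K Z where
  toFun a := (0, fun k z => a k * c.tot k z)
  map_add' _ _ := Prod.ext (add_zero _).symm (funext₂ fun _ _ => add_mul _ _ _)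
  map_smul' t a := Prod.ext (smul_zero _).symm (funext₂ fun k z =>
    smul_mul_assoc t (a k) (c.tot k z))

/-- multiples of the tests -/
def tG : (J → X → ℂ) →ₗ[ℂ] ∀ j, Θ j →ₗ[ℂ] X → ℂ where
  toFun η j := LinearMap.mulLeft ℂ (η j) ∘ₗ c.tv j
  map_add' _ _ := funext fun _ => LinearMap.ext fun _ => add_mul _ _ _
  map_smul' t η := funext fun j => LinearMap.ext fun m => smul_mul_assoc t (η j) (c.tv j m)

/-- restriction to sub-tests `i j : Θ' j → Θ j`, `ζ : Z' → Z` -/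
def sub {Z' : Type} {Θ' : J → Type} [∀ j, AddCommGroup (Θ' j)] [∀ j, Module ℂ (Θ' j)]
    (i : ∀ j, Θ' j →ₗ[ℂ] Θ j) (ζ : Z' → Z) (pw' : Z' → ∀ j, Θ' j) : CD R K Z' Θ' where
  B := c.B
  E := c.E
  tv j := c.tv j ∘ₗ i j
  D k z := c.D k (ζ z)
  tot k z := c.tot k (ζ z)
  g := c.g
  pw := pw'
  mov := c.mov
  n := c.n

/-- the sections of the normal sheaf -/
def Nrm : Submodule ℂ (K → X → ℂ) where
  carrier := {a | (∀ k, a k ∈ H0 N (Lk k)) ∧ ∀ x, (fun k => a k x) ∈ Wg (fun k j => c.g k j x) c.mov}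
  add_mem' a b := ⟨fun k => add_mem (a.1 k) (b.1 k), fun x => add_mem (a.2 x) (b.2 x)⟩
  zero_mem' := ⟨fun _ => zero_mem _, fun _ => zero_mem _⟩
  smul_mem' _ _ a := ⟨fun k => Submodule.smul_mem _ _ (a.1 k), fun x => Submodule.smul_mem _ _ (a.2 x)⟩

variable {c N L Lk G}

theorem Ok.tv_ne (h : c.Ok N L Lk G) (x : X) : ∀ j ∈ c.mov, ∃ m, (c.pt x).tv j m ≠ 0 :=
  (h.reg x).choose_spec.tv_ne

theorem Ok.tot_ne (h : c.Ok N L Lk G) (x : X) : ∀ k, ∃ z, (c.pt x).tot k z ≠ 0 :=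
  (h.reg x).choose_spec.tot_ne

theorem Ok.rel (h : c.Ok N L Lk G) (x : X) : (c.pt x).Rel c.pw c.mov fun k j => c.g k j x :=
  (h.reg x).choose_spec.rel

theorem Ok.finrank_Vt (h : c.Ok N L Lk G) (x : X) :
    finrank ℂ (Vt (fun k j => c.g k j x) c.mov) = c.n :=
  let ⟨_, _, a⟩ := h.det
  let ⟨v, _⟩ := a x
  (finrank_eq_card_basis v).trans (Fintype.card_fin _)

theorem mem_Nrm {a : K → X → ℂ} : a ∈ c.Nrm N Lk ↔ (∀ k, a k ∈ H0 N (Lk k)) ∧
    ∀ x, (fun k => a k x) ∈ Wg (fun k j => c.g k j x) c.mov := Iff.rfl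

theorem evG_dG (Y : ∀ j, Θ j →ₗ[ℂ] X → ℂ) (x : X) :
    evG x (c.dG Y) = (c.pt x).dEq c.pw (evY x Y) :=
  Prod.ext rfl (funext₂ fun _ _ => Finset.sum_apply _ _ _)

theorem evG_nG (a : K → X → ℂ) (x : X) : evG x (c.nG a) = (c.pt x).nrm fun k => a k x := rfl

theorem evY_tG (η : J → X → ℂ) (x : X) :
    evY x (c.tG η) = fun j => η j x • (c.pt x).tv j := rfl

theorem mem_Fld {Y : ∀ j, Θ j →ₗ[ℂ] X → ℂ} : Y ∈ c.Fld N L ↔
    (∀ j ∉ c.mov, Y j = 0) ∧ ∀ j m, Y j m ∈ H0 N (L j * c.B j) := Iff.rfl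

theorem mem_Ob {κ : Gl X Θ K Z} : κ ∈ c.Ob N L Lk ↔
    (∀ j m, κ.1 j m ∈ H0 N (L j * c.B j * c.B j)) ∧ (∀ k z, κ.2 k z ∈ H0 N (Lk k * c.E k)) ∧
      ∀ x, evG x κ ∈ c.Im x := Iff.rfl

theorem Ok.twist (h : c.Ok N L Lk G) (T : LB R) :
    c.Ok N (fun j => L j * T) (fun k => Lk k * T) (G * T ^ c.n) :=
  ⟨h.tv_mem, fun k z j hj => by
    rw [mul_right_comm, mul_right_comm (L j), mul_div_mul_right_eq_div]; exact h.D_mem k z j hj,
    h.tot_mem, h.reg, h.det.imp fun q a => ⟨fun s => by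
      rw [Finset.prod_mul_distrib, Fin.prod_const, mul_div_mul_right_eq_div]; exact a.1 s, a.2⟩⟩

theorem Ok.anti (h : c.Ok N' L Lk G) (e : N ⊆ N') : c.Ok N L Lk G :=
  ⟨fun j hj m => H0_anti e (h.tv_mem j hj m), fun k z j hj => H0_anti e (h.D_mem k z j hj),
    fun k z => H0_anti e (h.tot_mem k z), h.reg,
    h.det.imp fun _ a => ⟨fun s => H0_anti e (a.1 s), a.2⟩⟩

theorem Ok.Im_node (h : c.Ok N L Lk G) {n : X × X} (hn : n ∈ N) : c.Im n.1 = c.Im n.2 :=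
  PD.Im_congr (fun j hj => LinearMap.ext fun m => (h.tv_mem j hj m).2 n hn)
    fun k z j hj => (h.D_mem k z j hj).2 n hn

theorem Ok.g_mem (h : c.Ok N L Lk G) (k : K) {j : J} (hj : j ∈ c.mov) :
    c.g k j ∈ H0 N (Lk k / L j) :=
  mem_of_bpf (h.tot_mem k) (fun x => (h.tot_ne x) k) fun z => by
    have := H0.mul_mem (h.D_mem k z j hj) (h.tv_mem j hj (c.pw z j))
    rwa [show c.D k z j * c.tv j (c.pw z j) = c.g k j * c.tot k z from
      funext fun x => (h.rel x) k z j hj, div_mul_eq_mul_div, mul_div_mul_right_eq_div,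
      mul_div_right_comm] at this

theorem Ok.dG_mem (h : c.Ok N L Lk G) {Y : ∀ j, Θ j →ₗ[ℂ] X → ℂ} (hY : Y ∈ c.Fld N L) :
    c.dG Y ∈ c.Ob N L Lk := by
  refine ⟨fun j m => ?_, fun k z => Submodule.sum_mem _ fun j _ => ?_, fun x =>
    ⟨evY x Y, fun j hj => LinearMap.ext fun m => by simp [hY.1 j hj], (evG_dG Y x).symm⟩⟩
  · by_cases hj : j ∈ c.mov
    · rw [mul_comm]
      exact sub_mem (H0.mul_mem (h.tv_mem j hj _) (hY.2 j _)) (H0.mul_mem (h.tv_mem j hj _) (hY.2 j _))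
    · simp [dG, hY.1 j hj]
  · by_cases hj : j ∈ c.mov
    · simpa using H0.mul_mem (h.D_mem k z j hj) (hY.2 j (c.pw z j))
    · simp [hY.1 j hj]

theorem Ok.nG_mem (h : c.Ok N L Lk G) {a : K → X → ℂ} (ha : a ∈ c.Nrm N Lk) :
    c.nG a ∈ c.Ob N L Lk :=
  ⟨fun _ _ => zero_mem _, fun k z => H0.mul_mem (ha.1 k) (h.tot_mem k z),
    fun x => (h.rel x).nrm_mem (ha.2 x)⟩

theorem Ok.tG_mem (h : c.Ok N L Lk G) {η : J → X → ℂ} (h0 : ∀ j ∉ c.mov, η j = 0)
    (hη : ∀ j, η j ∈ H0 N (L j)) : c.tG η ∈ c.Fld N L :=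
  ⟨fun j hj => LinearMap.ext fun m => by simp [tG, h0 j hj], fun j m => by
    by_cases hj : j ∈ c.mov
    · exact H0.mul_mem (hη j) (h.tv_mem j hj m)
    · simp [tG, h0 j hj]⟩

theorem Ok.dG_tG (h : c.Ok N L Lk G) {η : J → X → ℂ} (h0 : ∀ j ∉ c.mov, η j = 0) :
    c.dG (c.tG η) = c.nG fun k => ∑ j, c.g k j * η j :=
  ext_evG fun x => by
    rw [evG_dG, evY_tG, (h.rel x).dEq_tv fun j hj => by simp [h0 j hj], evG_nG]
    simp

/-- fields with vanishing Koszul relations are multiples of the tests -/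
theorem Ok.exists_tG (h : c.Ok N L Lk G) {Y : ∀ j, Θ j →ₗ[ℂ] X → ℂ} (hY : Y ∈ c.Fld N L)
    (h0 : (c.dG Y).1 = 0) :
    ∃ η : J → X → ℂ, (∀ j ∉ c.mov, η j = 0) ∧ (∀ j, η j ∈ H0 N (L j)) ∧ c.tG η = Y := by
  choose η a b using fun x => PD.exists_eta (pw := c.pw) (h.tv_ne x) (Y := evY x Y)
    (fun j hj => LinearMap.ext fun m => by simp [hY.1 j hj])
    ((congrArg Prod.fst (evG_dG Y x)).symm.trans (funext₂ fun j m =>
      congrFun (congrFun (congrFun h0 j) m) x))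
  have e : ∀ j m, (fun x => η x j) * c.tv j m = Y j m := fun j m => funext fun x =>
    (LinearMap.congr_fun (congrFun (b x) j) m).symm
  refine ⟨fun j x => η x j, fun j hj => funext fun x => a x j hj, fun j => ?_,
    funext fun j => LinearMap.ext (e j)⟩
  by_cases hj : j ∈ c.mov
  · exact mem_of_bpf (h.tv_mem j hj) (fun x => (h.tv_ne x) j hj) fun m => e j m ▸ hY.2 j m
  · exact (congrArg (· ∈ H0 N (L j)) (funext fun x => a x j hj : (fun x => η x j) = 0)).mpr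
      (zero_mem _)

theorem Ok.exists_nG (h : c.Ok N L Lk G) {κ : Gl X Θ K Z} (hκ : κ ∈ c.Ob N L Lk) (h0 : κ.1 = 0) :
    ∃ a ∈ c.Nrm N Lk, c.nG a = κ := by
  choose a a' b using fun x => (h.rel x).exists_nrm (h.tv_ne x) (hκ.2.2 x)
    (funext₂ fun j m => congrFun (congrFun (congrFun h0 j) m) x)
  have e : c.nG (fun k x => a x k) = κ := ext_evG b
  exact ⟨_, ⟨fun k => mem_of_bpf (h.tot_mem k) (fun x => (h.tot_ne x) k) fun z =>
    (congrArg (·.2 k z ∈ H0 N (Lk k * c.E k)) e).mpr (hκ.2.1 k z), a'⟩, e⟩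

end CD

/-- restriction of the values of the equations to sub-tests -/
def resG {Z' : Type} {Θ' : J → Type} [∀ j, AddCommGroup (Θ' j)] [∀ j, Module ℂ (Θ' j)]
    (i : ∀ j, Θ' j →ₗ[ℂ] Θ j) (ζ : Z' → Z) : Gl X Θ K Z →ₗ[ℂ] Gl X Θ' K Z' where
  toFun κ := (fun j m => κ.1 j (i j m.1, i j m.2), fun k z => κ.2 k (ζ z))
  map_add' _ _ := rfl
  map_smul' _ _ := rfl

end Vale.Agent.P269.Vir
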