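import Vale.Agent.P269.Holo.Set2

/-!
# Plücker vectors of subspaces of coordinate spaces
-/

set_option linter.unusedSectionVars false

namespace Vale.Agent.P269.Vir

open Set Function Module Matrix

variable {J J' N N' I : Type} [Fintype J] [Fintype J'] [Fintype N] [Fintype N'] [Fintype I]
  [DecidableEq N] [DecidableEq N'] [DecidableEq I]

/-- the minors of a family of vectors -/
noncomputable def mn (v : N → J → ℂ) (s : N → J) : ℂ := (Matrix.of fun i k => v i (s k)).det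

/-- `q` is a nonzero multiple of the vector of maximal minors of a basis of `V` -/
def IsPl (V : Submodule ℂ (J → ℂ)) (q : (N → J) → ℂ) : Prop :=
  ∃ (c : ℂ) (v : Basis N ℂ V), c ≠ 0 ∧ ∀ s, q s = c * mn (fun i => (v i).1) s

/-- the action of a matrix on Plücker vectors -/
noncomputable def mp (A : J' → J → ℂ) (q : (N → J) → ℂ) (s' : N → J') : ℂ :=
  ∑ s : N → J, (∏ k, A (s' k) (s k)) * q s

/-- the exterior product of Plücker vectors -/
noncomputable def wg (q : (N → J) → ℂ) (q' : (N' → J) → ℂ) (s : N ⊕ N' → J) : ℂ :=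
  ∑ σ : Equiv.Perm (N ⊕ N'), (Equiv.Perm.sign σ : ℤ) *
    (q (fun k => s (σ (.inl k))) * q' fun k => s (σ (.inr k)))

theorem mp_mn (A : J' → J → ℂ) (v : N → J → ℂ) (s' : N → J') :
    mp A (mn v) s' = mn (fun i => Matrix.of A *ᵥ v i) s' := by
  simp only [mp, mn, det_apply', of_apply, mulVec, dotProduct, Finset.prod_univ_sum,
    Fintype.piFinset_univ, Finset.mul_sum, Finset.prod_mul_distrib]
  rw [Finset.sum_comm]
  exact Finset.sum_congr rfl fun _ _ => Finset.sum_congr rfl fun _ _ => mul_left_comm _ _ _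

theorem wg_mn (v : N ⊕ N' → J → ℂ) (s : N ⊕ N' → J) :
    wg (mn fun i => v (.inl i)) (mn fun i => v (.inr i)) s =
      (Fintype.card (Equiv.Perm N) * Fintype.card (Equiv.Perm N') : ℕ) * mn v s := by
  have e : ∀ {M : Type} [Fintype M] [DecidableEq M] (v : M → J → ℂ) (s : M → J),
      mn v s = ∑ σ : Equiv.Perm M, (Equiv.Perm.sign σ : ℤ) * ∏ i, v i (s (σ i)) := fun v s => by
    rw [mn, ← det_transpose, det_apply']
    rfl
  have f : ∀ (τ : Equiv.Perm N) (τ' : Equiv.Perm N'), mn v s = ∑ σ : Equiv.Perm (N ⊕ N'),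
      ((Equiv.Perm.sign σ : ℤ) : ℂ) * (((Equiv.Perm.sign τ : ℤ) * ∏ i, v (.inl i) (s (σ (.inl (τ i))))) *
        ((Equiv.Perm.sign τ' : ℤ) * ∏ i, v (.inr i) (s (σ (.inr (τ' i)))))) := fun τ τ' => by
    rw [e]
    refine (Fintype.sum_equiv (Equiv.mulRight (Equiv.Perm.sumCongr τ τ')) _ _ fun σ => ?_).symm
    simp only [Equiv.coe_mulRight, Equiv.Perm.sign_mul, Equiv.Perm.sign_sumCongr, Units.val_mul,
      Int.cast_mul, Fintype.prod_sum_type, Equiv.Perm.mul_apply, Equiv.Perm.sumCongr_apply,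
      Sum.map_inl, Sum.map_inr]
    ring
  rw [← nsmul_eq_mul, ← Fintype.card_prod, ← Finset.card_univ, ← Finset.sum_const,
    Fintype.sum_prod_type' fun _ _ => mn v s, Finset.sum_congr rfl fun τ _ =>
      (Finset.sum_congr rfl fun τ' _ => f τ τ').trans Finset.sum_comm, Finset.sum_comm]
  refine Finset.sum_congr rfl fun σ _ => ?_
  rw [e, e, Finset.sum_mul_sum, Finset.mul_sum]
  exact Finset.sum_congr rfl fun _ _ => Finset.mul_sum _ _ _

theorem mn_basis {V : Submodule ℂ (J → ℂ)} (v v' : Basis N ℂ V) (s : N → J) :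
    mn (fun i => (v' i).1) s = (v.toMatrix v').det * mn (fun i => (v i).1) s := by
  rw [mn, mn, ← det_transpose (v.toMatrix v'), ← det_mul]
  refine congrArg det (Matrix.ext fun i k => ?_)
  have := congrFun (congrArg Subtype.val (v.sum_toMatrix_smul_self v' i)) (s k)
  simp only [Submodule.coe_sum, Finset.sum_apply] at this
  exact this.symm

theorem exists_mn_ne {v : N → J → ℂ} (h : LinearIndependent ℂ v) : ∃ s, mn v s ≠ 0 := by
  classical
  obtain ⟨L, hL⟩ := (Matrix.of v).vecMulLinear.exists_leftInverse_of_injective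
    (LinearMap.ker_eq_bot.2 (Matrix.vecMul_injective_iff.2 h))
  have a := mp_mn (LinearMap.toMatrix' L) v id
  rw [show mn (fun i => of (LinearMap.toMatrix' L) *ᵥ v i) id = 1 from ?_] at a
  · by_contra! b
    simp [mp, b] at a
  · rw [mn, ← det_one (n := N)]
    refine congrArg det (Matrix.ext fun i k => ?_)
    have := congrFun (LinearMap.congr_fun hL (Pi.single i 1)) k
    simp only [LinearMap.comp_apply, vecMulLinear_apply, single_one_vecMul, LinearMap.id_apply] at this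
    rw [of_apply, show of (LinearMap.toMatrix' L) = LinearMap.toMatrix' L from rfl,
      LinearMap.toMatrix'_mulVec, one_apply, eq_comm, ← Pi.single_apply]
    exact (Pi.single_comm _ _ _).trans this.symm

variable {V V₁ V₂ : Submodule ℂ (J → ℂ)} {V' : Submodule ℂ (J' → ℂ)} {q q₁ : (N → J) → ℂ}

theorem isPl_basis (v : Basis N ℂ V) : IsPl V (mn fun i => (v i).1) :=
  ⟨1, v, one_ne_zero, fun _ => (one_mul _).symm⟩

theorem exists_isPl (h : finrank ℂ V = Fintype.card N) : ∃ q : (N → J) → ℂ, IsPl V q :=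
  ⟨_, isPl_basis ((finBasisOfFinrankEq ℂ V h).reindex (Fintype.equivFin N).symm)⟩

/-- a basis of a subspace given by vectors of the ambient space -/
theorem isPl_mn {v : N → J → ℂ} (h : LinearIndependent ℂ v) (h' : Submodule.span ℂ (range v) = V) :
    IsPl V (mn v) := by
  subst h'
  have := isPl_basis (Basis.span h)
  simp only [Basis.span_apply] at this
  exact this

namespace IsPl

theorem finrank (h : IsPl V q) : finrank ℂ V = Fintype.card N :=
  let ⟨_, v, _⟩ := h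
  finrank_eq_card_basis v

theorem ne (h : IsPl V q) : ∃ s, q s ≠ 0 :=
  let ⟨_, v, a, b⟩ := h
  (exists_mn_ne (v.linearIndependent.map' V.subtype V.ker_subtype)).imp fun s d =>
    (b s).trans_ne (mul_ne_zero a d)

theorem smul (h : IsPl V q) {μ : ℂ} (hμ : μ ≠ 0) : IsPl V fun s => μ * q s :=
  let ⟨c, v, a, b⟩ := h
  ⟨μ * c, v, mul_ne_zero hμ a, fun s => (congrArg _ (b s)).trans (mul_assoc _ _ _).symm⟩

theorem prop (h : IsPl V q) (h₁ : IsPl V q₁) : ∃ μ : ℂ, μ ≠ 0 ∧ ∀ s, q₁ s = μ * q s := by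
  obtain ⟨c, v, a, b⟩ := h
  obtain ⟨c₁, v₁, a₁, b₁⟩ := h₁
  refine ⟨c₁ * (v.toMatrix v₁).det / c, div_ne_zero (mul_ne_zero a₁
    (@isUnit_det_of_invertible _ _ _ _ _ _ (v.invertibleToMatrix v₁)).ne_zero) a, fun s => ?_⟩
  rw [b₁, b, mn_basis v v₁]
  field_simp

theorem reindex (h : IsPl V q) (e : N ≃ N') : IsPl V fun s : N' → J => q (s ∘ e) :=
  let ⟨c, v, a, b⟩ := h
  ⟨c, v.reindex e, a, fun s => (b _).trans (congrArg _ (by
    rw [mn, mn, ← det_submatrix_equiv_self e]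
    exact congrArg det (Matrix.ext fun i k => by simp)))⟩

/-- the image under a linear map that is injective on `V` -/
theorem map' (h : IsPl V q) (L : (J → ℂ) →ₗ[ℂ] J' → ℂ) (hi : ∀ η ∈ V, L η = 0 → η = 0)
    (hV : V.map L = V') : ∃ (c : ℂ) (v : N → J → ℂ), c ≠ 0 ∧ (∀ s, q s = c * mn v s) ∧
      IsPl V' fun s => c * mn (fun i => L (v i)) s := by
  obtain ⟨c, v, a, b⟩ := h
  refine ⟨c, _, a, b, (isPl_mn (v.linearIndependent.map' (L ∘ₗ V.subtype) (LinearMap.ker_eq_bot'.2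
    fun η e => Subtype.ext (hi η η.2 e))) ?_).smul a⟩
  rw [range_comp, ← Submodule.map_span, v.span_eq, Submodule.map_top, LinearMap.range_comp,
    V.range_subtype, hV]

theorem map (h : IsPl V q) (A : J' → J → ℂ) (hi : ∀ η ∈ V, Matrix.of A *ᵥ η = 0 → η = 0)
    (hV : ∀ η', η' ∈ V' ↔ ∃ η ∈ V, Matrix.of A *ᵥ η = η') : IsPl V' (mp A q) := by
  obtain ⟨c, v, -, b, d⟩ := h.map' (Matrix.of A).mulVecLin hi (Submodule.ext fun η => (hV η).symm)
  refine (congrArg (IsPl V') (funext fun s => ?_)).mp d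
  simp only [mulVecLin_apply, ← mp_mn, mp, b, Finset.mul_sum, mul_left_comm c]

theorem comp (h : IsPl V q) (ρ : J' → J) (hi : ∀ η ∈ V, η ∘ ρ = 0 → η = 0)
    (hV : ∀ η', η' ∈ V' ↔ ∃ η ∈ V, η ∘ ρ = η') : IsPl V' fun s => q (ρ ∘ s) := by
  obtain ⟨c, v, -, b, d⟩ := h.map' (LinearMap.funLeft ℂ ℂ ρ) hi (Submodule.ext fun η => (hV η).symm)
  exact (congrArg (IsPl V') (funext fun s => (b (ρ ∘ s)).symm)).mp d

theorem diag (h : IsPl V q) {a : J → ℂ} (ha : ∀ j, a j ≠ 0) (hV : ∀ η', η' ∈ V₁ ↔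
    ∃ η ∈ V, (fun j => a j * η j) = η') : IsPl V₁ fun s => (∏ k, a (s k)) * q s := by
  obtain ⟨c, v, -, b, d⟩ := h.map' (V' := V₁) (LinearMap.pi fun j => a j •
    (LinearMap.proj j : (J → ℂ) →ₗ[ℂ] ℂ))
    (fun η _ e => funext fun j => (mul_eq_zero.1 (congrFun e j)).resolve_left (ha j))
    (Submodule.ext fun η => (hV η).symm)
  refine (congrArg (IsPl V₁) (funext fun s => ?_)).mp d
  rw [b, mul_left_comm]
  exact congrArg _ (det_mul_row (fun k => a (s k)) (of fun i k => v i (s k)))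

/-- direct sums -/
theorem wedge {q₂ : (N' → J) → ℂ} (h₁ : IsPl V₁ q₁) (h₂ : IsPl V₂ q₂) (hd : Disjoint V₁ V₂)
    (hV : V₁ ⊔ V₂ = V) : IsPl V (wg q₁ q₂) := by
  obtain ⟨c₁, v₁, a₁, b₁⟩ := h₁
  obtain ⟨c₂, v₂, a₂, b₂⟩ := h₂
  have s₁ : Submodule.span ℂ (range (V₁.subtype ∘ v₁)) = V₁ := by
    rw [range_comp, ← Submodule.map_span, v₁.span_eq, Submodule.map_top, V₁.range_subtype]
  have s₂ : Submodule.span ℂ (range (V₂.subtype ∘ v₂)) = V₂ := by
    rw [range_comp, ← Submodule.map_span, v₂.span_eq, Submodule.map_top, V₂.range_subtype]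
  have d := (isPl_mn (V := V) ((v₁.linearIndependent.map' V₁.subtype V₁.ker_subtype).sum_type
    (v₂.linearIndependent.map' V₂.subtype V₂.ker_subtype) (by rwa [s₁, s₂]))
    (by rw [Sum.range_eq, Submodule.span_union, Sum.elim_comp_inl, Sum.elim_comp_inr, s₁, s₂, hV])).smul
    (μ := c₁ * c₂ * (Fintype.card (Equiv.Perm N) * Fintype.card (Equiv.Perm N') : ℕ))
    (mul_ne_zero (mul_ne_zero a₁ a₂) (Nat.cast_ne_zero.2
      (mul_ne_zero Fintype.card_ne_zero Fintype.card_ne_zero)))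
  refine (congrArg (IsPl V) (funext fun s => ?_)).mp d
  rw [mul_assoc, ← wg_mn, wg, wg, Finset.mul_sum]
  refine Finset.sum_congr rfl fun σ _ => ?_
  rw [b₁, b₂]
  change _ * (_ * (mn (fun i => (v₁ i).1) _ * mn (fun i => (v₂ i).1) _)) = _
  ring

/-- exact sequences given by a projection to some of the coordinates -/
theorem exact {q' : (N' → J') → ℂ} (h₁ : IsPl V₁ q₁) (h' : IsPl V' q') (ρ : J' → J)
    (h1 : ∀ η, η ∈ V₁ ↔ η ∈ V ∧ η ∘ ρ = 0) (hV : ∀ η', η' ∈ V' ↔ ∃ η ∈ V, η ∘ ρ = η') :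
    ∃ p : (N ⊕ N' → J) → ℂ, IsPl V p ∧ ∀ s s', p (Sum.elim s (ρ ∘ s')) = q₁ s * q' s' := by
  obtain ⟨c₁, v₁, a₁, b₁⟩ := h₁
  obtain ⟨c', v', a', b'⟩ := h'
  choose u u1 u2 using fun i => (hV (v' i).1).1 (v' i).2
  have li : LinearIndependent ℂ u := .of_comp (LinearMap.funLeft ℂ ℂ ρ)
    ((show LinearMap.funLeft ℂ ℂ ρ ∘ u = V'.subtype ∘ v' from funext u2) ▸
      v'.linearIndependent.map' V'.subtype V'.ker_subtype)
  have s₁ : Submodule.span ℂ (range (V₁.subtype ∘ v₁)) = V₁ := by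
    rw [range_comp, ← Submodule.map_span, v₁.span_eq, Submodule.map_top, V₁.range_subtype]
  have k : ∀ f : N' → ℂ, (∑ i, f i • u i) ∘ ρ = (∑ i, f i • v' i).1 := fun f => funext fun j => by
    simp [← u2]
  have d := (isPl_mn (V := V) ((v₁.linearIndependent.map' V₁.subtype V₁.ker_subtype).sum_type li
    (by
      rw [s₁, Submodule.disjoint_def]
      intro η e f
      obtain ⟨g, rfl⟩ := (Submodule.mem_span_range_iff_exists_fun ℂ).1 f
      have := Fintype.linearIndependent_iff.1 v'.linearIndependent g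
        (Subtype.ext ((k g).symm.trans ((h1 _).1 e).2))
      simp [this]))
    (by
      rw [Sum.range_eq, Submodule.span_union, Sum.elim_comp_inl, Sum.elim_comp_inr, s₁]
      refine le_antisymm (sup_le (fun η e => ((h1 η).1 e).1)
        (Submodule.span_le.2 (range_subset_iff.2 u1))) fun η e => ?_
      have f := k (v'.repr ⟨η ∘ ρ, (hV _).2 ⟨η, e, rfl⟩⟩)
      rw [v'.sum_repr] at f
      refine Submodule.mem_sup.2 ⟨η - _, (h1 _).2 ⟨sub_mem e (Submodule.sum_mem _ fun i _ =>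
        Submodule.smul_mem _ _ (u1 i)), sub_eq_zero.2 f.symm⟩, _,
        (Submodule.mem_span_range_iff_exists_fun ℂ).2 ⟨_, rfl⟩, sub_add_cancel _ _⟩)).smul
    (mul_ne_zero a₁ a')
  refine ⟨_, d, fun s s' => ?_⟩
  rw [b₁, b', mul_mul_mul_comm, mn, mn, mn, ← det_fromBlocks_zero₁₂ _ (of fun i k => u i (s k))]
  refine congrArg (_ * det ·) (Matrix.ext fun i k => ?_)
  rcases i with i | i <;> rcases k with k | k
  exacts [rfl, congrFun ((h1 _).1 (v₁ i).2).2 _, rfl, congrFun (u2 i) _]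

end IsPl

/-- the coordinate subspace spanned by the image of `τ` -/
theorem isPl_top [DecidableEq J] {τ : I → J} (hτ : Injective τ)
    (hV : ∀ η, η ∈ V ↔ ∀ j ∉ range τ, η j = 0) : IsPl V (mn fun i => Pi.single (τ i) 1) := by
  refine isPl_mn ((Pi.linearIndependent_single_one J ℂ).comp τ hτ) (le_antisymm
    (Submodule.span_le.2 (range_subset_iff.2 fun i => (hV _).2 fun j a =>
      Pi.single_eq_of_ne (fun e => a ⟨i, e.symm⟩) _)) fun η a =>
    (Submodule.mem_span_range_iff_exists_fun ℂ).2 ⟨η ∘ τ, funext fun j => ?_⟩)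
  by_cases e : j ∈ range τ
  · obtain ⟨i, rfl⟩ := e
    simp [Pi.single_apply, hτ.eq_iff]
  · rw [(hV η).1 a j e, Finset.sum_apply]
    exact Finset.sum_eq_zero fun i _ => mul_eq_zero_of_right _
      (Pi.single_eq_of_ne (fun f => e ⟨i, f.symm⟩) _)

/-- the kernel of a surjective projection to some of the coordinates -/
theorem IsPl.slice {p : (N ⊕ I → J) → ℂ} (h : IsPl V p) (τ : I → J)
    (h1 : ∀ η, η ∈ V₁ ↔ η ∈ V ∧ η ∘ τ = 0) (hs : ∀ c : I → ℂ, ∃ η ∈ V, η ∘ τ = c) :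
    IsPl V₁ fun s => p (Sum.elim s τ) := by
  have t := isPl_top (V := ⊤) (τ := (id : I → I)) injective_id fun η => by simp
  have r := LinearMap.finrank_range_add_finrank_ker (LinearMap.funLeft ℂ ℂ τ ∘ₗ V.subtype)
  rw [LinearMap.range_eq_top.2 fun c => let ⟨η, a, b⟩ := hs c; ⟨⟨η, a⟩, b⟩, t.finrank, h.finrank,
    Fintype.card_sum, add_comm, ← Submodule.finrank_map_subtype_eq,
    show (LinearMap.ker (LinearMap.funLeft ℂ ℂ τ ∘ₗ V.subtype)).map V.subtype = V₁ from
      Submodule.ext fun η => ⟨fun ⟨w, a, e⟩ => e ▸ (h1 _).2 ⟨w.2, a⟩,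
        fun a => ⟨⟨η, ((h1 _).1 a).1⟩, ((h1 _).1 a).2, rfl⟩⟩] at r
  obtain ⟨q₁, h₁⟩ := exists_isPl (N := N) (Nat.add_right_cancel r)
  obtain ⟨p', a, b⟩ := h₁.exact t τ h1 fun c => ⟨fun _ => hs c, fun _ => trivial⟩
  obtain ⟨μ, c, d⟩ := a.prop h
  refine (congrArg (IsPl V₁) (funext fun s => ?_)).mp (h₁.smul c)
  have e : mn (fun i : I => (Pi.single i 1 : I → ℂ)) id = 1 := by
    rw [mn, ← det_one (n := I)]
    exact congrArg det (Matrix.ext fun i k => by simp [Pi.single_apply, one_apply, eq_comm])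
  rw [d, show p' (Sum.elim s τ) = _ from b s id]
  exact congrArg _ ((mul_one _).symm.trans (congrArg _ e.symm))

end Vale.Agent.P269.Vir
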